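import Vale.Agent.P216U.Dist

/-! Pull backs, rescalings and transfer of parametrisations under smooth convergence. -/

open Set Filter Topology Metric
open scoped ContDiff Manifold ENNReal

set_option linter.unusedSectionVars false
set_option maxSynthPendingDepth 3

noncomputable section

namespace Vale.Agent.P216U

open P216R P216G

variable {ι E : Type} [NormedAddCommGroup E] [NormedSpace ℝ E] [FiniteDimensional ℝ E]
  {V : Ultrafilter ι} {l : Filter ι}
  {X : Type} [TopologicalSpace X] [ChartedSpace E X] [IsManifold 𝓘(ℝ, E) ∞ X]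
  {N : Type} [TopologicalSpace N] [ChartedSpace E N] [IsManifold 𝓘(ℝ, E) ∞ N]
  {W K : Set X} {S : Set N} {ψ : N → X}

lemma local_comap (hS : IsOpen S) (hψ : ∀ y ∈ S, SM E ψ y) (hm : MapsTo ψ S W) {a : N} {b : E}
    (hb : b ∈ dom E a S) : ∃ (O : Set E) (τ : E → E) (y : X), IsOpen O ∧ b ∈ O ∧ O ⊆ dom E a S ∧
      ContDiffOn ℝ ∞ τ O ∧ MapsTo τ O (dom E y W) ∧ ∀ k : Ten E X, ∀ z ∈ O, co (comap ψ k) a z =
        (co k y (τ z)).bilinearComp (fderiv ℝ τ z) (fderiv ℝ τ z) := by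
  let y := ψ ((chartAt E a).symm b)
  have s : ∀ z ∈ dom E a S, SM E (ψ ∘ (chartAt E a).symm) z := fun z hz =>
    ContMDiffAt.comp z (hψ _ hz.2) (sm_symm hz.1)
  refine ⟨dom E a S ∩ (ψ ∘ (chartAt E a).symm) ⁻¹' (chartAt E y).source,
    chartAt E y ∘ ψ ∘ (chartAt E a).symm, y, ContinuousOn.isOpen_inter_preimage
      (fun z hz => (s z hz).continuousAt.continuousWithinAt) (isOpen_dom a hS)
      (chartAt E y).open_source, ⟨hb, mem_chart_source E y⟩, inter_subset_left,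
    fun z hz => (contDiffAt_chart_comp (s z hz.1) hz.2).contDiffWithinAt,
    fun z hz => mem_dom hz.2 (hm hz.1.2), fun k z hz => ?_⟩
  rw [co_comap k hz.1.1 (hψ _ hz.1.2).md, comap_eq k (s z hz.1).md hz.2, ← md_model]
  rfl

theorem TCv.comap {g : ι → Ten E X} {h : Ten E X} (hc : TCv l g h W) (hW : IsOpen W)
    (hS : IsOpen S) (hψ : ∀ y ∈ S, SM E ψ y) (hm : MapsTo ψ S W) :
    TCv l (fun n => comap ψ (g n)) (comap ψ h) S := fun a => .of_local fun b hb => by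
  obtain ⟨O, τ, y, h1, h2, h3, h4, h5, h6⟩ := local_comap hS hψ hm hb
  refine ⟨O, h1.mem_nhds h2, ?_⟩
  rw [inter_eq_right.2 h3]
  have k := ((hc y).comp (.of_isOpen h1) (isOpen_dom y hW) (.const h1.uniqueDiffOn h4) h5).map₂
    (.of_isOpen h1) (Φ := fun B L => ContinuousLinearMap.bilinearComp B L L) contDiff_bc
    (.const h1.uniqueDiffOn (h4.fderiv_of_isOpen h1 (by simp)))
  exact k.congr (fun z _ => (ev_mem l O z).mono fun q hq => h6 _ _ hq) (h6 _)

theorem FCv.comap {g : ι → ℝ → Ten E X} {h : ℝ → Ten E X} {I : Set ℝ} (hc : FCv l g h I W)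
    (hI : Nice I) (hW : IsOpen W) (hS : IsOpen S) (hψ : ∀ y ∈ S, SM E ψ y) (hm : MapsTo ψ S W) :
    FCv l (fun n t => comap ψ (g n t)) (fun t => comap ψ (h t)) I S := fun a =>
  .of_local fun b hb => by
  obtain ⟨O, τ, y, h1, h2, h3, h4, h5, h6⟩ := local_comap hS hψ hm hb.2
  refine ⟨univ ×ˢ O, (isOpen_univ.prod h1).mem_nhds ⟨trivial, h2⟩, ?_⟩
  rw [prod_inter_prod, inter_univ, inter_eq_right.2 h3]
  have n := hI.prod (.of_isOpen h1)
  have m : MapsTo (fun p : ℝ × E => (p.1, τ p.2)) (I ×ˢ O) (I ×ˢ dom E y W) :=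
    fun p hp => ⟨hp.1, h5 hp.2⟩
  have k := ((hc y).comp' n (hI.prod (.of_isOpen (isOpen_dom y hW))) (.const n.ud
    (contDiffOn_fst.prodMk (h4.comp contDiffOn_snd fun _ h => h.2))) m
    fun p _ => (ev_mem l _ p).mono fun q hq => m hq).map₂ n
    (Φ := fun B L => ContinuousLinearMap.bilinearComp B L L) contDiff_bc
    (.const n.ud ((h4.fderiv_of_isOpen h1 (by simp)).comp contDiffOn_snd fun _ h => h.2))
  exact k.congr (fun z _ => (ev_mem l _ z).mono fun q hq => h6 _ _ hq.2) fun z hz => h6 _ _ hz.2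

lemma TCv.congr {g g' : ι → Ten E X} {h h' : Ten E X} (hc : TCv l g h W)
    (e : ∀ y ∈ W, ∀ᶠ q in l ×ˢ 𝓝 y, g' q.1 q.2 = g q.1 q.2) (e' : EqOn h' h W) : TCv l g' h' W :=
  fun a => (hc a).congr (fun _ hb => ((tendsto_id.prodMap ((P216R.tendsto_symm hb.1).mono_left
    nhdsWithin_le_nhds)).eventually (e _ hb.2)).mono fun _ hq => comap_congr_right _ hq)
    fun _ hb => comap_congr_right _ (e' hb.2)

lemma FCv.congr {g g' : ι → ℝ → Ten E X} {h h' : ℝ → Ten E X} {I : Set ℝ} (hc : FCv l g h I W)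
    (e : ∀ t ∈ I, ∀ y ∈ W, ∀ᶠ q in l ×ˢ (𝓝[I] t ×ˢ 𝓝 y), g' q.1 q.2.1 q.2.2 = g q.1 q.2.1 q.2.2)
    (e' : ∀ t ∈ I, EqOn (h' t) (h t) W) : FCv l g' h' I W :=
  fun a => (hc a).congr (fun b hb => by
    rw [nhdsWithin_prod_eq]
    exact ((tendsto_id.prodMap (tendsto_id.prodMap ((P216R.tendsto_symm hb.2.1).mono_left
      nhdsWithin_le_nhds))).eventually (e _ hb.1 _ hb.2.2)).mono fun _ hq => comap_congr_right _ hq)
    fun _ hb => comap_congr_right _ (e' _ hb.1 hb.2.2)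

lemma TCv.smul {g : ι → Ten E X} {h : Ten E X} (hc : TCv l g h W) (hW : IsOpen W) {c : ι → ℝ}
    {d : ℝ} (hd : Tendsto c l (𝓝 d)) : TCv l (fun n => c n • g n) (d • h) W := fun a => by
  have o := isOpen_dom (E := E) a hW
  have k : Cv l (dom E a W) (fun n _ => c n) fun _ => d := .of_loc o fun b _ =>
    ⟨fun k => bdAt_of_bj univ_mem (.const ⟨|d| + 1, tendsto_fst.eventually
      (hd.abs.eventually (eventually_le_nhds (lt_add_one _)))⟩), hd⟩
  simp only [co_smul]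
  exact k.map₂ (.of_isOpen o) (Φ := fun (a : ℝ) (B : Bil E) => a • B) (by fun_prop) (hc a)

lemma TCv.model {G : ι → E → Bil E} {g : E → Bil E} {S : Set E} :
    TCv l G g S ↔ Cv l S G g := by simp [TCv]

lemma FCv.model {G : ι → ℝ → E → Bil E} {g : ℝ → E → Bil E} {S : Set E} {I : Set ℝ} :
    FCv l G g I S ↔ Cv l (I ×ˢ S) (fun n p => G n p.1 p.2) fun p => g p.1 p.2 := by simp [FCv]

variable {M : ι → Type} [∀ n, TopologicalSpace (M n)] [∀ n, ChartedSpace E (M n)]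
  [∀ n, IsManifold 𝓘(ℝ, E) ∞ (M n)] {U : ∀ n, Set (M n)} {g : ∀ n, Ten E (M n)}
  {F : ∀ n, X → M n} {h : Ten E X}

lemma Emb.comp (he : Emb E l U F W) (hψ : LD E ψ S) (hi : InjOn ψ S) (hm : MapsTo ψ S W) :
    Emb E l U (fun n => F n ∘ ψ) S := fun K hK hs => by
  obtain ⟨A, h1, -, h2⟩ := he _ (hK.image_of_continuousOn (hψ.smooth.continuousOn.mono hs))
    (hm.mono_left hs).image_subset
  refine ⟨S ∩ ψ ⁻¹' A, subset_inter hs (image_subset_iff.1 h1), inter_subset_left,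
    h2.mono fun n h => ⟨h.1.comp (hψ.mono (hψ.smooth.continuousOn.isOpen_inter_preimage hψ.isOpen
      h.1.isOpen) inter_subset_left) fun _ h => h.2, h.2.1.comp (hi.mono inter_subset_left)
      fun _ h => h.2, h.2.2.comp fun _ h => h.2⟩⟩

lemma Emb.md (he : Emb E l U F W) {y : X} (hy : y ∈ W) [NeBot l] :
    ∀ᶠ q in l ×ˢ 𝓝 y, MD E (F q.1) q.2 := by
  obtain ⟨A, h1, -, h2⟩ := he _ isCompact_singleton (singleton_subset_iff.2 hy)
  filter_upwards [tendsto_fst.eventually h2, tendsto_snd.eventually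
    (h2.exists.choose_spec.1.isOpen.mem_nhds (h1 rfl))] with q h3 h4 using h3.1.md h4

/-- composition with an embedding -/
theorem Conv.comp [NeBot l] (hc : Conv l U g F h W) (hψ : LD E ψ S) (hi : InjOn ψ S)
    (hm : MapsTo ψ S W) : Conv l U g (fun n => F n ∘ ψ) (comap ψ h) S :=
  ⟨hc.met.comap hψ hm, hc.emb.comp hψ hi hm, (hc.cv.comap hc.met.isOpen hψ.isOpen
    (fun _ => hψ.sm) hm).congr (fun y hy => by
      filter_upwards [(tendsto_id.prodMap (hψ.continuousAt hy)).eventually (hc.emb.md (hm hy)),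
        tendsto_snd.eventually (hψ.isOpen.mem_nhds hy)] with q h1 h2
      exact (comap_comp (f := F q.1) (k := ψ) _ h1 (hψ.md h2)).symm) fun _ _ => rfl⟩

theorem Conv.smul (hc : Conv l U g F h W) {c : ι → ℝ} {d : ℝ} (hd : Tendsto c l (𝓝 d))
    (h0 : 0 < d) : Conv l U (fun n => c n • g n) F (d • h) W :=
  ⟨hc.met.smul h0, hc.emb, by simpa only [comap_smul] using hc.cv.smul hc.met.isOpen hd⟩

/-- transfer of a parametrisation: the pulled back metrics converge on `S` -/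
theorem Conv.param [NeBot l] (hc : Conv l U g F h W) {ψ : E → X} {S : Set E} (hψ : LD E ψ S)
    (hm : MapsTo ψ S W) : Cv l S (fun n => comap (F n ∘ ψ) (g n)) (comap ψ h) :=
  TCv.model.1 ((hc.cv.comap hc.met.isOpen hψ.isOpen (fun _ => hψ.sm) hm).congr (fun y hy => by
    filter_upwards [(tendsto_id.prodMap (hψ.continuousAt hy)).eventually (hc.emb.md (hm hy)),
      tendsto_snd.eventually (hψ.isOpen.mem_nhds hy)] with q h1 h2
    exact (comap_comp (f := F q.1) (k := ψ) _ h1 (hψ.md h2)).symm) fun _ _ => rfl)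

/-- uniform closeness of all derivatives on compact subsets of open sets -/
theorem Cv.unif' {F : Type} [NormedAddCommGroup F] [NormedSpace ℝ F] [FiniteDimensional ℝ F]
    {S K : Set E} {f : ι → E → F} {g : E → F} (h : Cv V S f g) (hS : IsOpen S) (hK : IsCompact K)
    (hs : K ⊆ S) (k : ℕ) {ε : ℝ} (hε : 0 < ε) : ∀ᶠ n in V, ∀ j ≤ k, ∀ y ∈ K,
      ‖iteratedFDeriv ℝ j (f n) y - iteratedFDeriv ℝ j g y‖ < ε :=
  (eventually_all.2 fun j : Fin (k + 1) => h.unif (.of_isOpen hS) hK hs j hε).mono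
    fun n hn j hj y hy => by
    simpa only [iteratedFDerivWithin_of_isOpen _ hS (hs hy)] using hn ⟨j, by omega⟩ y hy

/-- transfer of a parametrisation on a relatively compact open set -/
theorem Conv.transfer (hc : Conv V U g F h W) {ψ : E → X} {S A K : Set E} (hψ : LD E ψ S)
    (hi : InjOn ψ S) (hm : MapsTo ψ S W) (hA : IsOpen A) (hK : IsCompact K) (h1 : A ⊆ K)
    (h2 : K ⊆ S) (k : ℕ) {ε : ℝ} (hε : 0 < ε) : ∀ᶠ n in V,
      LD E (F n ∘ ψ) A ∧ InjOn (F n ∘ ψ) A ∧ MapsTo (F n ∘ ψ) A (U n) ∧ ∀ j ≤ k, ∀ y ∈ K,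
        ‖iteratedFDeriv ℝ j (comap (F n ∘ ψ) (g n)) y - iteratedFDeriv ℝ j (comap ψ h) y‖ < ε := by
  obtain ⟨B, h3, -, h4⟩ := hc.emb.comp hψ hi hm K hK h2
  filter_upwards [h4, (hc.param hψ hm).unif' hψ.isOpen hK h2 k hε] with n h5 h6
  exact ⟨h5.1.mono hA (h1.trans h3), h5.2.1.mono (h1.trans h3), h5.2.2.mono_left (h1.trans h3), h6⟩

end Vale.Agent.P216U
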