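import Vale.Agent.P216U.Adm
import Vale.Agent.P216B.Top

/-! Distances, balls and sequences of points under smooth convergence. -/

open Set Filter Topology Metric
open scoped ContDiff Manifold ENNReal

set_option linter.unusedSectionVars false
set_option maxSynthPendingDepth 3

noncomputable section

namespace Vale.Agent.P216U

open P216R P216G

variable {ι E : Type} [NormedAddCommGroup E] [NormedSpace ℝ E] [FiniteDimensional ℝ E]
  {V : Ultrafilter ι} {l : Filter ι}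
  {X : Type} [TopologicalSpace X] [ChartedSpace E X] [IsManifold 𝓘(ℝ, E) ∞ X]
  {h : Ten E X} {W K : Set X} {M : ι → Type} [∀ n, TopologicalSpace (M n)]
  [∀ n, ChartedSpace E (M n)] [∀ n, IsManifold 𝓘(ℝ, E) ∞ (M n)] {U : ∀ n, Set (M n)}
  {g : ∀ n, Ten E (M n)} {F : ∀ n, X → M n} {p q : X} {y z : ∀ n, M n} {R r : ℝ≥0∞}

/-- the points `y n` converge to `p` -/
def Ap (l : Filter ι) (F : ∀ n, X → M n) (y : ∀ n, M n) (p : X) : Prop :=
  ∃ a : ι → X, Tendsto a l (𝓝 p) ∧ ∀ᶠ n in l, F n (a n) = y n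

lemma ap_of {a : ι → X} (h : Tendsto a l (𝓝 p)) : Ap l F (fun n => F n (a n)) p :=
  ⟨a, h, .of_forall fun _ => rfl⟩

lemma ap_const (p : X) : Ap l F (fun n => F n p) p := ap_of tendsto_const_nhds

lemma Ap.congr (h : Ap l F y p) (e : ∀ᶠ n in l, y n = z n) : Ap l F z p :=
  h.imp fun _ h => ⟨h.1, (h.2.and e).mono fun _ h => h.1.trans h.2⟩

/-- the closed balls about `p` of radius less than `R` are compact -/
def CB (h : Ten E X) (W : Set X) (p : X) (R : ℝ≥0∞) : Prop :=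
  ∀ r < R, IsCompact {z | ed h W p z ≤ r}

lemma CB.mono (H : CB h W p R) (hr : r ≤ R) : CB h W p r := fun s hs => H s (hs.trans_le hr)

lemma CB.cpt (H : CB h W p R) {s : ℝ} (hs : ENNReal.ofReal s ≤ R) (h0 : 0 < s) : Cpt h W p s :=
  fun _ ht => H _ (((ENNReal.ofReal_lt_ofReal_iff h0).2 ht).trans_le hs)

lemma cb_of_cpt {s : ℝ} (H : Cpt h W p s) : CB h W p (ENNReal.ofReal s) := fun r hr => by
  rw [← ENNReal.ofReal_toReal hr.ne_top]
  exact H _ (ENNReal.toReal_lt_of_lt_ofReal hr)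

lemma cb_of_cpl (H : Cpl h W) (hp : p ∈ W) : CB h W p ⊤ := fun r hr => by
  rw [← ENNReal.ofReal_toReal hr.ne]
  exact H p hp _

lemma CB.sub (_ : CB h W p R) (hr : r < R) : {z | ed h W p z ≤ r} ⊆ W :=
  fun _ hz => (mem_of_ed_ne (hz.trans_lt hr).ne_top).2

lemma CB.shift (H : CB h W p R) (hm : Met h W) (hr : ed h W p q + r ≤ R) (hq : ed h W p q ≠ ⊤) :
    CB h W q r := fun s hs => by
  have h1 := (ENNReal.add_lt_add_left hq hs).trans_le hr
  have := hm.isCompact_le (H _ h1) (H.sub h1) q s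
  rwa [inter_eq_right.2] at this
  exact fun z hz => (ed_triangle p q z).trans (add_le_add le_rfl hz)

lemma CB.cpl (H : CB h W p ⊤) (hm : Met h W) (hf : ∀ q ∈ W, ed h W p q ≠ ⊤) : Cpl h W :=
  fun q hq _ => H.shift hm le_top (hf q hq) _ ENNReal.ofReal_lt_top

namespace Conv

variable (hc : Conv l U g F h W)
include hc

lemma mono {W' : Set X} (ho : IsOpen W') (hs : W' ⊆ W) : Conv l U g F h W' :=
  ⟨hc.met.mono ho hs, fun K hK hK' => by
    obtain ⟨A, h1, -, h2⟩ := hc.emb K hK (hK'.trans hs)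
    exact ⟨A ∩ W', subset_inter h1 hK', inter_subset_right, h2.mono fun n h =>
      ⟨h.1.mono (h.1.isOpen.inter ho) inter_subset_left, h.2.1.mono inter_subset_left,
        h.2.2.mono_left inter_subset_left⟩⟩, hc.cv.mono ho hs⟩

lemma filter_mono {κ : Type} {l' : Filter κ} {s : κ → ι} (hs : Tendsto s l' l) :
    Conv l' (fun k => U (s k)) (fun k => g (s k)) (fun k => F (s k)) h W :=
  ⟨hc.met, fun K hK hK' => (hc.emb K hK hK').imp fun _ h => ⟨h.1, h.2.1, hs.eventually h.2.2⟩,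
    fun a => (hc.cv a).filter_mono hs⟩

lemma ap_mem (hp : p ∈ W) (hy : Ap l F y p) : ∀ᶠ n in l, y n ∈ U n := by
  obtain ⟨A, h1, h2, -, h3⟩ := hc.ai isCompact_singleton (singleton_subset_iff.2 hp)
  obtain ⟨a, h4, h5⟩ := hy
  filter_upwards [h3 2 one_lt_two, h4.eventually (h1.mem_nhds (h2 rfl)), h5] with n h6 h7 h8
  exact h8 ▸ h6.mt h7

lemma ap_zero (hp : p ∈ W) (hy : Ap l F y p) :
    Tendsto (fun n => ed (g n) (U n) (F n p) (y n)) l (𝓝 0) := by
  obtain ⟨A, h1, h2, h6, h3⟩ := hc.ai isCompact_singleton (singleton_subset_iff.2 hp)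
  obtain ⟨a, h4, h5⟩ := hy
  have h7 := ENNReal.Tendsto.const_mul (a := ENNReal.ofReal 2) (((hc.met.mono h1
    h6).tendsto_ed_right (h2 rfl)).comp h4) (Or.inr ENNReal.ofReal_ne_top)
  rw [mul_zero] at h7
  refine tendsto_of_tendsto_of_tendsto_of_le_of_le' tendsto_const_nhds h7
    (.of_forall fun _ => zero_le) ?_
  filter_upwards [h3 2 one_lt_two, h5] with n h8 h9
  exact h9 ▸ h8.ed_le two_pos p (a n)

lemma ap_lt (hy : Ap l F y p) (hz : Ap l F z q) (hr : ed h W p q < r) :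
    ∀ᶠ n in l, ed (g n) (U n) (y n) (z n) < r := by
  obtain ⟨hp, hq⟩ := mem_of_ed_ne hr.ne_top
  obtain ⟨s, h1, h2⟩ := exists_between hr
  have h3 := ((hc.ap_zero hp hy).add (tendsto_const_nhds (x := s))).add (hc.ap_zero hq hz)
  rw [zero_add, add_zero] at h3
  filter_upwards [hc.ed_lt h1, h3.eventually (gt_mem_nhds h2)] with n h4 h5
  refine lt_of_le_of_lt ((ed_triangle _ (F n q) _).trans (add_le_add
    ((ed_triangle _ (F n p) _).trans (add_le_add ed_comm.le h4.le)) le_rfl)) h5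

lemma ap_gt (hU : ∀ᶠ n in l, Hs (U n)) (H : CB h W p R) (hp : p ∈ W) (hq : q ∈ W)
    (hy : Ap l F y p) (hz : Ap l F z q) (h1 : r < R) (h2 : r < ed h W p q) :
    ∀ᶠ n in l, r < ed (g n) (U n) (y n) (z n) := by
  obtain ⟨s, h3, h4⟩ := exists_between (lt_min h1 h2)
  obtain ⟨t, h5, h6⟩ := exists_between (h4.trans_le (min_le_left _ _))
  have h7 := ((hc.ap_zero hp hy).add (tendsto_const_nhds (x := r))).add (hc.ap_zero hq hz)
  rw [zero_add, add_zero] at h7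
  filter_upwards [hc.lt_ed hU (H t h6) (H.sub h6) hp hq (fun z hz => hz.le) h5
    (h4.trans_le (min_le_right _ _)), h7.eventually (gt_mem_nhds h3)] with n h8 h9
  by_contra! h10
  exact (h9.trans h8).not_ge ((ed_triangle _ (z n) _).trans (add_le_add
    ((ed_triangle _ (y n) _).trans (add_le_add le_rfl h10)) ed_comm.le))

/-- convergence of distances -/
theorem tendsto_ed (hU : ∀ᶠ n in l, Hs (U n)) (H : CB h W p R) (hp : p ∈ W) (hq : q ∈ W)
    (hy : Ap l F y p) (hz : Ap l F z q) (hR : ed h W p q ≤ R) :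
    Tendsto (fun n => ed (g n) (U n) (y n) (z n)) l (𝓝 (ed h W p q)) :=
  tendsto_order.2 ⟨fun _ hr => hc.ap_gt hU H hp hq hy hz (hr.trans_le hR) hr,
    fun _ hr => hc.ap_lt hy hz hr⟩

theorem tendsto_dd (hU : ∀ᶠ n in l, Hs (U n)) (H : CB h W p R) (hy : Ap l F y p) (hz : Ap l F z q)
    (hR : ed h W p q ≤ R) (hf : ed h W p q ≠ ⊤) :
    Tendsto (fun n => dd (g n) (U n) (y n) (z n)) l (𝓝 (dd h W p q)) :=
  (ENNReal.tendsto_toReal hf).comp
    (hc.tendsto_ed hU H (mem_of_ed_ne hf).1 (mem_of_ed_ne hf).2 hy hz hR)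

/-- balls about points converging to `p` are captured by slightly larger balls of the limit -/
theorem ball_sub (hU : ∀ᶠ n in l, Hs (U n)) (H : CB h W p R) (hp : p ∈ W) (hy : Ap l F y p)
    {s : ℝ≥0∞} (h1 : r < s) (h2 : s ≤ R) : ∀ᶠ n in l,
      {z | ed (g n) (U n) (y n) z ≤ r} ⊆ F n '' {z | ed h W p z < s} := by
  obtain ⟨t, h3, h4⟩ := exists_between h1
  obtain ⟨c, h5, h6⟩ := exists_mul_lt h4
  have h7 := (hc.ap_zero hp hy).add (tendsto_const_nhds (x := r))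
  rw [zero_add] at h7
  have h8 := h6.trans_le h2
  filter_upwards [hc.capture hU (H _ h8) (H.sub h8) h5, h7.eventually (gt_mem_nhds h3)]
    with n h9 h10 z hz
  obtain ⟨q, q1, q2, -⟩ := h9 p ((ed_self hp).trans_le zero_le) t (fun _ h => h.le) z
    (((ed_triangle _ (y n) _).trans (add_le_add le_rfl hz)).trans_lt h10)
  exact ⟨q, lt_of_le_of_lt q1 h6, q2⟩

/-- compact subsets of balls of the limit are mapped into balls -/
theorem maps_ball (hy : Ap l F y p) (hK : IsCompact K) (hr : ∀ q ∈ K, ed h W p q < r) :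
    ∀ᶠ n in l, ∀ q ∈ K, ed (g n) (U n) (y n) (F n q) < r :=
  ev_compact (S := univ) (P := fun w => ed (g w.1) (U w.1) (y w.1) (F w.1 w.2) < r) hK
    (subset_univ K) fun q hq => by
    rw [nhdsWithin_univ]
    obtain ⟨a, h1, h2⟩ := hy
    exact (hc.filter_mono (tendsto_fst (g := 𝓝 q))).ap_lt ⟨fun w => a w.1, h1.comp tendsto_fst,
      tendsto_fst.eventually h2⟩ (ap_of tendsto_snd) (hr q hq)

theorem cb_ev (hU : ∀ᶠ n in l, Hs (U n)) (hg : ∀ᶠ n in l, Met (g n) (U n)) (H : CB h W p R)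
    (hp : p ∈ W) (hy : Ap l F y p) (hr : r < R) : ∀ᶠ n in l, CB (g n) (U n) (y n) r := by
  obtain ⟨s, h1, h2⟩ := exists_between hr
  obtain ⟨A, h3, -, h4⟩ := hc.emb _ (H s h2) (H.sub h2)
  filter_upwards [hc.ball_sub hU H hp hy h1 h2.le, hg, h4] with n h5 h6 h7 t ht
  have := h6.isCompact_le ((H s h2).image_of_continuousOn (h7.1.smooth.continuousOn.mono h3))
    (h7.2.2.mono_left h3).image_subset (y n) t
  rwa [inter_eq_right.2] at this
  exact fun z hz => (h5 (hz.trans ht.le)).imp fun w k =>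
    ⟨le_of_lt (show ed h W p w < s from k.1), k.2⟩

end Conv

/-- bounded sequences converge along ultrafilters -/
theorem Conv.exists_ap (hc : Conv V U g F h W) (hU : ∀ᶠ n in V, Hs (U n)) (H : CB h W p R)
    (hp : p ∈ W) (hy : Ap V F y p) (hr : r < R) (hz : ∀ᶠ n in V, ed (g n) (U n) (y n) (z n) ≤ r) :
    ∃ q, ed h W p q ≤ r ∧ Ap V F z q := by
  obtain ⟨s, h1, h2⟩ := exists_between hr
  have h3 : ∀ n, ∃ a, z n ∈ F n '' {z | ed h W p z < s} → ed h W p a < s ∧ F n a = z n := fun n => by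
    by_cases h : z n ∈ F n '' {z | ed h W p z < s}
    · exact h.imp fun _ h _ => h
    · exact ⟨p, fun h' => (h h').elim⟩
  choose a ha using h3
  have h4 := ((hc.ball_sub hU H hp hy h1 h2.le).and hz).mono fun n h => ha n (h.1 h.2)
  obtain ⟨q, h5, h6⟩ := (H s h2).ultrafilter_le_nhds (V.map a)
    (le_principal_iff.2 (h4.mono fun _ h => h.1.le))
  have h7 : Ap V F z q := ⟨a, h6, h4.mono fun _ h => h.2⟩
  exact ⟨q, le_of_tendsto (hc.tendsto_ed hU H hp (H.sub h2 h5) hy h7 (h5.trans h2.le)) hz, h7⟩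

lemma Conv.ap_unique [NeBot l] (hc : Conv l U g F h W) (hW : Hs W) (hp : p ∈ W) (hq : q ∈ W)
    (h1 : Ap l F y p) (h2 : Ap l F y q) : p = q := by
  obtain ⟨A, a1, -, a2⟩ := hc.emb _ (isCompact_singleton.insert p) (pair_subset hp hq)
  obtain ⟨a, h3, h4⟩ := h1
  obtain ⟨b, h5, h6⟩ := h2
  have o := a2.exists.choose_spec.1.isOpen
  refine hW.eq_of_tendsto hp hq h3 (h5.congr' ?_)
  filter_upwards [a2, h4, h6, h3.eventually (o.mem_nhds (a1 (Or.inl rfl))),
    h5.eventually (o.mem_nhds (a1 (Or.inr rfl)))] with n h7 h8 h9 h10 h11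
  exact h7.2.1 h11 h10 (h9.trans h8.symm)

namespace Lim

variable {x : ∀ n, M n} {ρ : ℝ≥0∞}

lemma ap (L : Lim l U g x ρ) : Ap l L.F x L.o := (ap_const L.o).congr L.base

lemma cb (L : Lim l U g x ρ) : CB L.h univ L.o ρ := L.cpt

lemma cb' (L : Lim l U g x ρ) {p : L.X} (hr : ed L.h univ L.o p + r ≤ ρ) : CB L.h univ p r :=
  L.cb.shift L.conv.met hr (L.lt p).ne_top

lemma ne_top (L : Lim l U g x ρ) (p q : L.X) : ed L.h univ p q ≠ ⊤ :=
  ed_ne_top_trans (ed_comm.trans_ne (L.lt p).ne_top) (L.lt q).ne_top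

lemma cpl (L : Lim l U g x ⊤) : Cpl L.h univ := L.cb.cpl L.conv.met fun q _ => (L.lt q).ne_top

lemma tendsto_ed (L : Lim l U g x ρ) (hU : ∀ᶠ n in l, Hs (U n)) {p q : L.X} (hy : Ap l L.F y p)
    (hz : Ap l L.F z q) (hR : ed L.h univ L.o p + ed L.h univ p q ≤ ρ) :
    Tendsto (fun n => ed (g n) (U n) (y n) (z n)) l (𝓝 (ed L.h univ p q)) :=
  L.conv.tendsto_ed hU (L.cb' hR) trivial trivial hy hz le_rfl

lemma tendsto_dd (L : Lim l U g x ρ) (hU : ∀ᶠ n in l, Hs (U n)) {p q : L.X} (hy : Ap l L.F y p)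
    (hz : Ap l L.F z q) (hR : ed L.h univ L.o p + ed L.h univ p q ≤ ρ) :
    Tendsto (fun n => dd (g n) (U n) (y n) (z n)) l (𝓝 (dd L.h univ p q)) :=
  L.conv.tendsto_dd hU (L.cb' hR) hy hz le_rfl (L.ne_top p q)

lemma exists_ap (L : Lim V U g x ρ) (hU : ∀ᶠ n in V, Hs (U n)) (hr : r < ρ)
    (hz : ∀ᶠ n in V, ed (g n) (U n) (x n) (z n) ≤ r) : ∃ q, ed L.h univ L.o q ≤ r ∧ Ap V L.F z q :=
  L.conv.exists_ap hU L.cb trivial L.ap hr hz

/-- limits of distance realising curves in a complete limit -/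
theorem exists_curve (L : Lim V U g x ⊤) (hU : ∀ᶠ n in V, Hs (U n)) {J : Set ℝ}
    {γ : ∀ n, ℝ → M n} (h0 : ∀ s ∈ J, ∃ r < ⊤, ∀ᶠ n in V, ed (g n) (U n) (x n) (γ n s) ≤ r)
    (h1 : ∀ s ∈ J, ∀ t ∈ J, Tendsto (fun n => ed (g n) (U n) (γ n s) (γ n t)) V
      (𝓝 (ENNReal.ofReal |s - t|))) : ∃ c : ℝ → L.X, (∀ s ∈ J, Ap V L.F (fun n => γ n s) (c s)) ∧
      ∀ s ∈ J, ∀ t ∈ J, ed L.h univ (c s) (c t) = ENNReal.ofReal |s - t| := by
  have k : ∀ s ∈ J, ∃ q, Ap V L.F (fun n => γ n s) q := fun s hs => by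
    obtain ⟨r, h2, h3⟩ := h0 s hs
    exact (L.exists_ap hU h2 h3).imp fun _ h => h.2
  have : Nonempty L.X := ⟨L.o⟩
  choose! c hc using k
  exact ⟨c, hc, fun s hs t ht =>
    tendsto_nhds_unique (L.tendsto_ed hU (hc s hs) (hc t ht) le_top) (h1 s hs t ht)⟩

end Lim

end Vale.Agent.P216U
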