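import Vale.Agent.P216U.Calc
import Mathlib.Order.Filter.Ultrafilter.Basic

/-! Smooth convergence along ultrafilters. -/

open Set Filter Topology Metric
open scoped ContDiff Nat

set_option linter.unusedSectionVars false

namespace Vale.Agent.P216U

variable {ι E F G : Type} [NormedAddCommGroup E] [NormedSpace ℝ E] [NormedAddCommGroup F]
  [NormedSpace ℝ F] [NormedAddCommGroup G] [NormedSpace ℝ G]
  {l : Filter ι} {U : Ultrafilter ι} {S : Set E} {T : Set F} {f : ι → E → F} {g : E → F} {x : E}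

/-- bounded families converge along ultrafilters -/
theorem exists_cv [FiniteDimensional ℝ F] (h : ∀ x ∈ S, ∀ k, BdAt U S k f x) :
    ∃ g, Cv U S f g := by
  choose! g hg using fun x hx => (h x hx 0).exists_lim hx
  exact ⟨g, h, hg⟩

namespace Cv

lemma tendsto (hS : Nice S) (h : Cv l S f g) (hx : x ∈ S) :
    Tendsto (fun q : ι × E => f q.1 q.2) (l ×ˢ 𝓝[S] x) (𝓝 (g x)) :=
  (h.bd x hx 1).tendsto hS hx (h.lim x hx)

lemma tendsto_seq (hS : Nice S) (h : Cv l S f g) (hx : x ∈ S) {y : ι → E}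
    (hy : Tendsto y l (𝓝[S] x)) : Tendsto (fun n => f n (y n)) l (𝓝 (g x)) :=
  (h.tendsto hS hx).comp (tendsto_id.prodMk hy)

lemma of_local (h : ∀ x ∈ S, ∃ V ∈ 𝓝 x, Cv l (S ∩ V) f g) : Cv l S f g :=
  ⟨fun x hx k => by
    obtain ⟨V, hV, h⟩ := h x hx
    exact (h.bd x ⟨hx, mem_of_mem_nhds hV⟩ k).congr_set (inter_eventuallyEq_left.2
      (mem_of_superset hV fun _ h _ => h)),
  fun x hx => by
    obtain ⟨V, hV, h⟩ := h x hx
    exact h.lim x ⟨hx, mem_of_mem_nhds hV⟩⟩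

lemma mono (h : Cv l S f g) {S' : Set E} (hs : ∀ x ∈ S', S =ᶠ[𝓝 x] S') : Cv l S' f g :=
  have k : ∀ x ∈ S', x ∈ S := fun x hx => (eq_iff_iff.1 (hs x hx).self_of_nhds).2 hx
  ⟨fun x hx n => (h.bd x (k x hx) n).congr_set (hs x hx), fun x hx => h.lim x (k x hx)⟩

lemma inter (h : Cv l S f g) {V : Set E} (hV : IsOpen V) : Cv l (S ∩ V) f g :=
  h.mono fun _ hx => (inter_eventuallyEq_left.2
    (mem_of_superset (hV.mem_nhds hx.2) fun _ h _ => h)).symm

lemma mono_open (h : Cv l S f g) {V : Set E} (hV : IsOpen V) (hs : V ⊆ S) : Cv l V f g := by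
  simpa only [inter_eq_self_of_subset_right hs] using h.inter hV

lemma congr (h : Cv l S f g) {f' : ι → E → F} {g' : E → F}
    (e : ∀ x ∈ S, ∀ᶠ q in l ×ˢ 𝓝[S] x, f' q.1 q.2 = f q.1 q.2) (e' : ∀ x ∈ S, g' x = g x) :
    Cv l S f' g' :=
  ⟨fun x hx k => (h.bd x hx k).congr (e x hx), fun x hx => e' x hx ▸
    (h.lim x hx).congr' ((ev_at (e x hx) hx).mono fun _ h => h.symm)⟩

lemma filter_mono (h : Cv l S f g) {κ : Type} {l' : Filter κ} {s : κ → ι} (hφ : Tendsto s l' l) :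
    Cv l' S (fun n => f (s n)) g :=
  ⟨fun x hx k => (h.bd x hx k).imp fun _ h => (hφ.prodMap tendsto_id).eventually h,
    fun x hx => (h.lim x hx).comp hφ⟩

lemma unique [NeBot l] (h : Cv l S f g) {g' : E → F} (h' : Cv l S f g') : EqOn g g' S :=
  fun x hx => tendsto_nhds_unique (h.lim x hx) (h'.lim x hx)

lemma const (hS : UniqueDiffOn ℝ S) (hg : ContDiffOn ℝ ∞ g S) : Cv l S (fun _ => g) g :=
  ⟨fun x hx k => .const hS hx ((hg x hx).of_le (by exact_mod_cast le_top)),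
    fun _ _ => tendsto_const_nhds⟩

lemma prodMk (hS : UniqueDiffOn ℝ S) (h : Cv l S f g) {f' : ι → E → G} {g' : E → G}
    (h' : Cv l S f' g') : Cv l S (fun n y => (f n y, f' n y)) fun y => (g y, g' y) :=
  ⟨fun x hx k => (h.bd x hx k).prodMk hS (h'.bd x hx k),
    fun x hx => (h.lim x hx).prodMk_nhds (h'.lim x hx)⟩

lemma comp' (hS : Nice S) (hT : Nice T) {f' : ι → F → G} {g' : F → G} (h' : Cv l T f' g')
    (h : Cv l S f g) (hm : MapsTo g S T) (hm' : ∀ x ∈ S, ∀ᶠ q in l ×ˢ 𝓝[S] x, f q.1 q.2 ∈ T) :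
    Cv l S (fun n y => f' n (f n y)) fun y => g' (g y) :=
  ⟨fun x hx k => (h'.bd _ (hm hx) k).comp hS.ud hT.ud (h.bd x hx k)
      (tendsto_nhdsWithin_iff.2 ⟨h.tendsto hS hx, hm' x hx⟩),
    fun x hx => h'.tendsto_seq hT (hm hx)
      (tendsto_nhdsWithin_iff.2 ⟨h.lim x hx, ev_at (hm' x hx) hx⟩)⟩

lemma comp (hS : Nice S) (hT : IsOpen T) {f' : ι → F → G} {g' : F → G} (h' : Cv l T f' g')
    (h : Cv l S f g) (hm : MapsTo g S T) : Cv l S (fun n y => f' n (f n y)) fun y => g' (g y) :=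
  h'.comp' hS (.of_isOpen hT) h hm fun _ hx => (h.tendsto hS hx).eventually (hT.mem_nhds (hm hx))

lemma map (hS : Nice S) (hT : IsOpen T) {Φ : F → G} (hΦ : ContDiffOn ℝ ∞ Φ T)
    (h : Cv l S f g) (hm : MapsTo g S T) : Cv l S (fun n y => Φ (f n y)) fun y => Φ (g y) :=
  (const hT.uniqueDiffOn hΦ).comp hS hT h hm

lemma map' (hS : Nice S) {Φ : F → G} (hΦ : ContDiff ℝ ∞ Φ) (h : Cv l S f g) :
    Cv l S (fun n y => Φ (f n y)) fun y => Φ (g y) :=
  h.map hS isOpen_univ hΦ.contDiffOn (mapsTo_univ _ _)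

lemma map₂ {H : Type} [NormedAddCommGroup H] [NormedSpace ℝ H] (hS : Nice S) {Φ : F → G → H}
    (hΦ : ContDiff ℝ ∞ fun q : F × G => Φ q.1 q.2) (h : Cv l S f g) {f' : ι → E → G} {g' : E → G}
    (h' : Cv l S f' g') : Cv l S (fun n y => Φ (f n y) (f' n y)) fun y => Φ (g y) (g' y) :=
  (h.prodMk hS.ud h').map' hS hΦ

lemma ev_cd (h : Cv l S f g) (hx : x ∈ S) (k : ℕ) :
    ∀ᶠ q in l ×ˢ 𝓝[S] x, ContDiffWithinAt ℝ k (f q.1) S q.2 :=
  (h.bd x hx k).choose_spec.mono fun _ h => h.1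

lemma hasFDerivWithinAt [NeBot l] (hS : Nice S) (h : Cv l S f g) (hx : x ∈ S) {L : E →L[ℝ] F}
    (hL : Tendsto (fun n => fderivWithin ℝ (f n) S x) l (𝓝 L)) : HasFDerivWithinAt g L S x := by
  obtain ⟨C, r, r0, h1⟩ := ((h.bd x hx 2).fderivWithin hS.ud).lip hS hx
  obtain ⟨s, s0, -, h2⟩ := hS.ev_ball hx (h.ev_cd hx 1)
  obtain ⟨t, t0, h3⟩ := hS.cv x hx
  have key : ∀ᶠ y in 𝓝[S] x, ‖g y - g x - L (y - x)‖ ≤ |C| * ‖y - x‖ * ‖y - x‖ := by
    filter_upwards [self_mem_nhdsWithin, nhdsWithin_le_nhds (ball_mem_nhds x r0),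
      nhdsWithin_le_nhds (ball_mem_nhds x s0), nhdsWithin_le_nhds (ball_mem_nhds x t0)]
      with y y0 y1 y2 y3
    refine le_of_tendsto (((h.lim y y0).sub (h.lim x hx)).sub
      (((ContinuousLinearMap.apply ℝ F (y - x)).continuous.tendsto L).comp hL)).norm ?_
    filter_upwards [h1, h2] with n h1 h2
    have sub : ∀ u ∈ S ∩ ball x t ∩ closedBall x ‖y - x‖, ∀ ρ, y ∈ ball x ρ → u ∈ S ∩ ball x ρ :=
      fun u hu ρ hρ => ⟨hu.1.1, hu.2.trans_lt (mem_ball_iff_norm.1 hρ)⟩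
    refine (h3.inter (convex_closedBall x ‖y - x‖)).norm_image_sub_le_of_norm_hasFDerivWithin_le'
      (𝕜 := ℝ) (fun u hu => ((h2 u (sub u hu s y2)).differentiableWithinAt
        (by simp)).hasFDerivWithinAt.mono fun _ h => h.1.1) (fun u hu => ?_)
      ⟨⟨hx, mem_ball_self t0⟩, mem_closedBall_self (norm_nonneg _)⟩
      ⟨⟨y0, y3⟩, mem_closedBall_iff_norm.2 le_rfl⟩
    exact (h1 x ⟨hx, mem_ball_self r0⟩ u (sub u hu r y1)).trans (mul_le_mul (le_abs_self C)
      (mem_closedBall_iff_norm.1 hu.2) (norm_nonneg _) (abs_nonneg C))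
  rw [hasFDerivWithinAt_iff_isLittleO, Asymptotics.isLittleO_iff]
  intro c hc
  have h4 : Tendsto (fun y => |C| * ‖y - x‖) (𝓝[S] x) (𝓝 0) := by
    simpa using ((tendsto_id (x := 𝓝[S] x).mono_right nhdsWithin_le_nhds).sub_const
      x).norm.const_mul |C|
  filter_upwards [key, h4.eventually (eventually_le_nhds hc)] with y h5 h6
  exact h5.trans (mul_le_mul_of_nonneg_right h6 (norm_nonneg _))

variable [FiniteDimensional ℝ E]

lemma fderiv_aux [FiniteDimensional ℝ F] (hS : Nice S) (h : Cv U S f g) :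
    DifferentiableOn ℝ g S ∧ Cv U S (fun n => fderivWithin ℝ (f n) S) (fderivWithin ℝ g S) := by
  obtain ⟨g', h'⟩ := exists_cv fun x hx k => (h.bd x hx (k + 1)).fderivWithin hS.ud
  have k := fun x hx => h.hasFDerivWithinAt hS hx (h'.lim x hx)
  exact ⟨fun x hx => (k x hx).differentiableWithinAt,
    h'.congr (fun _ _ => .of_forall fun _ => rfl) fun x hx => (k x hx).fderivWithin (hS.ud x hx)⟩

/-- the derivatives converge -/
theorem fderivWithin [FiniteDimensional ℝ F] (hS : Nice S) (h : Cv U S f g) :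
    Cv U S (fun n => fderivWithin ℝ (f n) S) (fderivWithin ℝ g S) := (h.fderiv_aux hS).2

theorem fderiv [FiniteDimensional ℝ F] (hS : IsOpen S) (h : Cv U S f g) :
    Cv U S (fun n => fderiv ℝ (f n)) (fderiv ℝ g) :=
  (h.fderivWithin (.of_isOpen hS)).congr (fun x _ => (ev_mem (U : Filter ι) S x).mono fun q hq =>
    (fderivWithin_of_isOpen (f := f q.1) hS hq).symm) fun _ hx => (fderivWithin_of_isOpen hS hx).symm

/-- the limit is smooth -/
theorem contDiffOn [FiniteDimensional ℝ F] (hS : Nice S) (h : Cv U S f g) :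
    ContDiffOn ℝ ∞ g S := by
  refine contDiffOn_infty.2 fun k => ?_
  induction k generalizing F with
  | zero => exact contDiffOn_zero.2 (h.fderiv_aux hS).1.continuousOn
  | succ k ih =>
    exact contDiffOn_succ_of_fderivWithin (h.fderiv_aux hS).1 (by simp) (ih (h.fderivWithin hS))

/-- all derivatives converge -/
theorem iter [FiniteDimensional ℝ F] (hS : Nice S) (h : Cv U S f g) (hx : x ∈ S) (k : ℕ) :
    Tendsto (fun q : ι × E => iteratedFDerivWithin ℝ k (f q.1) S q.2) (U ×ˢ 𝓝[S] x)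
      (𝓝 (iteratedFDerivWithin ℝ k g S x)) := by
  induction k generalizing F with
  | zero =>
    simp only [iteratedFDerivWithin_zero_eq_comp]
    exact ((continuousMultilinearCurryFin0 ℝ E F).symm.continuous.tendsto _).comp (h.tendsto hS hx)
  | succ k ih =>
    rw [iteratedFDerivWithin_succ_eq_comp_right hS.ud hx]
    refine (((continuousMultilinearCurryRightEquiv' ℝ k E F).symm.continuous.tendsto _).comp
      (ih (h.fderivWithin hS))).congr' ((ev_mem (U : Filter ι) S x).mono fun q hq => ?_)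
    exact (iteratedFDerivWithin_succ_eq_comp_right hS.ud hq).symm

end Cv

/-- from local statements to compact sets -/
lemma ev_compact {X : Type*} [TopologicalSpace X] {S K : Set X} (hK : IsCompact K) (hs : K ⊆ S)
    {P : ι × X → Prop} (h : ∀ x ∈ K, ∀ᶠ q in l ×ˢ 𝓝[S] x, P q) : ∀ᶠ n in l, ∀ y ∈ K, P (n, y) := by
  refine hK.induction_on (p := fun A => ∀ᶠ n in l, ∀ y ∈ A, P (n, y)) (by simp)
    (fun A B hAB h => h.mono fun n hn y hy => hn y (hAB hy))
    (fun A B hA hB => (hA.and hB).mono fun n hn y hy => hy.elim (hn.1 y) (hn.2 y)) fun x hx => ?_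
  obtain ⟨a, ha, b, hb, h⟩ := eventually_prod_iff.1 (h x hx)
  exact ⟨{y | b y}, nhdsWithin_mono x hs hb, ha.mono fun n hn y hy => h hn hy⟩

/-- uniform convergence of all derivatives on compact sets -/
theorem Cv.unif [FiniteDimensional ℝ E] [FiniteDimensional ℝ F] (hS : Nice S) (h : Cv U S f g)
    {K : Set E} (hK : IsCompact K) (hs : K ⊆ S) (k : ℕ) {ε : ℝ} (hε : 0 < ε) :
    ∀ᶠ n in U, ∀ y ∈ K, ‖iteratedFDerivWithin ℝ k (f n) S y - iteratedFDerivWithin ℝ k g S y‖ < ε :=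
  ev_compact (P := fun q => ‖iteratedFDerivWithin ℝ k (f q.1) S q.2 -
    iteratedFDerivWithin ℝ k g S q.2‖ < ε) hK hs fun x hx => by
    have h1 := (h.iter hS (hs hx) k).sub ((((h.contDiffOn hS).continuousOn_iteratedFDerivWithin
      (m := k) (by exact_mod_cast le_top) hS.ud) x (hs hx)).tendsto.comp tendsto_snd)
    rw [sub_self] at h1
    exact h1.norm.eventually (gt_mem_nhds (by simpa using hε))

end Vale.Agent.P216U
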