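import Vale.Agent.P216U.Cv
import Mathlib.Geometry.Manifold.PartitionOfUnity

/-! Gluing approximate charts into one family of maps. -/

open Set Filter Topology Metric Function
open scoped ContDiff Manifold

set_option linter.unusedSectionVars false

noncomputable section

namespace Vale.Agent.P216U

variable {ι E F G : Type} [NormedAddCommGroup E] [NormedSpace ℝ E] [NormedAddCommGroup F]
  [NormedSpace ℝ F] [NormedAddCommGroup G] [NormedSpace ℝ G] {l : Filter ι}

lemma ev_ev' {X : Type} [TopologicalSpace X] {x : X} {P : ι × X → Prop}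
    (h : ∀ᶠ q in l ×ˢ 𝓝 x, P q) : ∀ᶠ q in l ×ˢ 𝓝 x, ∀ᶠ y in 𝓝 q.2, P (q.1, y) := by
  obtain ⟨a, ha, b, hb, h⟩ := eventually_prod_iff.1 h
  filter_upwards [tendsto_fst.eventually ha, tendsto_snd.eventually hb.eventually_nhds] with q h1 h2
  exact h2.mono fun y hy => h h1 hy

/-- bounded jets near `a`, and the values at `a` converge to `b` -/
structure Loc (l : Filter ι) (f : ι → E → F) (a : E) (b : F) : Prop where
  bd : ∀ k, BdAt l univ k f a
  lim : Tendsto (fun n => f n a) l (𝓝 b)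

namespace Loc

variable {f : ι → E → F} {a : E} {b : F}

lemma tendsto (h : Loc l f a b) : Tendsto (fun q : ι × E => f q.1 q.2) (l ×ˢ 𝓝 a) (𝓝 b) := by
  simpa only [nhdsWithin_univ] using
    (h.bd 1).tendsto (.of_isOpen isOpen_univ) (mem_univ a) h.lim

lemma comp {g : ι → F → G} {c : G} (hg : Loc l g b c) (h : Loc l f a b) :
    Loc l (fun n y => g n (f n y)) a c :=
  ⟨fun k => (hg.bd k).comp uniqueDiffOn_univ uniqueDiffOn_univ (h.bd k)
    (by simpa only [nhdsWithin_univ] using h.tendsto), hg.tendsto.comp (tendsto_id.prodMk h.lim)⟩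

lemma const {g : E → F} (h : ContDiffAt ℝ ∞ g a) : Loc l (fun _ => g) a (g a) :=
  ⟨fun _ => .const uniqueDiffOn_univ (mem_univ a)
    (h.of_le (by exact_mod_cast le_top)).contDiffWithinAt, tendsto_const_nhds⟩

lemma prodMk (h : Loc l f a b) {g : ι → E → G} {c : G} (h' : Loc l g a c) :
    Loc l (fun n y => (f n y, g n y)) a (b, c) :=
  ⟨fun k => (h.bd k).prodMk uniqueDiffOn_univ (h'.bd k), h.lim.prodMk_nhds h'.lim⟩

lemma map (h : Loc l f a b) {Φ : F → G} (hΦ : ContDiffAt ℝ ∞ Φ b) :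
    Loc l (fun n y => Φ (f n y)) a (Φ b) := (const hΦ).comp h

lemma congr (h : Loc l f a b) {f' : ι → E → F} (e : ∀ᶠ q in l ×ˢ 𝓝 a, f' q.1 q.2 = f q.1 q.2) :
    Loc l f' a b :=
  have e' : ∀ᶠ q in l ×ˢ 𝓝[univ] a, f' q.1 q.2 = f q.1 q.2 := by rwa [nhdsWithin_univ]
  ⟨fun k => (h.bd k).congr e', h.lim.congr' ((ev_at e' (mem_univ a)).mono fun _ h => h.symm)⟩

end Loc

/-- `Loc` for maps that are smooth near `a` -/
structure SLoc (l : Filter ι) (f : ι → E → F) (a : E) (b : F) : Prop extends Loc l f a b where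
  sm : ∀ᶠ q in l ×ˢ 𝓝 a, ContDiffAt ℝ ∞ (f q.1) q.2

namespace SLoc

variable {f : ι → E → F} {a : E} {b : F}

lemma comp {g : ι → F → G} {c : G} (hg : SLoc l g b c) (h : SLoc l f a b) :
    SLoc l (fun n y => g n (f n y)) a c :=
  ⟨hg.toLoc.comp h.toLoc, (((tendsto_fst.prodMk h.tendsto).eventually hg.sm).and h.sm).mono
    fun q hq => hq.1.comp q.2 hq.2⟩

lemma const {g : E → F} (h : ∀ᶠ y in 𝓝 a, ContDiffAt ℝ ∞ g y) : SLoc l (fun _ => g) a (g a) :=
  ⟨.const h.self_of_nhds, tendsto_snd.eventually h⟩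

lemma prodMk (h : SLoc l f a b) {g : ι → E → G} {c : G} (h' : SLoc l g a c) :
    SLoc l (fun n y => (f n y, g n y)) a (b, c) :=
  ⟨h.toLoc.prodMk h'.toLoc, (h.sm.and h'.sm).mono fun _ hq => hq.1.prodMk hq.2⟩

lemma congr (h : SLoc l f a b) {f' : ι → E → F} (e : ∀ᶠ q in l ×ˢ 𝓝 a, f' q.1 q.2 = f q.1 q.2) :
    SLoc l f' a b :=
  ⟨h.toLoc.congr e, (h.sm.and (ev_ev' e)).mono fun _ hq => hq.1.congr_of_eventuallyEq hq.2⟩

end SLoc

lemma Cv.of_loc {S : Set E} {f : ι → E → F} {g : E → F} (hS : IsOpen S)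
    (h : ∀ a ∈ S, Loc l f a (g a)) : Cv l S f g :=
  ⟨fun a ha k => ((h a ha).bd k).congr_set
    (by filter_upwards [hS.mem_nhds ha] with y hy using (eq_true hy).symm), fun a ha => (h a ha).lim⟩

lemma Cv.loc {S : Set E} {f : ι → E → F} {g : E → F} (h : Cv l S f g) {a : E} (ha : S ∈ 𝓝 a) :
    Loc l f a (g a) :=
  ⟨fun k => (h.bd a (mem_of_mem_nhds ha) k).congr_set
    (by filter_upwards [ha] with y hy using eq_true hy), h.lim a (mem_of_mem_nhds ha)⟩

/-- approximate atlases -/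
structure Apx (l : Filter ι) (M : ι → Type) (E X : Type) [NormedAddCommGroup E] [NormedSpace ℝ E]
    [TopologicalSpace X] [ChartedSpace E X] where
  φ : X → ∀ n, E → M n
  inv : X → ∀ n, M n → E
  li : ∀ p, ∀ᶠ n in l, ∀ a ∈ (chartAt E p).target, inv p n (φ p n a) = a
  tr : ∀ p q y, y ∈ (chartAt E p).source → y ∈ (chartAt E q).source →
    (∀ᶠ w in l ×ˢ 𝓝 (chartAt E p y), φ p w.1 w.2 ∈ φ q w.1 '' (chartAt E q).target) ∧
    SLoc l (fun n b => inv q n (φ p n b)) (chartAt E p y) (chartAt E q y)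

variable {M : ι → Type} {X : Type} [TopologicalSpace X] [ChartedSpace E X]

lemma tendsto_chart (l : Filter ι) {q y : X} (h : y ∈ (chartAt E q).source) :
    Tendsto (fun w : ι × X => (w.1, chartAt E q w.2)) (l ×ˢ 𝓝 y) (l ×ˢ 𝓝 (chartAt E q y)) :=
  tendsto_id.prodMap ((chartAt E q).continuousAt h)

lemma tendsto_symm (l : Filter ι) {q y : X} (h : y ∈ (chartAt E q).source) :
    Tendsto (fun w : ι × E => (w.1, (chartAt E q).symm w.2)) (l ×ˢ 𝓝 (chartAt E q y)) (l ×ˢ 𝓝 y) :=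
  tendsto_id.prodMap ((chartAt E q).tendsto_symm h)

namespace Apx

variable (A : Apx l M E X)

/-- near `y`, read in the approximate chart `q`, the maps `G n` converge to the identity -/
def Adm (G : ∀ n, X → M n) (q y : X) : Prop :=
  ∃ β : ι → E → E, SLoc l β (chartAt E q y) (chartAt E q y) ∧
    ∀ᶠ w in l ×ˢ 𝓝 y, G w.1 w.2 = A.φ q w.1 (β w.1 (chartAt E q w.2))

variable {A} {G : ∀ n, X → M n} {q y : X}

lemma Adm.congr (h : A.Adm G q y) {G' : ∀ n, X → M n}
    (e : ∀ᶠ w in l ×ˢ 𝓝 y, G' w.1 w.2 = G w.1 w.2) : A.Adm G' q y :=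
  h.imp fun _ h => ⟨h.1, (h.2.and e).mono fun _ h => h.2.trans h.1⟩

lemma Adm.spec (h : A.Adm G q y) (hy : y ∈ (chartAt E q).source) :
    SLoc l (fun n b => A.inv q n (G n ((chartAt E q).symm b))) (chartAt E q y) (chartAt E q y) ∧
    ∀ᶠ w in l ×ˢ 𝓝 y, G w.1 w.2 = A.φ q w.1 (A.inv q w.1 (G w.1 w.2)) := by
  obtain ⟨β, h1, h2⟩ := h
  have o := (chartAt E q).open_target.mem_nhds ((chartAt E q).map_source hy)
  have h3 : ∀ᶠ w in l ×ˢ 𝓝 y, A.inv q w.1 (G w.1 w.2) = β w.1 (chartAt E q w.2) := by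
    filter_upwards [h2, (h1.tendsto.comp (tendsto_chart l hy)).eventually o,
      tendsto_fst.eventually (A.li q)] with w h2 h3 h4
    rw [h2]; exact h4 _ h3
  refine ⟨h1.congr ?_, (h2.and h3).mono fun w h => by rw [h.2]; exact h.1⟩
  filter_upwards [(tendsto_symm l hy).eventually h3, tendsto_snd.eventually o] with w h4 h5
  rwa [(chartAt E q).right_inv h5] at h4

variable [IsManifold 𝓘(ℝ, E) ∞ X]

lemma _root_.Vale.Agent.P216U.contDiffAt_trans {q q' y : X} (h : y ∈ (chartAt E q).source)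
    (h' : y ∈ (chartAt E q').source) :
    ContDiffAt ℝ ∞ (fun b => chartAt E q ((chartAt E q').symm b)) (chartAt E q' y) := by
  have h1 := contMDiffAt_symm_of_mem_maximalAtlas (I := 𝓘(ℝ, E)) (n := ∞)
    (IsManifold.chart_mem_maximalAtlas q') ((chartAt E q').map_source h')
  have h2 := contMDiffAt_of_mem_maximalAtlas (I := 𝓘(ℝ, E)) (n := ∞)
    (IsManifold.chart_mem_maximalAtlas q) h
  rw [← (chartAt E q').left_inv h'] at h2
  exact (h2.comp _ h1).contDiffAt

lemma _root_.Vale.Agent.P216U.ev_trans {q q' y : X} (h : y ∈ (chartAt E q).source)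
    (h' : y ∈ (chartAt E q').source) : ∀ᶠ a in 𝓝 (chartAt E q' y),
    ContDiffAt ℝ ∞ (fun b => chartAt E q ((chartAt E q').symm b)) a := by
  filter_upwards [(chartAt E q').open_target.mem_nhds ((chartAt E q').map_source h'),
    ((chartAt E q').tendsto_symm h').eventually ((chartAt E q).open_source.mem_nhds h)] with a h1 h2
  have := contDiffAt_trans h2 ((chartAt E q').map_target h1)
  rwa [(chartAt E q').right_inv h1] at this

lemma Adm.change (h : A.Adm G q y) {q' : X} (hy : y ∈ (chartAt E q).source)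
    (hy' : y ∈ (chartAt E q').source) : A.Adm G q' y := by
  obtain ⟨β, h1, h2⟩ := h
  have h3 := SLoc.const (l := l) (ev_trans hy hy')
  rw [(chartAt E q').left_inv hy'] at h3
  refine ⟨_, (A.tr q q' y hy hy').2.comp (h1.comp h3), ?_⟩
  filter_upwards [h2, (tendsto_fst.prodMk (h1.tendsto.comp (tendsto_chart l hy))).eventually
    (A.tr q q' y hy hy').1, tendsto_fst.eventually (A.li q'),
    tendsto_snd.eventually ((chartAt E q').open_source.mem_nhds hy')] with w h4 ⟨b, h5, h6⟩ h7 h8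
  rw [(chartAt E q').left_inv h8, h4]
  exact h6.symm.trans (congrArg _ ((h7 b h5).symm.trans (congrArg _ h6)))

open Classical in
/-- one gluing step -/
def step (A : Apx l M E X) (c : X) (χ : X → ℝ) (G : ∀ n, X → M n) (n : ι) (z : X) : M n :=
  if χ z = 0 then G n z else
    A.φ c n (A.inv c n (G n z) + χ z • (chartAt E c z - A.inv c n (G n z)))

variable {c : X} {χ : X → ℝ}

lemma step_zero {z : X} (h : χ z = 0) (n : ι) : A.step c χ G n z = G n z := if_pos h

lemma step_one {z : X} (h : χ z = 1) (n : ι) : A.step c χ G n z = A.φ c n (chartAt E c z) := by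
  simp [step, h]

lemma adm_one (h : χ =ᶠ[𝓝 y] 1) : A.Adm (A.step c χ G) c y :=
  ⟨_, .const (.of_forall fun _ => contDiffAt_id), (tendsto_snd.eventually h).mono fun w hw => step_one hw w.1⟩

lemma Adm.step (h : A.Adm G q y) (hy : y ∈ (chartAt E q).source)
    (hχ : ContMDiff 𝓘(ℝ, E) 𝓘(ℝ, ℝ) ∞ χ) (hs : tsupport χ ⊆ (chartAt E c).source) :
    A.Adm (A.step c χ G) q y := by
  by_cases h0 : y ∈ tsupport χ
  swap
  · exact h.congr ((tendsto_snd.eventually (notMem_tsupport_iff_eventuallyEq.1 h0)).mono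
      fun w hw => step_zero hw w.1)
  have hc := hs h0
  obtain ⟨h1, h2⟩ := (h.change hy hc).spec hc
  have h3 := SLoc.const (l := l) (g := χ ∘ (chartAt E c).symm) (mem_of_superset
    ((chartAt E c).open_target.mem_nhds ((chartAt E c).map_source hc)) fun _ hb => ((hχ _).comp _
      (contMDiffAt_symm_of_mem_maximalAtlas (I := 𝓘(ℝ, E)) (n := ∞)
      (IsManifold.chart_mem_maximalAtlas c) hb)).contDiffAt)
  have h4 := (SLoc.const (g := fun v : E × ℝ × E => v.1 + v.2.1 • (v.2.2 - v.1))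
    (.of_forall fun _ => by fun_prop)).comp
    (h1.prodMk (h3.prodMk (.const (.of_forall fun _ => contDiffAt_id))))
  simp only [id, sub_self, smul_zero, add_zero] at h4
  refine Adm.change ⟨_, h4, ?_⟩ hc hy
  filter_upwards [h2, tendsto_snd.eventually ((chartAt E c).open_source.mem_nhds hc)] with w h5 h6
  simp only [comp, (chartAt E c).left_inv h6, Apx.step]
  split_ifs with h7
  · simpa [h7] using h5
  · rfl

end Apx

variable [IsManifold 𝓘(ℝ, E) ∞ X] [FiniteDimensional ℝ E] [T2Space X] [SigmaCompactSpace X]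

lemma exists_bumps (o : X) : ∃ (c : ℕ → X) (χ : ℕ → X → ℝ),
    (∀ j, ContMDiff 𝓘(ℝ, E) 𝓘(ℝ, ℝ) ∞ (χ j) ∧ tsupport (χ j) ⊆ (chartAt E (c j)).source) ∧
    (∀ y, ∃ j, χ j =ᶠ[𝓝 y] 1) ∧ ∀ y, ∃ J, ∀ᶠ z in 𝓝 y, ∀ j ≥ J, χ j z = 0 := by
  obtain ⟨κ, f, -⟩ := SmoothBumpCovering.exists_isSubordinate 𝓘(ℝ, E) (isClosed_univ (X := X))
    fun _ _ => univ_mem
  have := countable_univ_iff.1 (f.locallyFinite.countable_univ fun i => (f i).nonempty_support)
  obtain ⟨e, he⟩ := exists_injective_nat κ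
  refine ⟨extend e f.c fun _ => o, extend e (fun i => f i) 0, fun j => ?_,
    fun y => ⟨e (f.ind y trivial), he.extend_apply _ _ _ ▸ f.eventuallyEq_one y trivial⟩,
    fun y => ?_⟩
  · by_cases h : ∃ i, e i = j
    · obtain ⟨i, rfl⟩ := h
      rw [he.extend_apply, he.extend_apply]
      exact ⟨(f i).contMDiff, (f i).tsupport_subset_chartAt_source⟩
    · rw [extend_apply' _ _ _ h]
      exact ⟨contMDiff_const, by simp⟩
  · obtain ⟨t, ht, h⟩ := f.locallyFinite y
    obtain ⟨J, hJ⟩ := (h.image e).bddAbove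
    refine ⟨J + 1, mem_of_superset ht fun z hz j hj => ?_⟩
    by_cases h : ∃ i, e i = j
    · obtain ⟨i, rfl⟩ := h
      rw [he.extend_apply]
      by_contra h0
      exact absurd (hJ ⟨i, ⟨z, h0, hz⟩, rfl⟩) (by omega)
    · rw [extend_apply' _ _ _ h]; rfl

/-- one family of maps, admissible everywhere -/
theorem Apx.exists_adm (A : Apx l M E X) (o : X) : ∃ F : ∀ n, X → M n,
    (∀ q y, y ∈ (chartAt E q).source → A.Adm F q y) ∧
    ∀ᶠ z in 𝓝 o, ∀ n, F n z = A.φ o n (chartAt E o z) := by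
  obtain ⟨c, χ, h1, h2, h3⟩ := exists_bumps (E := E) o
  let G : ℕ → ∀ n, X → M n := fun j => j.rec (fun n _ => A.φ o n 0) fun j G => A.step (c j) (χ j) G
  have k1 : ∀ z a, (∀ j ≥ a, χ j z = 0) → ∀ n, ∀ b ≥ a, G b n z = G a n z := fun z a h n b hb => by
    induction b, hb using Nat.le_induction with
    | base => rfl
    | succ b hb ih => exact (Apx.step_zero (h b hb) n).trans ih
  have k2 : ∀ q y, y ∈ (chartAt E q).source → ∀ j, χ j =ᶠ[𝓝 y] 1 → ∀ b ≥ j + 1,
      A.Adm (G b) q y := fun q y hy j h b hb => by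
    induction b, hb using Nat.le_induction with
    | base => exact (Apx.adm_one h).change ((h1 j).2 (subset_tsupport _
        (by simp [h.self_of_nhds]))) hy
    | succ b hb ih => exact ih.step hy (h1 b).1 (h1 b).2
  choose J hJ using h3
  obtain ⟨f⟩ : Nonempty (SmoothBumpFunction 𝓘(ℝ, E) o) := inferInstance
  refine ⟨A.step o f fun n z => G (J z) n z, fun q y hy => Apx.Adm.step ?_ hy f.contMDiff
    f.tsupport_subset_chartAt_source, f.eventuallyEq_one.mono fun z hz => Apx.step_one hz⟩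
  obtain ⟨j, hj⟩ := h2 y
  refine (k2 q y hy j hj (max (J y) (j + 1)) (le_max_right _ _)).congr
    ((tendsto_snd.eventually (hJ y)).mono fun w hw => ?_)
  rw [← k1 w.2 _ (hJ w.2).self_of_nhds w.1 _ (le_max_left _ (J y)), k1 w.2 _ hw w.1 _
    (le_max_right _ _), k1 w.2 _ hw w.1 _ (le_max_left _ _)]

end Vale.Agent.P216U
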