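import Vale.Agent.P216U.Conv
import Vale.Agent.P216U.Glue
import Vale.Agent.P216B.Mid

/-! Comparison of metrics and distances under smooth convergence. -/

open Set Filter Topology Metric
open scoped ContDiff Manifold ENNReal

set_option linter.unusedSectionVars false
set_option maxSynthPendingDepth 3

noncomputable section

namespace Vale.Agent.P216U

open P216R P216G

variable {ι E : Type} [NormedAddCommGroup E] [NormedSpace ℝ E] [FiniteDimensional ℝ E]
  {M : ι → Type} [∀ n, TopologicalSpace (M n)] [∀ n, ChartedSpace E (M n)]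
  [∀ n, IsManifold 𝓘(ℝ, E) ∞ (M n)]
  {X : Type} [TopologicalSpace X] [ChartedSpace E X] [IsManifold 𝓘(ℝ, E) ∞ X] {l : Filter ι}

lemma coercive {B : Bil E} (h : ∀ v, v ≠ 0 → 0 < B v v) : ∃ c > 0, ∀ v, c * ‖v‖ ^ 2 ≤ B v v := by
  have := FiniteDimensional.proper_real E
  obtain ⟨c, c0, hc⟩ := (isCompact_sphere (0 : E) 1).exists_forall_le' (f := fun v => B v v)
    (by fun_prop) (a := 0) fun v hv => h v (ne_of_mem_sphere hv one_ne_zero)
  refine ⟨c, c0, fun v => ?_⟩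
  rcases eq_or_ne v 0 with rfl | hv
  · simp
  have h0 := norm_pos_iff.2 hv
  have := hc (‖v‖⁻¹ • v) (by simp [norm_smul, h0.ne'])
  simp only [map_smul, smul_apply, smul_eq_mul] at this
  rw [← le_div_iff₀ (by positivity)]
  exact this.trans_eq (by field_simp)

/-- forms close to a positive form are comparable -/
lemma ev_cmp {B : Bil E} (h : ∀ v, v ≠ 0 → 0 < B v v) {s : ℝ} (hs : 1 < s) :
    ∀ᶠ p : Bil E × Bil E in 𝓝 (B, B), ∀ v, p.1 v v ≤ s * p.2 v v := by
  obtain ⟨c, c0, hc⟩ := coercive h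
  have e0 : 0 < (s - 1) / (s + 1) * c := by
    have := sub_pos.2 hs
    positivity
  rw [nhds_prod_eq]
  filter_upwards [tendsto_fst.eventually (closedBall_mem_nhds B e0),
    tendsto_snd.eventually (closedBall_mem_nhds B e0)] with p h1 h2 v
  have k : ∀ A : Bil E, dist A B ≤ (s - 1) / (s + 1) * c →
      (s + 1) * |A v v - B v v| ≤ (s - 1) * B v v := fun A hA => by
    have h3 := (A - B).le_opNorm₂ v v
    rw [← dist_eq_norm A B] at h3
    have h4 : (s + 1) * dist A B ≤ (s - 1) * c := by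
      rwa [div_mul_eq_mul_div, le_div_iff₀' (by linarith)] at hA
    have h5 : |A v v - B v v| ≤ dist A B * ‖v‖ ^ 2 := by simpa [sq, mul_assoc] using h3
    nlinarith [hc v, sq_nonneg ‖v‖]
  have h3 := k _ h1
  have h4 := k _ h2
  have s0 : 0 < s + 1 := by linarith
  have h5 := mul_le_mul_of_nonneg_left (le_abs_self (p.1 v v - B v v)) s0.le
  have h6 := mul_le_mul_of_nonneg_left (neg_abs_le (p.2 v v - B v v)) s0.le
  have h7 : 2 * B v v ≤ (s + 1) * p.2 v v := by linarith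
  refine le_of_mul_le_mul_left ?_ s0
  nlinarith

variable {g : ι → Ten E X} {h : Ten E X} {W K : Set X}

lemma TCv.loc (hc : TCv l g h W) (hW : IsOpen W) {a y : X} (ha : y ∈ (chartAt E a).source)
    (hy : y ∈ W) : Loc l (fun n => co (g n) a) (chartAt E a y) (co h a (chartAt E a y)) :=
  (hc a).loc ((isOpen_dom a hW).mem_nhds (mem_dom ha hy))

lemma TCv.mono (hc : TCv l g h W) {V : Set X} (hV : IsOpen V) (hs : V ⊆ W) : TCv l g h V :=
  fun a => (hc a).mono_open (isOpen_dom a hV) (dom_mono a hs)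

lemma TCv.lim (hc : TCv l g h W) {y : X} (hy : y ∈ W) : Tendsto (fun n => g n y) l (𝓝 (h y)) := by
  simpa only [co_pt] using (hc y).lim _ (pt_mem_dom hy)

lemma TCv.tendsto (hc : TCv l g h W) (hW : IsOpen W) {y : X} (hy : y ∈ W) :
    Tendsto (fun q : ι × X => co (g q.1) y (chartAt E y q.2)) (l ×ˢ 𝓝 y) (𝓝 (h y)) := by
  have h1 := (hc.loc hW (mem_chart_source E y) hy).tendsto.comp
    (tendsto_chart l (mem_chart_source E y))
  rw [show co h y (chartAt E y y) = h y from co_pt h y] at h1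
  exact h1

lemma tendsto_co (hm : Met h W) {y : X} (hy : y ∈ W) :
    Tendsto (fun z => co h y (chartAt E y z)) (𝓝 y) (𝓝 (h y)) := by
  have h1 := ((hm.isMetricOn y).contDiffAt (pt_mem_dom hy)).continuousAt.tendsto
  rw [co_pt] at h1
  exact h1.comp ((chartAt E y).continuousAt (mem_chart_source E y))

lemma eq_co (k : Ten E X) {y z : X} (hz : z ∈ (chartAt E y).source) (v w : E) :
    k z v w = co k y (chartAt E y z) (md E (chartAt E y) z v) (md E (chartAt E y) z w) := by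
  rw [← comap_apply, comap_chart k hz]

lemma TCv.cmp_at (hc : TCv l g h W) (hm : Met h W) {y : X} (hy : y ∈ W) {s : ℝ} (hs : 1 < s) :
    ∀ᶠ q in l ×ˢ 𝓝 y, ∀ v, g q.1 q.2 v v ≤ s * h q.2 v v ∧ h q.2 v v ≤ s * g q.1 q.2 v v := by
  have h1 := hc.tendsto hm.isOpen hy
  have h2 := (tendsto_co hm hy).comp (tendsto_snd (f := l))
  filter_upwards [(h1.prodMk_nhds h2).eventually (ev_cmp (hm.pos y hy) hs),
    (h2.prodMk_nhds h1).eventually (ev_cmp (hm.pos y hy) hs),
    tendsto_snd.eventually ((chartAt E y).open_source.mem_nhds (mem_chart_source E y))]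
    with q h3 h4 h5 v
  rw [eq_co _ h5, eq_co h h5]
  exact ⟨h3 _, h4 _⟩

/-- comparison on compact sets -/
theorem TCv.cmp (hc : TCv l g h W) (hm : Met h W) (hK : IsCompact K) (hs : K ⊆ W) {s : ℝ}
    (h1 : 1 < s) : ∀ᶠ n in l, ∀ y ∈ K, ∀ v, g n y v v ≤ s * h y v v ∧ h y v v ≤ s * g n y v v :=
  ev_compact (S := univ) (P := fun q => ∀ v, g q.1 q.2 v v ≤ s * h q.2 v v ∧
    h q.2 v v ≤ s * g q.1 q.2 v v) hK (subset_univ K) fun y hy => by
    rw [nhdsWithin_univ]; exact hc.cmp_at hm (hs hy) h1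

lemma exists_between_compact (E : Type) [NormedAddCommGroup E] [NormedSpace ℝ E]
    [FiniteDimensional ℝ E] {X : Type} [TopologicalSpace X] [ChartedSpace E X] {K W : Set X}
    (hK : IsCompact K) (hW : IsOpen W) (hs : K ⊆ W) :
    ∃ V K', IsOpen V ∧ IsCompact K' ∧ K ⊆ V ∧ V ⊆ K' ∧ K' ⊆ W := by
  have := FiniteDimensional.proper_real E
  have := ChartedSpace.locallyCompactSpace E X
  obtain ⟨L, h1, h2, h3⟩ := exists_compact_between hK hW hs
  exact ⟨_, L, isOpen_interior, h1, h2, interior_subset, h3⟩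

variable {U : ∀ n, Set (M n)} {g : ∀ n, Ten E (M n)} {F : ∀ n, X → M n}

/-- `F n` is an almost isometric embedding of `V` -/
structure AI {N : Type} [TopologicalSpace N] [ChartedSpace E N] (U : Set N) (g : Ten E N)
    (F : X → N) (h : Ten E X) (V : Set X) (s : ℝ) :
    Prop where
  ld : LD E F V
  inj : InjOn F V
  mt : MapsTo F V U
  le : ∀ y ∈ V, ∀ v, comap F g y v v ≤ s ^ 2 * h y v v
  ge : ∀ y ∈ V, ∀ v, h y v v ≤ s ^ 2 * comap F g y v v

theorem Conv.ai (hc : Conv l U g F h W) (hK : IsCompact K) (hs : K ⊆ W) :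
    ∃ V, IsOpen V ∧ K ⊆ V ∧ V ⊆ W ∧ ∀ s > 1, ∀ᶠ n in l, AI (U n) (g n) (F n) h V s := by
  obtain ⟨V, K', h1, h2, h3, h4, h5⟩ := exists_between_compact E hK hc.met.isOpen hs
  obtain ⟨V', h6, -, h7⟩ := hc.emb K' h2 h5
  refine ⟨V, h1, h3, h4.trans h5, fun s hs => ?_⟩
  filter_upwards [h7, hc.cv.cmp hc.met h2 h5 (one_lt_pow₀ hs two_ne_zero)] with n ⟨a, b, c⟩ d
  exact ⟨a.mono h1 (h4.trans h6), b.mono (h4.trans h6), c.mono_left (h4.trans h6),
    fun y hy v => (d y (h4 hy) v).1, fun y hy v => (d y (h4 hy) v).2⟩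

lemma AI.ed_le {N : Type} [TopologicalSpace N] [ChartedSpace E N] {U : Set N} {g : Ten E N}
    {F : X → N} {V : Set X} {s : ℝ}
    (H : AI U g F h V s) (hs : 0 < s) (p q : X) :
    ed g U (F p) (F q) ≤ ENNReal.ofReal s * ed h V p q :=
  ed_map_le H.ld.isOpen (H.ld.smooth.of_le (by exact_mod_cast le_top)) H.mt hs H.le p q

lemma exists_mul_lt {a r : ℝ≥0∞} (h : a < r) : ∃ s > 1, ENNReal.ofReal s * a < r := by
  have h1 : Tendsto (fun s => ENNReal.ofReal s * a) (𝓝[>] 1) (𝓝 a) := by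
    simpa using ENNReal.Tendsto.mul_const (b := a) ((ENNReal.continuous_ofReal.tendsto 1).mono_left
      (nhdsWithin_le_nhds (s := Ioi 1))) (Or.inr h.ne_top)
  obtain ⟨s, h2, h3⟩ := ((h1.eventually (gt_mem_nhds h)).and self_mem_nhdsWithin).exists
  exact ⟨s, h3, h2⟩

/-- upper semicontinuity of the distance -/
theorem Conv.ed_lt (hc : Conv l U g F h W) {p q : X} {r : ℝ≥0∞} (hr : ed h W p q < r) :
    ∀ᶠ n in l, ed (g n) (U n) (F n p) (F n q) < r := by
  obtain ⟨K, h1, h2, h3⟩ := exists_compact_ed_lt hr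
  obtain ⟨V, -, h4, -, h5⟩ := hc.ai h1 h2
  obtain ⟨s, h6, h7⟩ := exists_mul_lt (h3 V h4)
  exact (h5 s h6).mono fun n hn => (hn.ed_le (one_pos.trans h6) p q).trans_lt h7

/-- balls about `F n p` are captured -/
theorem Conv.capture (hc : Conv l U g F h W) (hU : ∀ᶠ n in l, Hs (U n)) (hK : IsCompact K)
    (hs : K ⊆ W) {s : ℝ} (h1 : 1 < s) : ∀ᶠ n in l, ∀ p ∈ K, ∀ r : ℝ≥0∞,
      (∀ q, ed h W p q < ENNReal.ofReal s * r → q ∈ K) → ∀ z, ed (g n) (U n) (F n p) z < r →
      ∃ q ∈ K, F n q = z ∧ ed h W p q ≤ ENNReal.ofReal s * ed (g n) (U n) (F n p) z := by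
  obtain ⟨V, -, h2, h3, h4⟩ := hc.ai hK hs
  filter_upwards [h4 s h1, hU] with n H h5 p hp r hr z hz
  obtain ⟨q, h6, h7, h8⟩ := ed_pull H.ld H.inj H.mt h5 (one_pos.trans h1) H.ge hK h2 (h2 hp)
    (fun q hq => hr q ((ed_anti h3).trans_lt hq)) hz
  exact ⟨q, h6, h7, (ed_anti h3).trans h8⟩

/-- lower semicontinuity of the distance from a point with a relatively compact ball -/
theorem Conv.lt_ed (hc : Conv l U g F h W) (hU : ∀ᶠ n in l, Hs (U n)) (hK : IsCompact K)
    (hs : K ⊆ W) {p q : X} (hp : p ∈ W) (hq : q ∈ W) {R r : ℝ≥0∞}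
    (hR : ∀ z, ed h W p z < R → z ∈ K) (h1 : r < R) (h2 : r < ed h W p q) :
    ∀ᶠ n in l, r < ed (g n) (U n) (F n p) (F n q) := by
  obtain ⟨r', h3, h4⟩ := exists_between (lt_min h1 h2)
  obtain ⟨s, h5, h6⟩ := exists_mul_lt h4
  have hK' := (hK.insert q).insert p
  have hs' : insert p (insert q K) ⊆ W := insert_subset hp (insert_subset hq hs)
  obtain ⟨V, h7, -, h8⟩ := hc.emb _ hK' hs'
  filter_upwards [hc.capture hU hK' hs' h5, h8] with n h9 h10
  by_contra h11
  have h12 := (not_lt.1 h11).trans_lt h3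
  obtain ⟨z, z1, z2, z3⟩ := h9 p (mem_insert _ _) r' (fun z hz => Or.inr (Or.inr
    (hR z (hz.trans (h6.trans_le (min_le_left _ _)))))) _ h12
  rw [h10.2.1 (h7 z1) (h7 (Or.inr (Or.inl rfl))) z2] at z3
  exact (z3.trans (mul_le_mul_right h12.le _)).not_gt (h6.trans_le (min_le_right _ _))

end Vale.Agent.P216U
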