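import Vale.Agent.P216U.Adm
import Vale.Agent.P216S.Lim
import Vale.Agent.P216R.Nat

/-! The curvature tensor and its covariant derivatives under smooth convergence. -/

open Set Filter Topology Metric
open scoped ContDiff Manifold ENNReal

set_option linter.unusedSectionVars false
set_option maxSynthPendingDepth 3

noncomputable section

namespace Vale.Agent.P216U

open P216R P216G P216S P219.RG

variable {ι E : Type} [NormedAddCommGroup E] [NormedSpace ℝ E] [FiniteDimensional ℝ E]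
  {V : Ultrafilter ι} {l : Filter ι}

section chart

variable {S : Set E} {G : ι → E → Bil E} {g : E → Bil E}

lemma Cv.fst {F H : Type} [NormedAddCommGroup F] [NormedSpace ℝ F] [NormedAddCommGroup H]
    [NormedSpace ℝ H] {f : ι → E → F} {f' : E → F} (h : Cv l S f f') (hS : IsOpen S) :
    Cv l (S ×ˢ (univ : Set H)) (fun n p => f n p.1) fun p => f' p.1 :=
  have o := hS.prod (isOpen_univ (X := H))
  h.comp (.of_isOpen o) hS (.const o.uniqueDiffOn contDiffOn_fst) fun _ h => h.1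

lemma curvB_of_diff {G : E → Bil E} {u : E} (h : DifferentiableAt ℝ (chrisB G) u) (x y z : E) :
    curvB G u x y z = curv G u x y z := by
  have k : ∀ v w x, fderiv ℝ (fun p => chris G p v w) u x = fderiv ℝ (chrisB G) u x v w :=
    fun v w x => by
    simp_rw [← chrisB_apply]
    rw [((h.hasFDerivAt.clm_apply (hasFDerivAt_const v u)).clm_apply (hasFDerivAt_const w u)).fderiv]
    simp
  simp [curv, k, curvB, chrisB_apply]
  abel

lemma cv_nab (h : Cv V S G g) (hg : IsMetricOn g S) {k : ℕ} {T : ι → E × (Fin k → E) → ℝ}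
    {t : E × (Fin k → E) → ℝ} (hT : Cv V (S ×ˢ univ) T t) :
    Cv V (S ×ˢ univ) (fun n => nab (G n) (T n)) (nab g t) := by
  have o := hg.isOpen.prod (isOpen_univ (X := Fin (k + 1) → E))
  have o' := hg.isOpen.prod (isOpen_univ (X := Fin k → E))
  have h1 := (hT.fderiv o').comp (.of_isOpen o) o' (.const o.uniqueDiffOn
    (g := fun p : E × (Fin (k + 1) → E) => (p.1, Fin.tail p.2))
    (contDiff_fst.prodMk (contDiff_pi.2 fun b => by unfold Fin.tail; fun_prop)).contDiffOn)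
    fun _ h => ⟨h.1, trivial⟩
  have h2 := ((cv_chrisB h hg).fst hg.isOpen).map₂ (.of_isOpen o)
    (Φ := fun C (v : Fin (k + 1) → E) => (v 0, fun b : Fin k => -C (v 0) (v b.succ)))
    (ContDiff.prodMk (by fun_prop) (contDiff_pi.2 fun b => ((contDiff_fst.clm_apply
      (by fun_prop)).clm_apply (by fun_prop)).neg)) (.const o.uniqueDiffOn contDiffOn_snd)
  have h3 := cv_app (.of_isOpen o) h1 h2
  simp only [chrisB_apply] at h3
  exact h3

/-- the covariant derivatives of the curvature converge -/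
theorem cv_rmG (h : Cv V S G g) (hg : IsMetricOn g S) (k : ℕ) :
    Cv V (S ×ˢ univ) (fun n => rmG (G n) k) (rmG g k) := by
  induction k with
  | succ k ih => exact cv_nab h hg ih
  | zero =>
    have o := hg.isOpen.prod (isOpen_univ (X := Fin 4 → E))
    have n := Nice.of_isOpen o
    have c : ∀ i, Cv (V : Filter ι) (S ×ˢ univ) (fun _ (p : E × (Fin 4 → E)) => p.2 i) fun p => p.2 i :=
      fun i => .const o.uniqueDiffOn (by fun_prop)
    refine (cv_app n (cv_app n (h.fst hg.isOpen) (cv_app n (cv_app n (cv_app n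
      ((cv_curvB h hg).fst hg.isOpen) (c 0)) (c 1)) (c 2))) (c 3)).congr (fun p hp => ?_)
      fun p hp => by rw [curvB_apply hg hp.1]; rfl
    obtain ⟨_, h1⟩ := ((cv_chrisB h hg).loc (hg.isOpen.mem_nhds hp.1)).bd 1
    rw [nhdsWithin_univ] at h1
    filter_upwards [(tendsto_id.prodMap (continuous_fst.tendsto p |>.mono_left
      nhdsWithin_le_nhds)).eventually h1] with q hq
    rw [curvB_of_diff (G := G q.1) (u := q.2.1)
      ((contDiffWithinAt_univ.1 hq.1).differentiableAt (by simp))]; rfl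

lemma tendsto_rmG (h : Cv V S G g) (hg : IsMetricOn g S) (k : ℕ) {a : E} (ha : a ∈ S)
    (v : Fin (k + 4) → E) : Tendsto (fun q : (ι × E) × (Fin (k + 4) → E) =>
      rmG (G q.1.1) k (q.1.2, q.2)) (((V : Filter ι) ×ˢ 𝓝 a) ×ˢ 𝓝 v) (𝓝 (rmG g k (a, v))) :=
  ((cv_rmG h hg k).loc ((hg.isOpen.prod isOpen_univ).mem_nhds ⟨ha, trivial⟩)).tendsto.comp
    ((tendsto_fst.comp tendsto_fst).prodMk
      ((tendsto_snd.comp tendsto_fst).prodMk_nhds tendsto_snd))

lemma tendsto_quad (h : Cv l S G g) (hg : IsMetricOn g S) {a : E} (ha : a ∈ S) (v : E) :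
    Tendsto (fun q : (ι × E) × E => G q.1.1 q.1.2 q.2 q.2) ((l ×ˢ 𝓝 a) ×ˢ 𝓝 v) (𝓝 (g a v v)) := by
  have h1 : Continuous fun p : Bil E × E => p.1 p.2 p.2 := by fun_prop
  have h2 := (h1.tendsto (g a, v)).comp (((h.loc (hg.isOpen.mem_nhds ha)).tendsto.comp
    tendsto_fst).prodMk_nhds (tendsto_snd (g := 𝓝 v)))
  exact h2

/-- bounds pass to the limit -/
lemma rmB_lim (h : Cv V S G g) (hg : IsMetricOn g S) {k : ℕ} {a : E} (ha : a ∈ S) {b : ι → E}
    (hb : Tendsto b V (𝓝 a)) {C : ℝ} (hC : ∀ᶠ n in V, RmB (G n) k (b n) C) : RmB g k a C := by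
  have t : ∀ {F : Type} [TopologicalSpace F] (v : F), Tendsto (fun n => ((n, b n), v)) V
      (((V : Filter ι) ×ˢ 𝓝 a) ×ˢ 𝓝 v) := fun v =>
    (tendsto_id.prodMk hb).prodMk tendsto_const_nhds
  have h1 : ∀ v : Fin (k + 4) → E, (∀ i, g a (v i) (v i) < 1) → |rmG g k (a, v)| ≤ C := fun v hv => by
    refine le_of_tendsto ((tendsto_rmG h hg k ha v).comp (t v)).abs ?_
    filter_upwards [hC, eventually_all.2 fun i => ((tendsto_quad h hg ha (v i)).comp
      (t (v i))).eventually (gt_mem_nhds (hv i))] with n h1 h2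
    have := h1 v fun i => (h2 i).le
    rwa [Rm_model] at this
  intro v hv
  have h2 : Tendsto (fun s : ℝ => (a, s • v)) (𝓝[<] 1) (𝓝 (a, v)) := by
    simpa using (show Continuous fun s : ℝ => (a, s • v) by fun_prop).tendsto 1 |>.mono_left
      nhdsWithin_le_nhds
  rw [Rm_model]
  refine le_of_tendsto ((contDiffAt_rmG hg ha k v).continuousAt.tendsto.comp h2).abs ?_
  filter_upwards [Ioo_mem_nhdsLT zero_lt_one] with s hs
  refine h1 _ fun i => ?_
  simp only [Pi.smul_apply, map_smul, smul_apply, smul_eq_mul]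
  nlinarith [hv i, hs.1, hs.2, mul_pos hs.1 hs.1]

/-- bounds of the limit are almost attained -/
lemma rmB_ev (h : Cv V S G g) (hg : IsMetricOn g S) {k : ℕ} {a : E} (ha : a ∈ S) {C C' : ℝ}
    (hC : RmB g k a C) (h' : C < C') : ∀ᶠ q in (V : Filter ι) ×ˢ 𝓝 a, RmB (G q.1) k q.2 C' := by
  have := FiniteDimensional.proper_real E
  obtain ⟨c, c0, hc⟩ := coercive (hg.pos a ha)
  have h1 := (tendsto_const_nhds.prodMk_nhds (h.loc (hg.isOpen.mem_nhds ha)).tendsto).eventually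
    (ev_cmp (hg.pos a ha) one_lt_two)
  have h2 := ev_compact (l := (V : Filter ι) ×ˢ 𝓝 a) (S := univ)
    (P := fun q : (ι × E) × (Fin (k + 4) → E) => (∀ i, G q.1.1 q.1.2 (q.2 i) (q.2 i) ≤ 1) →
      |rmG (G q.1.1) k (q.1.2, q.2)| ≤ C') (isCompact_closedBall 0 (√(2 / c))) (subset_univ _)
    fun v _ => by
      rw [nhdsWithin_univ]
      by_cases hv : ∀ i, g a (v i) (v i) ≤ 1
      · have := hC v hv
        rw [Rm_model] at this
        exact ((tendsto_rmG h hg k ha v).abs.eventually (gt_mem_nhds (this.trans_lt h'))).mono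
          fun q hq _ => hq.le
      · obtain ⟨i, hi⟩ := not_forall.1 hv
        exact (((tendsto_quad h hg ha (v i)).comp (tendsto_id.prodMap
          ((continuous_apply i).tendsto v))).eventually (lt_mem_nhds (not_le.1 hi))).mono
          fun q hq h => ((h i).not_gt hq).elim
  filter_upwards [h1, h2] with q h3 h4 v hv
  rw [Rm_model]
  refine h4 v (mem_closedBall_zero_iff.2 ((pi_norm_le_iff_of_nonneg (by positivity)).2 fun i =>
    Real.le_sqrt_of_sq_le ?_)) hv
  rw [le_div_iff₀ c0]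
  nlinarith [hc (v i), h3 (v i), hv i]

end chart

variable {X : Type} [TopologicalSpace X] [ChartedSpace E X] [IsManifold 𝓘(ℝ, E) ∞ X]
  {h : Ten E X} {W K : Set X}

section fixed

variable {g : ι → Ten E X}

theorem TCv.rm (hc : TCv V g h W) (hm : Met h W) {y : X} (hy : y ∈ W) (k : ℕ)
    (v : Fin (k + 4) → E) : Tendsto (fun n => Rm (g n) k y v) V (𝓝 (Rm h k y v)) :=
  (cv_rmG (hc y) (hm.isMetricOn y) k).lim _ ⟨pt_mem_dom hy, trivial⟩

/-- near `y` the tensors `g n` are eventually metrics -/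
def EvM (l : Filter ι) (g : ι → Ten E X) (y : X) : Prop :=
  ∀ᶠ q in l ×ˢ 𝓝 y, ∃ A, Met (g q.1) A ∧ q.2 ∈ A

lemma EvM.li {y : X} (H : EvM l g y) :
    ∀ᶠ q in l ×ˢ 𝓝 y, LI (g q.1) (co (g q.1) y) (chartAt E y) q.2 := by
  filter_upwards [H, tendsto_snd.eventually
    ((chartAt E y).open_source.mem_nhds (mem_chart_source E y))] with q ⟨A, h1, h2⟩ h3
  exact li_chart h1 h2 h3

theorem TCv.rmB_lim (hc : TCv V g h W) (hm : Met h W) {y : X} (hy : y ∈ W) (H : EvM V g y)
    {p : ι → X} (hp : Tendsto p V (𝓝 y)) {k : ℕ} {C : ℝ} (hC : ∀ᶠ n in V, RmB (g n) k (p n) C) :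
    RmB h k y C :=
  ((li_chart hm hy (mem_chart_source E y)).RmB k C).2 (P216U.rmB_lim (hc y) (hm.isMetricOn y)
    (pt_mem_dom hy) (((chartAt E y).continuousAt (mem_chart_source E y)).tendsto.comp hp)
    ((hC.and ((tendsto_id.prodMk hp).eventually H.li)).mono fun _ h => (h.2.RmB k C).1 h.1))

theorem TCv.rmB_ev (hc : TCv V g h W) (hm : Met h W) {y : X} (hy : y ∈ W) (H : EvM V g y)
    {k : ℕ} {C C' : ℝ} (hC : RmB h k y C) (h' : C < C') :
    ∀ᶠ q in (V : Filter ι) ×ˢ 𝓝 y, RmB (g q.1) k q.2 C' :=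
  (H.li.and ((tendsto_chart _ (mem_chart_source E y)).eventually (P216U.rmB_ev (hc y)
    (hm.isMetricOn y) (pt_mem_dom hy) (((li_chart hm hy (mem_chart_source E y)).RmB k C).1 hC)
    h'))).mono fun _ h => (h.1.RmB k C').2 h.2

end fixed

variable {M : ι → Type} [∀ n, TopologicalSpace (M n)] [∀ n, ChartedSpace E (M n)]
  [∀ n, IsManifold 𝓘(ℝ, E) ∞ (M n)] {U : ∀ n, Set (M n)} {g : ∀ n, Ten E (M n)} {F : ∀ n, X → M n}

lemma Emb.nhds (he : Emb E l U F W) (hW : IsOpen W) {y : X} (hy : y ∈ W) :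
    ∃ A, IsOpen A ∧ y ∈ A ∧ A ⊆ W ∧
      ∀ᶠ n in l, LD E (F n) A ∧ InjOn (F n) A ∧ MapsTo (F n) A (U n) := by
  obtain ⟨A, K, h1, h2, h3, h4, h5⟩ := exists_between_compact E isCompact_singleton hW
    (singleton_subset_iff.2 hy)
  obtain ⟨B, h6, -, h7⟩ := he K h2 h5
  exact ⟨A, h1, h3 rfl, h4.trans h5, h7.mono fun n h => ⟨h.1.mono h1 (h4.trans h6),
    h.2.1.mono (h4.trans h6), h.2.2.mono_left (h4.trans h6)⟩⟩

/-- `F n` is a local isometry for the pulled back metric -/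
lemma Conv.li (hc : Conv l U g F h W) (hg : ∀ᶠ n in l, Met (g n) (U n)) {y : X} (hy : y ∈ W) :
    ∀ᶠ q in l ×ˢ 𝓝 y, LI (comap (F q.1) (g q.1)) (g q.1) (F q.1) q.2 := by
  obtain ⟨A, h1, h2, -, h3⟩ := hc.emb.nhds hc.met.isOpen hy
  filter_upwards [tendsto_fst.eventually h3, tendsto_fst.eventually hg,
    tendsto_snd.eventually (h1.mem_nhds h2)] with q h4 h5 h6
  exact li_comap h5 h4.1 h6 (h4.2.2 h6)

lemma Conv.evM (hc : Conv l U g F h W) (hg : ∀ᶠ n in l, Met (g n) (U n)) {y : X} (hy : y ∈ W) :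
    EvM l (fun n => comap (F n) (g n)) y := (hc.li hg hy).mono fun _ h => h.met'

/-- curvature bounds pass to the limit -/
theorem Conv.rmB_lim (hc : Conv V U g F h W) (hg : ∀ᶠ n in V, Met (g n) (U n)) {y : X}
    (hy : y ∈ W) {p : ι → X} (hp : Tendsto p V (𝓝 y)) {k : ℕ} {C : ℝ}
    (hC : ∀ᶠ n in V, RmB (g n) k (F n (p n)) C) : RmB h k y C :=
  hc.cv.rmB_lim hc.met hy (hc.evM hg hy) hp ((hC.and ((tendsto_id.prodMk hp).eventually
    (hc.li hg hy))).mono fun _ h => (h.2.RmB k C).2 h.1)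

theorem Conv.rmB_ev (hc : Conv V U g F h W) (hg : ∀ᶠ n in V, Met (g n) (U n)) {y : X}
    (hy : y ∈ W) {k : ℕ} {C C' : ℝ} (hC : RmB h k y C) (h' : C < C') :
    ∀ᶠ q in (V : Filter ι) ×ˢ 𝓝 y, RmB (g q.1) k (F q.1 q.2) C' :=
  ((hc.li hg hy).and (hc.cv.rmB_ev hc.met hy (hc.evM hg hy) hC h')).mono
    fun _ h => (h.1.RmB k C').1 h.2

/-- curvature bounds of the limit are almost attained on compact sets -/
theorem Conv.rmB_cpt (hc : Conv V U g F h W) (hg : ∀ᶠ n in V, Met (g n) (U n)) (hK : IsCompact K)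
    (hs : K ⊆ W) {k : ℕ} {C C' : ℝ} (hC : ∀ y ∈ K, RmB h k y C) (h' : C < C') :
    ∀ᶠ n in V, ∀ y ∈ K, RmB (g n) k (F n y) C' :=
  ev_compact (S := univ) (P := fun q => RmB (g q.1) k (F q.1 q.2) C') hK (subset_univ K)
    fun y hy => by rw [nhdsWithin_univ]; exact hc.rmB_ev hg (hs hy) (hC y hy) h'

theorem Conv.rm (hc : Conv V U g F h W) (hg : ∀ᶠ n in V, Met (g n) (U n)) {y : X} (hy : y ∈ W)
    (k : ℕ) (v : Fin (k + 4) → E) :
    Tendsto (fun n => Rm (g n) k (F n y) fun i => md E (F n) y (v i)) V (𝓝 (Rm h k y v)) :=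
  (hc.cv.rm hc.met hy k v).congr' ((ev_pt (hc.li hg hy)).mono fun _ h => h.Rm k v)

end Vale.Agent.P216U
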