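import Vale.Agent.P216U.Resc
import Vale.Agent.P216FA.Defs
import Vale.Agent.P216SG.Soft

/-! Canonical neighbourhoods and smooth convergence. -/

open Set Filter Topology
open scoped ContDiff Manifold ENNReal

set_option maxSynthPendingDepth 3

noncomputable section

namespace Vale.Agent.P216U

open P216R P216DC P216FA P216BF
open P216SG hiding Emb

section static

variable {M : Type} [TopologicalSpace M] [ChartedSpace E3 M] {g : Ten E3 M} {U V : Set M} {x y : M}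
  {a a' e e' : ℝ}

lemma ne_top_of_dd (h : 0 < dd g U x y) : ed g U x y ≠ ⊤ := fun e => by simp [dd, e] at h

/-- the end points of an almost line may be taken at an exact distance -/
lemma al_exact (h : AL g U x a e) (h0 : 0 < a') (ha : a' ≤ a) (he : e < e') :
    ∃ p q, ed g U x p = ENNReal.ofReal a' ∧ ed g U x q = ENNReal.ofReal a' ∧
      2 * a' ≤ dd g U p q + e' := by
  obtain ⟨p, -, q, -, h1, h2, h3⟩ := h
  have e0 : 0 < (e' - e) / 2 := by linarith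
  obtain ⟨p', a1, a2, a3, a4⟩ := exists_mid_dd (ne_top_of_dd (h0.trans_le (ha.trans h1))) h0.le
    (ha.trans h1) e0
  obtain ⟨q', b1, b2, b3, b4⟩ := exists_mid_dd (ne_top_of_dd (h0.trans_le (ha.trans h2))) h0.le
    (ha.trans h2) e0
  refine ⟨p', q', by rw [← a3, ofReal_dd a1], by rw [← b3, ofReal_dd b1], ?_⟩
  have c := ed_ne_top_trans (ed_comm.trans_ne a1) b1
  have := dd_triangle (ed_comm.trans_ne a2) (ed_ne_top_trans c b2)
  have := dd_triangle c b2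
  rw [dd_comm (x := p') (y := p)] at a4
  linarith

lemma al_of_exact {p q : M} (h0 : 0 ≤ a) (h1 : ed g U x p = ENNReal.ofReal a)
    (h2 : ed g U x q = ENNReal.ofReal a) (h : 2 * a ≤ dd g U p q + e) : AL g U x a e := by
  have e1 : dd g U x p = a := by rw [dd, h1, ENNReal.toReal_ofReal h0]
  have e2 : dd g U x q = a := by rw [dd, h2, ENNReal.toReal_ofReal h0]
  exact ⟨p, (mem_of_ed_ne (h1.trans_ne ENNReal.ofReal_ne_top)).2, q,
    (mem_of_ed_ne (h2.trans_ne ENNReal.ofReal_ne_top)).2, e1.ge, e2.ge, by linarith⟩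

lemma al_mono (h : AL g U x a e) (ha : a' ≤ a) (he : e ≤ e') : AL g U x a' e' :=
  let ⟨p, hp, q, hq, h1, h2, h3⟩ := h
  ⟨p, hp, q, hq, ha.trans h1, ha.trans h2, by linarith⟩

lemma pin_mono (h : Pin g U a) (hV : V ⊆ U) : Pin g V a := fun y hy => h y (hV hy)

lemma sg_pos (h : 0 < Sc g x) : 0 < sg g x := inv_pos.2 (Real.sqrt_pos.2 h)

lemma sg_one (h : Sc g x = 1) : sg g x = 1 := by simp [sg, h]

lemma ofReal_two (h : ed g U x y = ENNReal.ofReal a) {z : M} (h' : ed g U x z = ENNReal.ofReal a)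
    (h0 : 0 ≤ a) : ed g U y z ≤ ENNReal.ofReal (2 * a) := by
  rw [two_mul, ENNReal.ofReal_add h0 h0]
  exact (ed_triangle y x z).trans (add_le_add (ed_comm.trans h).le h'.le)

end static

variable {ι : Type} {l : Ultrafilter ι} {X : Type} [TopologicalSpace X] [ChartedSpace E3 X]
  [IsManifold 𝓘(ℝ, E3) ∞ X] {h : Ten E3 X} {W : Set X} {M : ι → Type}
  [∀ n, TopologicalSpace (M n)] [∀ n, ChartedSpace E3 (M n)] [∀ n, IsManifold 𝓘(ℝ, E3) ∞ (M n)]
  {U : ∀ n, Set (M n)} {g : ∀ n, Ten E3 (M n)} {F : ∀ n, X → M n} {p : X} {y : ∀ n, M n}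
  {R : ℝ≥0∞} {s δ ε A A' C C' w e e' : ℝ}

namespace Conv

variable (hc : Conv l U g F h W)
include hc

lemma sc_ap (hg : ∀ᶠ n in l, Met (g n) (U n)) (hp : p ∈ W) (hy : Ap l F y p) :
    Tendsto (fun n => Sc (g n) (y n)) l (𝓝 (Sc h p)) :=
  let ⟨_, h1, h2⟩ := hy
  ((conv_sc hc hg hp).comp (tendsto_id.prodMk h1)).congr' (h2.mono fun _ e => congrArg _ e)

lemma sg_ap (hg : ∀ᶠ n in l, Met (g n) (U n)) (hp : p ∈ W) (hy : Ap l F y p) (h0 : 0 < Sc h p) :
    Tendsto (fun n => sg (g n) (y n)) l (𝓝 (sg h p)) :=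
  (hc.sc_ap hg hp hy).sqrt.inv₀ (Real.sqrt_pos.2 h0).ne'

lemma rmB_ap (hg : ∀ᶠ n in l, Met (g n) (U n)) (hp : p ∈ W) (hy : Ap l F y p) {k : ℕ}
    {c : ι → ℝ} (hC : RmB h k p C) (hc' : Tendsto c l (𝓝 C')) (h' : C < C') :
    ∀ᶠ n in l, RmB (g n) k (y n) (c n) := by
  obtain ⟨a, h1, h2⟩ := hy
  obtain ⟨D, h3, h4⟩ := exists_between h'
  filter_upwards [(tendsto_id.prodMk h1).eventually (hc.rmB_ev hg hp hC h3), h2,
    hc'.eventually (lt_mem_nhds h4)] with n k1 k2 k3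
  exact rmB_mono (k2 ▸ k1) k3.le

lemma rmB_ap_lim (hg : ∀ᶠ n in l, Met (g n) (U n)) (hp : p ∈ W) (hy : Ap l F y p) {k : ℕ}
    {c : ι → ℝ} (hc' : Tendsto c l (𝓝 C)) (H : ∀ᶠ n in l, RmB (g n) k (y n) (c n)) :
    RmB h k p C := fun v hv => le_of_forall_gt_imp_ge_of_dense fun D hD => by
  obtain ⟨a, h1, h2⟩ := hy
  refine hc.rmB_lim hg hp h1 ?_ v hv
  filter_upwards [H, h2, hc'.eventually (gt_mem_nhds hD)] with n k1 k2 k3
  exact k2 ▸ rmB_mono k1 k3.le

/-- necks of the limit are necks of the approximating manifolds -/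
theorem neck_ev {φ : E3 → X} (H : Neck h W φ s δ) (hδ : δ < ε) :
    ∀ᶠ n in l, Neck (g n) (U n) (F n ∘ φ) s ε := by
  have h1 : ε⁻¹ < δ⁻¹ := inv_strictAnti₀ H.dpos hδ
  refine H.ev hδ ?_ (hc.param H.emb.ld H.emb.mem)
  exact (hc.transfer H.emb.ld H.emb.inj H.emb.mem isOpen_ann isCompact_cann anl_sub_cann
    (cann_sub_anl h1) 0 one_pos).mono fun n k => ⟨k.1, k.2.1, k.2.2.1⟩

theorem cen_ev (H : Cen h W p s δ) (hδ : δ < ε) : ∀ᶠ n in l, Cen (g n) (U n) (F n p) s ε :=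
  let ⟨_, h1, x, hx, e⟩ := H
  (hc.neck_ev h1 hδ).mono fun n k => ⟨_, k, x, hx, congrArg (F n) e⟩

/-- the same with moving centres and scales -/
theorem cen_ap (hg : ∀ᶠ n in l, Met (g n) (U n) ∧ Hs (U n)) (hy : Ap l F y p) {σ : ι → ℝ}
    (hσ : Tendsto σ l (𝓝 s)) (H : Cen h W p s δ) (hδ : δ < ε) (hε : ε ≤ 1 / 25) :
    ∀ᶠ n in l, Cen (g n) (U n) (y n) (σ n) ε := by
  obtain ⟨δ₂, h1, h2⟩ := exists_between hδ
  obtain ⟨δ₁, h3, h4⟩ := exists_between h1
  have s0 := H.hpos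
  have d0 : 0 < δ₁ := H.choose_spec.1.dpos.trans h3
  have h5 : 0 < δ₁⁻¹ - δ₂⁻¹ := sub_pos.2 (inv_strictAnti₀ d0 h4)
  have h6 : Tendsto (fun n => s ^ 2 / σ n ^ 2 * δ₂ + 2 * |s ^ 2 / σ n ^ 2 - 1|) l
      (𝓝 (s ^ 2 / s ^ 2 * δ₂ + 2 * |s ^ 2 / s ^ 2 - 1|)) :=
    have k := (tendsto_const_nhds (x := s ^ 2)).div (hσ.pow 2) (by positivity)
    (k.mul_const _).add ((k.sub_const 1).abs.const_mul 2)
  rw [div_self (by positivity), sub_self, abs_zero, mul_zero, add_zero, one_mul] at h6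
  filter_upwards [hc.cen_ev H h3, hg, hσ.eventually (lt_mem_nhds s0), h6.eventually (gt_mem_nhds h2),
    (hc.ap_zero H.mem hy).eventually (gt_mem_nhds (ENNReal.ofReal_pos.2
      (show 0 < 7 / 5 * s * (δ₁⁻¹ - δ₂⁻¹) by positivity)))] with n k1 k2 k3 k4 k5
  exact (k1.shift k2.2 (by linarith) (d0.trans h4) (by linarith) k5).resc k2.1 k3 h2.le k4.le

/-- almost lines pass to the limit -/
theorem al_lim (hU : ∀ᶠ n in l, Hs (U n)) (H : CB h W p R) (hp : p ∈ W) (hy : Ap l F y p)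
    {a : ι → ℝ} (ha : Tendsto a l (𝓝 A)) (h0 : 0 < A) (hR : ENNReal.ofReal (3 * A) ≤ R)
    (he : e < e') (hl : ∀ᶠ n in l, AL (g n) (U n) (y n) (a n) e) : AL h W p A e' := by
  have ex : ∀ n, ∃ u v, 0 < a n → AL (g n) (U n) (y n) (a n) e →
      ed (g n) (U n) (y n) u = ENNReal.ofReal (a n) ∧ ed (g n) (U n) (y n) v = ENNReal.ofReal (a n) ∧
        2 * a n ≤ dd (g n) (U n) u v + e' := fun n => by
    by_cases k : 0 < a n ∧ AL (g n) (U n) (y n) (a n) e
    · obtain ⟨u, v, k'⟩ := al_exact k.2 k.1 le_rfl he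
      exact ⟨u, v, fun _ _ => k'⟩
    · exact ⟨y n, y n, fun k1 k2 => (k ⟨k1, k2⟩).elim⟩
  choose u v huv using ex
  have k1 := ((ha.eventually (lt_mem_nhds h0)).and hl).mono fun n k => huv n k.1 k.2
  have k2 := ha.eventually (gt_mem_nhds (show A < 2 * A by linarith))
  have k3 : ENNReal.ofReal (2 * A) < R :=
    ((ENNReal.ofReal_lt_ofReal_iff (by linarith)).2 (by linarith)).trans_le hR
  have key : ∀ z : ∀ n, M n, (∀ᶠ n in l, ed (g n) (U n) (y n) (z n) = ENNReal.ofReal (a n)) →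
      ∃ q, ed h W p q = ENNReal.ofReal A ∧ Ap l F z q := fun z hz => by
    obtain ⟨q, q1, q2⟩ := hc.exists_ap hU H hp hy k3 ((hz.and k2).mono fun n k =>
      k.1.trans_le (ENNReal.ofReal_le_ofReal k.2.le))
    exact ⟨q, tendsto_nhds_unique (hc.tendsto_ed hU H hp (H.sub k3 q1) hy q2 (q1.trans k3.le))
      ((ENNReal.tendsto_ofReal ha).congr' (hz.mono fun _ k => k.symm)), q2⟩
  obtain ⟨u', u1, u2⟩ := key u (k1.mono fun _ k => k.1)
  obtain ⟨v', v1, v2⟩ := key v (k1.mono fun _ k => k.2.1)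
  have k4 := ofReal_two u1 v1 h0.le
  have k5 : CB h W u' (ENNReal.ofReal (2 * A)) := H.shift hc.met (by
    rw [u1, ← ENNReal.ofReal_add h0.le (by linarith)]
    exact le_of_eq_of_le (congrArg _ (by ring)) hR) (u1.trans_ne ENNReal.ofReal_ne_top)
  exact al_of_exact h0.le u1 v1 (le_of_tendsto_of_tendsto (ha.const_mul 2) ((hc.tendsto_dd hU k5 u2
    v2 k4 (ne_top_of_le_ne_top ENNReal.ofReal_ne_top k4)).add_const e') (k1.mono fun _ k => k.2.2))

/-- almost lines of the limit are almost lines of the approximating manifolds -/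
theorem al_ev (hU : ∀ᶠ n in l, Hs (U n)) (H : CB h W p R) (hy : Ap l F y p) (h0 : 0 < A)
    (hR : ENNReal.ofReal (3 * A) ≤ R) (hl : AL h W p A e) {a b : ι → ℝ} (ha : Tendsto a l (𝓝 A'))
    (hb : Tendsto b l (𝓝 e')) (hA : A' < A) (he : e < e') :
    ∀ᶠ n in l, AL (g n) (U n) (y n) (a n) (b n) := by
  obtain ⟨e₁, e1, e2⟩ := exists_between he
  obtain ⟨u, v, u1, v1, k⟩ := al_exact hl h0 le_rfl e1
  have k3 : ENNReal.ofReal A ≤ R := (ENNReal.ofReal_le_ofReal (by linarith)).trans hR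
  have k4 := ofReal_two u1 v1 h0.le
  have k5 : CB h W u (ENNReal.ofReal (2 * A)) := H.shift hc.met (by
    rw [u1, ← ENNReal.ofReal_add h0.le (by linarith)]
    exact le_of_eq_of_le (congrArg _ (by ring)) hR) (u1.trans_ne ENNReal.ofReal_ne_top)
  have t1 := hc.tendsto_dd hU H hy (ap_const u) (u1.trans_le k3) (u1.trans_ne ENNReal.ofReal_ne_top)
  have t2 := hc.tendsto_dd hU H hy (ap_const v) (v1.trans_le k3) (v1.trans_ne ENNReal.ofReal_ne_top)
  have t3 := hc.tendsto_dd hU k5 (ap_const u) (ap_const v) k4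
    (ne_top_of_le_ne_top ENNReal.ofReal_ne_top k4)
  rw [dd, u1, ENNReal.toReal_ofReal h0.le] at t1
  rw [dd, v1, ENNReal.toReal_ofReal h0.le] at t2
  filter_upwards [hc.ap_mem (mem_of_ed_ne (u1.trans_ne ENNReal.ofReal_ne_top)).2 (ap_const u),
    hc.ap_mem (mem_of_ed_ne (v1.trans_ne ENNReal.ofReal_ne_top)).2 (ap_const v),
    ha.eventually_lt t1 hA, ha.eventually_lt t2 hA,
    (t1.add t2).eventually_lt (t3.add hb) (by linarith)] with n k1 k2 k3 k4 k5
  exact ⟨_, k1, _, k2, k3.le, k4.le, k5.le⟩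

/-- pinching with large age gives nonnegative curvature in the limit -/
theorem pin_lim (hg : ∀ᶠ n in l, Met (g n) (U n)) (hP : ∀ A, ∀ᶠ n in l, Pin (g n) (U n) A)
    (hp : p ∈ W) : SecGe h p 0 := secGe_of_forall fun ε ε0 => by
  have η0 : 0 < ε / (|Sc h p| + 1) := by positivity
  set η := ε / (|Sc h p| + 1) with hη
  have h1 := conv_secGe hc hg hp (((conv_sc_pt hc hg hp).const_mul η).max (tendsto_const_nhds
    (x := Real.exp (3 + 1 / η) / (Real.exp (3 + 1 / η) / ε)))).neg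
    (((hP _).and (hc.ap_mem hp (ap_const p))).mono fun n k => k.1 _ k.2 η η0)
  refine secGe_mono hc.met hp h1 (neg_le_neg (max_le ?_ (le_of_eq (by field_simp))))
  rw [hη, div_mul_eq_mul_div, div_le_iff₀ (by positivity)]
  nlinarith [le_abs_self (Sc h p)]

/-- the derivative estimates pass to the limit -/
theorem dt_lim (hg : ∀ᶠ n in l, Met (g n) (U n)) (hp : p ∈ W) (hy : Ap l F y p) (h0 : 0 < Sc h p)
    (H : ∀ᶠ n in l, DT C A (g n) (U n) (y n)) : DT C A h W p := by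
  have t := hc.sc_ap hg hp hy
  refine ⟨hc.rmB_ap_lim hg hp hy (t.const_mul C) (H.mono fun _ k => k.r0),
    hc.rmB_ap_lim hg hp hy ((t.const_mul C).mul t.sqrt) (H.mono fun _ k => k.r1),
    hc.rmB_ap_lim hg hp hy ((t.pow 2).const_mul C) (H.mono fun _ k => k.r2), fun q hq => ?_⟩
  obtain ⟨r, -, r1, r2⟩ := exists_lt_of_mem_bl hq
  have t' := conv_sc_pt hc hg (bl_subset hq)
  have k : ∀ᶠ n in l, Sc (g n) (y n) ≤ C * Sc (g n) (F n q) ∧
      Sc (g n) (F n q) ≤ C * Sc (g n) (y n) := by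
    filter_upwards [H, hc.ap_lt hy (ap_const q) r2,
      ((hc.sg_ap hg hp hy h0).const_mul A).eventually (lt_mem_nhds r1)] with n k1 k2 k3
    exact k1.two _ (bl_mono k3.le k2)
  exact ⟨le_of_tendsto_of_tendsto t (t'.const_mul C) (k.mono fun _ k => k.1),
    le_of_tendsto_of_tendsto t' (t.const_mul C) (k.mono fun _ k => k.2)⟩

/-- every point near `y n` is the image of a point with almost the same curvature -/
lemma sc_near (hg : ∀ᶠ n in l, Met (g n) (U n) ∧ Hs (U n)) (H : CB h W p R) (hp : p ∈ W)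
    (hy : Ap l F y p) {a : ι → ℝ} (ha : Tendsto a l (𝓝 A)) (hA : A < A') (h0 : 0 < A')
    (hR : ENNReal.ofReal A' ≤ R) (hε : 0 < ε) : ∀ᶠ n in l, ∀ z ∈ bl (g n) (U n) (y n) (a n),
      ∃ q ∈ bl h W p A', F n q = z ∧ |Sc (g n) z - Sc h q| < ε := by
  obtain ⟨r₂, h1, h2⟩ := exists_between (max_lt hA h0)
  obtain ⟨r₁, h3, h4⟩ := exists_between h1
  have r0 : 0 < r₂ := (le_max_right _ _).trans_lt h1
  have h5 : ENNReal.ofReal r₂ < R := ((ENNReal.ofReal_lt_ofReal_iff h0).2 h2).trans_le hR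
  filter_upwards [hc.ball_sub (hg.mono fun _ k => k.2) H hp hy
    ((ENNReal.ofReal_lt_ofReal_iff r0).2 h4) h5.le,
    conv_sc_unif hc (hg.mono fun _ k => k.1) (H _ h5) (H.sub h5) hε,
    ha.eventually (gt_mem_nhds ((le_max_left _ _).trans_lt h3))] with n k1 k2 k3 z hz
  obtain ⟨q, q1, rfl⟩ := k1 (bl_subset_cbl (bl_mono k3.le hz))
  exact ⟨q, bl_mono h2.le q1, rfl, k2 q (le_of_lt q1)⟩

/-- the derivative estimates are stable -/
theorem dt_ev (hg : ∀ᶠ n in l, Met (g n) (U n) ∧ Hs (U n)) (H : CB h W p R) (hp : p ∈ W)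
    (hy : Ap l F y p) (h0 : 0 < Sc h p) (hD : DT C A' h W p) (hC : C < C') (hA : A < A')
    (A0 : 0 < A') (hR : ENNReal.ofReal (A' * sg h p) ≤ R) :
    ∀ᶠ n in l, DT C' A (g n) (U n) (y n) := by
  have hm := hg.mono fun _ k => k.1
  have t := hc.sc_ap hm hp hy
  have s0 := sg_pos h0
  have C1 : 1 ≤ C := le_of_mul_le_mul_right
    (by linarith [(hD.two p (mem_bl_self hp (by positivity))).1]) h0
  have q0 := Real.sqrt_pos.2 h0
  obtain ⟨ε, ε0, hε⟩ : ∃ ε > 0, ε * (C * (C' + 1)) = (C' - C) * Sc h p :=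
    ⟨(C' - C) * Sc h p / (C * (C' + 1)), div_pos (mul_pos (by linarith) h0) (by nlinarith),
      div_mul_cancel₀ _ (by nlinarith)⟩
  filter_upwards [hc.rmB_ap hm hp hy hD.r0 (t.const_mul C') (by gcongr),
    hc.rmB_ap hm hp hy hD.r1 ((t.const_mul C').mul t.sqrt) (by gcongr),
    hc.rmB_ap hm hp hy hD.r2 ((t.pow 2).const_mul C') (by gcongr),
    hc.sc_near hg H hp hy ((hc.sg_ap hm hp hy h0).const_mul A) (mul_lt_mul_of_pos_right hA s0)
      (by positivity) hR ε0, Metric.tendsto_nhds.1 t ε ε0] with n k0 k1 k2 k3 k4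
  refine ⟨k0, k1, k2, fun z hz => ?_⟩
  obtain ⟨q, q1, -, q2⟩ := k3 z hz
  obtain ⟨a1, a2⟩ := hD.two q q1
  rw [Real.dist_eq, abs_lt] at k4
  rw [abs_lt] at q2
  have b1 : (C' + 1) * ε ≤ (C' - C) * Sc h q := le_of_mul_le_mul_left
    (by nlinarith [mul_le_mul_of_nonneg_left a1 (sub_pos.2 hC).le]) (show 0 < C by linarith)
  have b2 : (C' + 1) * ε ≤ (C' - C) * Sc h p := by
    nlinarith [mul_nonneg (sub_nonneg.2 C1) (mul_pos ε0 (show 0 < C' + 1 by linarith)).le]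
  constructor <;> nlinarith

variable [MeasurableSpace X] [BorelSpace X] [∀ n, MeasurableSpace (M n)] [∀ n, BorelSpace (M n)]

/-- the version with room in the limit gives necks and thin balls -/
theorem nt_ev (hg : ∀ᶠ n in l, Met (g n) (U n) ∧ Hs (U n)) (H : CB h W p R) (hp : p ∈ W)
    (hy : Ap l F y p) (h1 : Sc h p = 1) (hN : NTp ε A w h W p) (ε0 : 0 < ε) (hε : ε ≤ 1 / 25)
    (hw : 0 ≤ w) (hR : ENNReal.ofReal (3 * A) ≤ R) : ∀ᶠ n in l, NT ε A w (g n) (U n) (y n) := by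
  have t := hc.sg_ap (hg.mono fun _ k => k.1) hp hy (h1 ▸ one_pos)
  rw [sg_one h1] at t
  obtain ⟨ρ, ⟨r1, r2⟩, r3⟩ := hN.thin
  have k1 : ∀ᶠ n in l, AL (g n) (U n) (y n) (A * sg (g n) (y n)) (sg (g n) (y n)) →
      Cen (g n) (U n) (y n) (sg (g n) (y n)) ε := by
    rcases l.em fun n => AL (g n) (U n) (y n) (A * sg (g n) (y n)) (sg (g n) (y n)) with k | k
    · refine (hc.cen_ap hg hy t (hN.neck ?_) (half_lt_self ε0) hε).mono fun _ k _ => k
      refine hc.al_lim (e := 3 / 2) (hg.mono fun _ k => k.2) H hp hy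
        (by simpa using t.const_mul A) (by linarith) hR (by norm_num) ?_
      filter_upwards [k, t.eventually (gt_mem_nhds (show (1 : ℝ) < 3 / 2 by norm_num))] with n a b
      exact al_mono a le_rfl b.le
    · exact k.mono fun _ k k' => (k k').elim
  filter_upwards [k1, conv_vol_le hc hg hp (s := 6 / 5) (r := 3 / 2 * ρ)
    (H.cpt (s := 3 * A) hR (by linarith)) (by norm_num) (by linarith),
    (hc.ap_zero hp hy).eventually (gt_mem_nhds (ENNReal.ofReal_pos.2 (show 0 < ρ / 4 by linarith))),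
    t.eventually (lt_mem_nhds (show (24 / 25 : ℝ) < 1 by norm_num)),
    t.eventually (gt_mem_nhds (show (1 : ℝ) < 5 / 4 by norm_num))] with n a1 a2 a3 a4 a5
  refine ⟨a1, ρ * sg (g n) (y n), ⟨by nlinarith, by nlinarith⟩, ?_⟩
  have b1 : bl (g n) (U n) (y n) (ρ * sg (g n) (y n)) ⊆ bl (g n) (U n) (F n p) (3 / 2 * ρ) :=
    (bl_add (by linarith) (le_of_lt a3)).trans (bl_mono (by nlinarith))
  refine (MeasureTheory.measure_mono b1).trans (a2.trans ?_)
  refine (mul_le_mul_right ((MeasureTheory.measure_mono (bl_mono (by linarith))).trans r3) _).trans ?_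
  rw [← ENNReal.ofReal_mul (by norm_num), mul_pow]
  refine ENNReal.ofReal_le_ofReal ?_
  have b2 : (24 / 25 : ℝ) ^ 3 ≤ sg (g n) (y n) ^ 3 := by gcongr
  have b3 : 0 ≤ w * ρ ^ 3 := mul_nonneg hw (pow_nonneg (by linarith) 3)
  nlinarith

/-- canonical neighbourhoods with room in the limit give canonical neighbourhoods -/
theorem cn_ev (hg : ∀ᶠ n in l, Met (g n) (U n) ∧ Hs (U n)) (H : CB h W p R) (hp : p ∈ W)
    (hy : Ap l F y p) (h1 : Sc h p = 1) (hD : DT C (A + 1) h W p) (hN : NTp ε A w h W p)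
    (hC : C < C') (ε0 : 0 < ε) (hε : ε ≤ 1 / 25) (hw : 0 ≤ w) (hR : ENNReal.ofReal (3 * A) ≤ R) :
    ∀ᶠ n in l, CN ε C' A w (g n) (U n) (y n) := by
  obtain ⟨ρ, ⟨r1, r2⟩, -⟩ := hN.thin
  filter_upwards [(hc.sc_ap (hg.mono fun _ k => k.1) hp hy).eventually (lt_mem_nhds (h1 ▸ one_pos)),
    hc.dt_ev hg H hp hy (h1 ▸ one_pos) hD hC (lt_add_one A) (by linarith)
      ((ENNReal.ofReal_le_ofReal (by rw [sg_one h1]; linarith)).trans hR),
    hc.nt_ev hg H hp hy h1 hN ε0 hε hw hR] with n a b c using ⟨a, b, c⟩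

end Conv

end Vale.Agent.P216U
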