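import Vale.Agent.P216U.Iso
import Vale.Agent.P216R.Met

/-! Smooth convergence of Riemannian manifolds along a filter: definitions. -/

open Set Filter Topology Metric
open scoped ContDiff Manifold ENNReal

noncomputable section

namespace Vale.Agent.P216U

open P216R P216G

variable {ι E : Type} [NormedAddCommGroup E] [NormedSpace ℝ E] {M : ι → Type}
  [∀ n, TopologicalSpace (M n)] [∀ n, ChartedSpace E (M n)]
  {X : Type} [TopologicalSpace X] [ChartedSpace E X]

/-- smooth convergence of tensor fields on an open subset of a fixed manifold -/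
def TCv (l : Filter ι) (g : ι → Ten E X) (h : Ten E X) (W : Set X) : Prop :=
  ∀ a, Cv l (dom E a W) (fun n => co (g n) a) (co h a)

/-- smooth convergence of families of tensor fields on `I × W` -/
def FCv (l : Filter ι) (g : ι → ℝ → Ten E X) (h : ℝ → Ten E X) (I : Set ℝ) (W : Set X) : Prop :=
  ∀ a, Cv l (I ×ˢ dom E a W) (fun n p => co (g n p.1) a p.2) fun p => co (h p.1) a p.2

variable (E) in
/-- near every compact subset of `W` the maps `F n` are eventually open embeddings into `U n` -/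
def Emb (l : Filter ι) (U : ∀ n, Set (M n)) (F : ∀ n, X → M n) (W : Set X) : Prop :=
  ∀ K, IsCompact K → K ⊆ W → ∃ V, K ⊆ V ∧ V ⊆ W ∧
    ∀ᶠ n in l, LD E (F n) V ∧ InjOn (F n) V ∧ MapsTo (F n) V (U n)

/-- `(U n, g n)` converges smoothly to `(W, h)` via the maps `F n` -/
structure Conv (l : Filter ι) (U : ∀ n, Set (M n)) (g : ∀ n, Ten E (M n)) (F : ∀ n, X → M n)
    (h : Ten E X) (W : Set X) : Prop where
  met : Met h W
  emb : Emb E l U F W
  cv : TCv l (fun n => comap (F n) (g n)) h W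

/-- a family of uniformly good charts -/
structure GCh (l : Filter ι) (U : ∀ n, Set (M n)) (g : ∀ n, Ten E (M n)) (δ c C : ℝ)
    (φ : ∀ n, E → M n) : Prop where
  ev : ∀ᶠ n in l, LD E (φ n) (ball 0 δ) ∧ InjOn (φ n) (ball 0 δ) ∧ MapsTo (φ n) (ball 0 δ) (U n) ∧
    ∀ a ∈ ball (0 : E) δ, ∀ v, c * ‖v‖ ^ 2 ≤ comap (φ n) (g n) a v v ∧
      comap (φ n) (g n) a v v ≤ C * ‖v‖ ^ 2
  bj : ∀ k, BJ (l ×ˢ 𝓟 (ball 0 δ)) Prod.snd k fun q : ι × E => comap (φ q.1) (g q.1)

/-- uniformly good charts about all points of the balls of radius less than `ρ` -/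
def Good (l : Filter ι) (U : ∀ n, Set (M n)) (g : ∀ n, Ten E (M n)) (x : ∀ n, M n)
    (ρ : ℝ≥0∞) : Prop :=
  ∀ r < ρ, ∃ δ > 0, ∃ c > 0, ∃ C, ∀ y : ∀ n, M n, (∀ᶠ n in l, ed (g n) (U n) (x n) (y n) ≤ r) →
    ∃ φ : ∀ n, E → M n, (∀ᶠ n in l, φ n 0 = y n) ∧ GCh l U g δ c C φ

/-- a pointed limit: a connected Hausdorff manifold which is the ball of radius `ρ` about `o`,
smaller closed balls being compact -/
structure Lim (l : Filter ι) (U : ∀ n, Set (M n)) (g : ∀ n, Ten E (M n)) (x : ∀ n, M n)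
    (ρ : ℝ≥0∞) where
  X : Type
  [top : TopologicalSpace X]
  [chs : ChartedSpace E X]
  [mfd : IsManifold 𝓘(ℝ, E) ∞ X]
  [t2 : T2Space X]
  [sec : SecondCountableTopology X]
  [con : ConnectedSpace X]
  h : Ten E X
  o : X
  F : ∀ n, X → M n
  conv : Conv l U g F h univ
  base : ∀ᶠ n in l, F n o = x n
  lt : ∀ p, ed h univ o p < ρ
  cpt : ∀ r < ρ, IsCompact {p | ed h univ o p ≤ r}

attribute [instance] Lim.top Lim.chs Lim.mfd Lim.t2 Lim.sec Lim.con

end Vale.Agent.P216U
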