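import Vale.Agent.P216U.Adm

/-! The compactness theorem of Cheeger, Gromov and Hamilton for ultrafilters (static form). -/

open Set Filter Topology Metric Function
open scoped ContDiff Manifold ENNReal NNReal

set_option linter.unusedSectionVars false
set_option maxSynthPendingDepth 3

noncomputable section

namespace Vale.Agent.P216U

open P216R P216G

variable {ι E : Type} [NormedAddCommGroup E] [NormedSpace ℝ E] [FiniteDimensional ℝ E]
  {M : ι → Type}

/-- an atlas of limit charts -/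
@[reducible] def chs [ProperSpace E] {s : Sys ι M} (e : s.X → Ch s E) (h : ∀ p, p ∈ (e p).chart.source) :
    ChartedSpace E s.X where
  atlas := range fun p => (e p).chart
  chartAt p := (e p).chart
  mem_chart_source := h
  chart_mem_atlas p := mem_range_self p

lemma Ch.rep_seq {s : Sys ι M} (c : Ch s E) {a : E} (ha : a ∈ c.S) {b : ι → E}
    (hb : Tendsto b s.U (𝓝 a)) {y : ∀ n, M n} (e : ∀ᶠ n in s.U, y n = c.φ n (b n)) :
    s.Rep y (c.ψ a) := by
  refine (c.rep ha).of_zero (s.D_eq ?_)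
  have h1 := ENNReal.Tendsto.const_mul (a := c.L) ((tendsto_const_nhds (x := a)).edist hb)
    (Or.inr ENNReal.coe_ne_top)
  rw [edist_self, mul_zero] at h1
  refine tendsto_of_tendsto_of_tendsto_of_le_of_le' tendsto_const_nhds h1
    (.of_forall fun _ => zero_le) ?_
  filter_upwards [e, c.lip, hb.eventually (c.op.mem_nhds ha)] with n h2 h3 h4
  rw [h2]; exact h3 a ha _ h4

variable [∀ n, TopologicalSpace (M n)] [∀ n, ChartedSpace E (M n)]
  [∀ n, IsManifold 𝓘(ℝ, E) ∞ (M n)] {U : ∀ n, Set (M n)} {g : ∀ n, Ten E (M n)} {x : ∀ n, M n}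
  {ρ : ℝ≥0∞}

/-- compactness -/
theorem cgh (V : Ultrafilter ι) (hg : ∀ n, Met (g n) (U n)) (hU : ∀ n, Hs (U n))
    (hx : ∀ n, x n ∈ U n) (hρ : 0 < ρ) (H : Good V U g x ρ) : Nonempty (Lim V U g x ρ) := by
  have := FiniteDimensional.proper_real E
  let s := sys V U g x hx ρ hρ
  have un : s.Unif := unif hU H
  have h0 : ∀ p : s.X, ∃ e : Ch s E, e.ψ 0 = p ∧ (∀ᶠ n in V, e.φ n 0 = s.rep p n) ∧
      ∃ δ c C, 0 < δ ∧ 0 < c ∧ e.S = ball 0 δ ∧ GCh V U g δ c C e.φ := fun p => by
    obtain ⟨δ, δ0, c, c0, C, h⟩ := exists_ch (hx := hx) (hρ := hρ) hU H (Sys.edist_lt p)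
    obtain ⟨e, h1, -, h2, h3, h4⟩ := h p le_rfl
    exact ⟨e, h2, h3, δ, c, C, δ0, c0, h1, h4⟩
  choose e h1 h2 δ c C δ0 c0 h3 h4 using h0
  have h5 : ∀ p, 0 ∈ (e p).S := fun p => h3 p ▸ mem_ball_self (δ0 p)
  let := chs e fun p => ⟨0, h5 p, h1 p⟩
  have tr : ∀ p q a b, a ∈ (e p).S → b ∈ (e q).S → (e p).ψ a = (e q).ψ b →
      SLoc V (fun n y => (e q).inv n ((e p).φ n y)) a b := fun p q a b ha hb h => by
    have h6 := (e p).trans (e q) ha hb h
    unfold Ch.inv at h6 ⊢
    rw [h3] at ha hb h6 ⊢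
    exact (h4 p).trans (h4 q) (c0 p) (c0 q) hg ha hb h6.1 h6.2
  have mf : IsManifold 𝓘(ℝ, E) ∞ s.X := isManifold_of_contDiffOn _ _ _ (by
    rintro _ _ ⟨p, rfl⟩ ⟨q, rfl⟩
    simp only [modelWithCornersSelf_coe, modelWithCornersSelf_coe_symm, id_comp, comp_id,
      preimage_id, range_id, inter_univ]
    have o := ((e p).chart.symm ≫ₕ (e q).chart).open_source
    exact (Cv.of_loc o fun a ha => (tr p q a _ ha.1 ((e q).chart.map_source ha.2)
      ((e q).chart.left_inv ha.2).symm).toLoc).contDiffOn (.of_isOpen o))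
  have := un.sigmaCompactSpace
  have := un.connectedSpace
  let A : Apx V M E s.X := ⟨fun p => (e p).φ, fun p => (e p).inv, fun p => (e p).inv_φ,
    fun p q y hp hq =>
      have k := ((e p).chart.left_inv hp).trans ((e q).chart.left_inv hq).symm
      ⟨((e p).trans (e q) ((e p).chart.map_source hp) ((e q).chart.map_source hq) k).1,
        tr p q _ _ ((e p).chart.map_source hp) ((e q).chart.map_source hq) k⟩⟩
  obtain ⟨F, hF, hF0⟩ := A.exists_adm s.o
  have hA : ∀ p, ∃ δ c C, 0 < c ∧ (chartAt E p).target = ball 0 δ ∧ GCh V U g δ c C (A.φ p) :=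
    fun p => ⟨_, _, _, c0 p, h3 p, h4 p⟩
  have rp : ∀ (p : ι → s.X) a, Tendsto p V (𝓝 a) → s.Rep (fun n => F n (p n)) a := fun p a h => by
    obtain ⟨β, h6, h7⟩ := hF a a (mem_chart_source E a)
    have h8 := (e a).rep_seq (pt_mem (E := E) a) (h6.tendsto.comp ((tendsto_chart _
      (mem_chart_source E a)).comp (tendsto_id.prodMk h))) ((tendsto_id.prodMk h).eventually h7)
    exact (symm_pt (E := E) a : (e a).ψ _ = a) ▸ h8
  obtain ⟨h, hm, hc⟩ := adm_met hF hA hg
  have cv : Conv V U g F h univ := ⟨hm, adm_emb hF hA fun p q a b ha hb e => by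
    rw [← edist_eq_zero, (rp p a ha).edist (rp q b hb), ← s.D_self (rp p a ha).1]
    exact s.D_eq ((s.tendsto_D _ _).congr' (e.mono fun n hn => congrArg _ hn)), hc⟩
  have lim := fun p q : s.X => (rp _ p tendsto_const_nhds).tendsto (rp _ q tendsto_const_nhds)
  have le : ∀ p q : s.X, edist p q ≤ ed h univ p q := fun p q =>
    le_of_forall_gt_imp_ge_of_dense fun r hr => le_of_tendsto (lim p q)
      ((cv.ed_lt hr).mono fun _ h => h.le)
  have eq : ∀ p, ed h univ s.o p = edist s.o p := fun p => le_antisymm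
    (le_of_forall_lt_imp_le_of_dense fun r hr => by
      by_contra! h6
      obtain ⟨R, h7, h8⟩ := exists_between (Sys.edist_lt p)
      obtain ⟨r', h9, h10⟩ := exists_between (lt_min h7 h6)
      exact h9.not_ge (ge_of_tendsto (lim s.o p) ((cv.lt_ed (.of_forall hU) (un.isCompact h8)
        (subset_univ _) trivial trivial (fun z hz => mem_closedEBall'.2 ((le _ z).trans hz.le))
        (h10.trans_le (min_le_left _ _)) ((h10.trans_le (min_le_right _ _)).trans hr)).mono
        fun _ h => h.le))) (le _ _)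
  have := ChartedSpace.secondCountable_of_sigmaCompact E s.X
  refine ⟨⟨s.X, h, s.o, F, cv, (h2 s.o).mono fun n hn => ?_, fun p => eq p ▸ Sys.edist_lt p,
    fun r hr => ?_⟩⟩
  · rw [s.rep_o] at hn
    exact (hF0.self_of_nhds n).trans ((congrArg _ ((congrArg _ (h1 _).symm).trans
      ((e s.o).chart.right_inv (h5 _)))).trans hn)
  · simp only [eq, edist_comm s.o]
    exact un.isCompact hr

end Vale.Agent.P216U
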