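import Vale.Agent.P216U.Resc
import Vale.Agent.P216N.BDefs
import Vale.Agent.P216RG.Mid
import Vale.Agent.P216K.Stm

/-! A piece of a Ricci flow with almost nonnegative curvature is not almost a metric cone. -/

open Set Filter Topology
open scoped ContDiff Manifold ENNReal

set_option maxSynthPendingDepth 3

noncomputable section

namespace Vale.Agent.P216U

open P216R P216DC P216N

lemma mid_lim {ι : Type} {l : Filter ι} [NeBot l] {A B M x y z e s : ι → ℝ}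
    {A' B' M' x' y' z' e' s' t : ℝ} (hA : Tendsto A l (𝓝 A')) (hB : Tendsto B l (𝓝 B'))
    (hM : Tendsto M l (𝓝 M')) (hx : Tendsto x l (𝓝 x')) (hy : Tendsto y l (𝓝 y'))
    (hz : Tendsto z l (𝓝 z')) (he : Tendsto e l (𝓝 e')) (hs : Tendsto s l (𝓝 s'))
    (h : ∀ᶠ n in l, MidIneq (A n) (B n) (M n) (x n) (y n) (z n) t (e n) (s n)) :
    MidIneq A' B' M' x' y' z' t e' s' :=
  have a := hA.pow 2
  have b := hB.pow 2
  have m := hM.pow 2
  have p := ((a.add m).sub (hx.pow 2)).const_mul t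
  have q := ((b.add m).sub (hy.pow 2)).const_mul t
  ⟨le_of_tendsto_of_tendsto hz ((((((a.add (m.const_mul _)).sub p).add he).sqrt).add
      (((b.add (m.const_mul _)).sub q).add he).sqrt).add hs) (h.mono fun _ k => k.1),
    le_of_tendsto_of_tendsto (hz.const_mul t) (((((((a.const_mul _).add m).sub p).add he).sqrt).add
      ((((b.const_mul _).add m).sub q).add he).sqrt).add hs) (h.mono fun _ k => k.2)⟩

lemma mid_smul {A B M x y z t e s k : ℝ} (hk : 0 < k) (h : MidIneq A B M x y z t e s) :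
    MidIneq (k * A) (k * B) (k * M) (k * x) (k * y) (k * z) t (k ^ 2 * e) (k * s) := by
  have r : ∀ {a b : ℝ}, a = k ^ 2 * b → √a = k * √b := fun e => by
    rw [e, Real.sqrt_mul (sq_nonneg k), Real.sqrt_sq hk.le]
  have r1 : ∀ A x : ℝ, √((k * A) ^ 2 + t ^ 2 * (k * M) ^ 2 - t * ((k * A) ^ 2 + (k * M) ^ 2 -
      (k * x) ^ 2) + k ^ 2 * e) = k * √(A ^ 2 + t ^ 2 * M ^ 2 - t * (A ^ 2 + M ^ 2 - x ^ 2) + e) :=
    fun A x => r (by ring)
  have r2 : ∀ A x : ℝ, √(t ^ 2 * (k * A) ^ 2 + (k * M) ^ 2 - t * ((k * A) ^ 2 + (k * M) ^ 2 -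
      (k * x) ^ 2) + k ^ 2 * e) = k * √(t ^ 2 * A ^ 2 + M ^ 2 - t * (A ^ 2 + M ^ 2 - x ^ 2) + e) :=
    fun A x => r (by ring)
  refine ⟨?_, ?_⟩
  · rw [r1, r1]
    linarith [mul_le_mul_of_nonneg_left h.1 hk.le]
  · rw [r2, r2]
    linarith [mul_le_mul_of_nonneg_left h.2 hk.le]

section data

variable {M : Type} [TopologicalSpace M] [ChartedSpace E3 M] [MeasurableSpace M]

/-- the data of `CEX` at unit scale -/
structure CD (v c C B ε : ℝ) (N : ℕ) (g : ℝ → Ten E3 M) (U : Set M) (y : M) (ρ : M → ℝ) :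
    Prop where
  met : Met (g 0) U
  hs : Hs U
  mem : y ∈ U
  cpt : Cpt (g 0) U y c
  sc : Sc (g 0) y = 1
  par : ParB g U y 0 c c C
  sec : ∀ s ∈ Icc (0 - c) 0, ∀ z ∈ bl (g 0) U y c, SecGe (g s) z (-ε)
  vl : Vl v (g 0) U y (c / 2)
  bd : ∀ a ∈ bl (g 0) U y c, |ρ a| ≤ B
  lip : ∀ a ∈ bl (g 0) U y c, ∀ b ∈ bl (g 0) U y c, |ρ a - ρ b| ≤ dd (g 0) U a b
  mid : ∀ n ≤ N, ∀ a ∈ bl (g 0) U y c, ∀ b ∈ bl (g 0) U y c, ∀ m ∈ bl (g 0) U y c,
    MidIneq (ρ a) (ρ b) (ρ m) (dd (g 0) U a m) (dd (g 0) U b m) (dd (g 0) U a b)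
      (1 - 1 / ((n : ℝ) + 2)) ε ε

end data

/-- a function that satisfies the cone inequalities is the square root of a cone potential -/
lemma cone_pot {X : Type} [TopologicalSpace X] [ChartedSpace E3 X] [IsManifold 𝓘(ℝ, E3) ∞ X]
    {h : Ten E3 X} {U V : Set X} {R : X → ℝ} (hg : Met h U) (hs : Hs U) (hV : IsOpen V)
    (hVU : V ⊆ U) (hf : ∀ a ∈ V, ∀ b ∈ V, ed h U a b ≠ ⊤)
    (lip : ∀ a ∈ V, ∀ b ∈ V, |R a - R b| ≤ dd h U a b)
    (mid : ∀ n : ℕ, ∀ a ∈ V, ∀ b ∈ V, ∀ m ∈ V, MidIneq (R a) (R b) (R m) (dd h U a m) (dd h U b m)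
      (dd h U a b) (1 - 1 / ((n : ℝ) + 2)) 0 0) :
    ContMDiffOn 𝓘(ℝ, E3) 𝓘(ℝ, ℝ) ∞ (fun a => R a ^ 2 / 2) V ∧
      ∀ x ∈ V, hess h (fun a => R a ^ 2 / 2) x = (1 : ℝ) • h x := by
  have hc : ContinuousOn R V := fun a ha => by
    rw [ContinuousWithinAt, tendsto_iff_dist_tendsto_zero]
    have h1 : Tendsto (fun b => dd h U a b) (𝓝[V] a) (𝓝 (dd h U a a)) :=
      ((hg.continuousAt_dd (hf a ha a ha)).comp_of_eq (f := fun b => (a, b))
        (by fun_prop) rfl).continuousWithinAt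
    rw [dd_self] at h1
    refine squeeze_zero' (.of_forall fun _ => dist_nonneg) ?_ h1
    filter_upwards [self_mem_nhdsWithin] with b hb
    rw [dist_comm]; exact lip a ha b hb
  refine P216RG.rig_mid hg hs hV hVU ((hc.pow 2).div_const 2) fun y hy z hz m hm _ e1 e2 => ?_
  rcases (dd_nonneg (g := h) (U := U) (x := y) (y := z)).eq_or_lt with e | e
  · have h1 := lip y hy m hm
    have h2 := lip m hm z hz
    rw [e1, ← e, zero_div, abs_nonpos_iff, sub_eq_zero] at h1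
    rw [e2, ← e, zero_div, abs_nonpos_iff, sub_eq_zero] at h2
    rw [← e, h1, h2]; ring
  · have h1 := stewart (A := R y) (B := R z) (M := R m) (half_pos e) (half_pos e)
      (τ := fun n => 1 / ((n : ℝ) + 2)) (fun n => by positivity)
      (tendsto_const_nhds.div_atTop (tendsto_natCast_atTop_atTop.atTop_add tendsto_const_nhds))
      fun n => by
        have := mid n y hy z hz m hm
        rw [add_halves]
        rwa [e1, dd_comm (x := z) (y := m), e2] at this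
    apply mul_right_cancel₀ e.ne'
    linear_combination h1

lemma no_seq (h4 : P216K.S4) {v c C B : ℝ} (hv : 0 < v) (hc : 0 < c)
    {M : ℕ → Type} [∀ n, TopologicalSpace (M n)] [∀ n, ChartedSpace E3 (M n)]
    [∀ n, IsManifold 𝓘(ℝ, E3) ∞ (M n)] [∀ n, MeasurableSpace (M n)] [∀ n, BorelSpace (M n)]
    {U : ∀ n, Set (M n)} {g : ∀ n, ℝ → Ten E3 (M n)} {y : ∀ n, M n} {ρ : ∀ n, M n → ℝ}
    (H : ∀ n : ℕ, CD v c C B (1 / ((n : ℝ) + 1)) n (g n) (U n) (y n) (ρ n)) : False := by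
  let l := hyperfilter ℕ
  have la : (l : Filter ℕ) ≤ atTop := Nat.hyperfilter_le_atTop
  have lt : ∀ {r}, ENNReal.ofReal r < ENNReal.ofReal c → r < c := fun h =>
    (ENNReal.ofReal_lt_ofReal_iff'.1 h).1
  have ev : EvP l U g y c c := ⟨C, .of_forall fun n => ⟨(H n).cpt, (H n).par⟩⟩
  have hm := fun n => (H n).met
  have hs : ∀ᶠ n in (l : Filter ℕ), Hs (U n) := .of_forall fun n => (H n).hs
  obtain ⟨L⟩ := lim0_all ℕ l M U g y (ENNReal.ofReal c) ⟨hm, fun n => (H n).hs, fun n => (H n).mem,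
    fun r _ hr => ⟨c, hc, ev.mono hm (lt hr).le le_rfl⟩, v, hv, c / 2, half_pos hc,
    (ENNReal.ofReal_lt_ofReal_iff hc).2 (half_lt_self hc), .of_forall fun n => (H n).vl⟩
  obtain ⟨G, hG⟩ := lim1_all ℕ l M U g y _ (ENNReal.ofReal c) (Ioc (-c) 0) L hm (fun n => (H n).hs)
    (bk_Ioc hc) fun r _ hr τ _ hτ => ev.mono hm (lt hr).le (by linarith [hτ.1])
  have e0 : G 0 = L.h := funext fun p => hG.zero (L.lt p)
  have mem : ∀ p, ∀ᶠ n in (l : Filter ℕ), L.F n p ∈ bl (g n 0) (U n) (y n) c := fun p =>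
    (lim_maps L isCompact_singleton (K := {p}) fun _ _ => L.lt _).mono fun n h => h p rfl
  have ex : ∀ p, ∃ a, Tendsto (fun n => ρ n (L.F n p)) l (𝓝 a) := fun p =>
    let ⟨a, _, ha⟩ := (isCompact_Icc (a := -B) (b := B)).ultrafilter_le_nhds
      (l.map fun n => ρ n (L.F n p)) (le_principal_iff.2
        ((mem p).mono fun n h => abs_le.1 ((H n).bd _ h)))
    ⟨a, ha⟩
  choose R hR using ex
  have c3 : 0 < c / 3 := by positivity
  have hd : ∀ a ∈ bl L.h univ L.o (c / 3), ∀ b ∈ bl L.h univ L.o (c / 3),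
      Tendsto (fun n => dd (g n 0) (U n) (L.F n a) (L.F n b)) l (𝓝 (dd L.h univ a b)) :=
    fun a ha b hb => L.tendsto_dd hs (ap_const a) (ap_const b) (by
      have h2 : ed L.h univ a L.o ≤ ENNReal.ofReal (c / 3) := le_of_lt (mem_bl_comm.1 ha)
      calc _ ≤ ENNReal.ofReal (c / 3) + (ENNReal.ofReal (c / 3) + ENNReal.ofReal (c / 3)) :=
            add_le_add (le_of_lt ha) ((ed_triangle a L.o b).trans (add_le_add h2 (le_of_lt hb)))
        _ = _ := by
          rw [← ENNReal.ofReal_add c3.le c3.le, ← ENNReal.ofReal_add c3.le (by linarith)]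
          congr 1; ring)
  have e1 : Tendsto (fun n : ℕ => 1 / ((n : ℝ) + 1)) l (𝓝 0) :=
    tendsto_one_div_add_atTop_nhds_zero_nat.mono_left la
  have o := L.conv.met.isOpen_bl L.o (c / 3)
  obtain ⟨k1, k2⟩ := cone_pot (R := R) L.conv.met (hs_of_t2 _) o (subset_univ _)
    (fun a _ b _ => L.ne_top a b)
    (fun a ha b hb => le_of_tendsto_of_tendsto ((hR a).sub (hR b)).abs (hd a ha b hb)
      (((mem a).and (mem b)).mono fun n h => (H n).lip _ h.1 _ h.2))
    fun k a ha b hb m hm => mid_lim (hR a) (hR b) (hR m) (hd a ha m hm) (hd b hb m hm)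
      (hd a ha b hb) e1 e1 (by
        filter_upwards [mem a, mem b, mem m, la (eventually_ge_atTop k)] with n h1 h2 h3 h4
        exact (H n).mid k h4 _ h1 _ h2 _ h3)
  have sub : Icc (-(c / 2)) 0 ⊆ Ioc (-c) 0 := fun t ht => ⟨by linarith [ht.1], ht.2⟩
  have k3 := h4 L.X G _ _ (c / 2) (half_pos hc) (hG.rf.mono sub o fun p _ => L.lt p) (hs_of_t2 _)
    (fun t ht p _ => ?_) k1 (fun p hp => by rw [e0, k2 p hp, one_smul]) L.o
    (mem_bl_self (mem_univ _) c3)
  · have k4 : Tendsto (fun n => Sc (g n 0) (L.F n L.o)) l (𝓝 1) :=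
      tendsto_const_nhds.congr' (L.base.mono fun n h => by simp only [h, (H n).sc])
    rw [e0, tendsto_nhds_unique (conv_sc_pt L.conv (.of_forall hm) (mem_univ _)) k4] at k3
    linarith
  · have ht' : t ∈ Icc (0 - c) 0 := ⟨by linarith [ht.1], ht.2⟩
    exact conv_secGe (hG.conv_bl (bk_Ioc hc) (sub ht) (r := c) Subset.rfl)
      (.of_forall fun n => RF.met (H n).par.1 ht') (L.lt p) (by simpa using e1.neg)
      ((mem p).mono fun n h => (H n).sec t ht' _ h)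

theorem cex_of (h4 : P216K.S4) : CEX := fun v hv c hc C B => by
  by_contra H
  push Not at H
  choose M i1 i2 i3 i4 i5 g U t y σ ρ σ0 hg hs hy hp e hP hS hV hB hL hM using
    fun n : ℕ => H (1 / ((n : ℝ) + 1)) (by positivity) n
  refine no_seq h4 hv hc (C := C) (B := B) (U := U) (y := y)
    (g := fun n => resc (g n) ((σ n)⁻¹ ^ 2) (t n)) (ρ := fun n a => (σ n)⁻¹ * ρ n a) fun n => ?_
  have s0 := σ0 n
  have k0 := inv_pos.2 s0
  have a1 : ∀ r, (σ n)⁻¹ * (r * σ n) = r := fun r => by field_simp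
  have a2 : ∀ r, (σ n)⁻¹ ^ 2 * (r * σ n ^ 2) = r := fun r => by field_simp
  have b1 : bl ((σ n)⁻¹ ^ 2 • g n (t n)) (U n) (y n) c = bl (g n (t n)) (U n) (y n) (c * σ n) := by
    rw [← bl_smul (r := c * σ n) k0, a1]
  refine ⟨?_, hs n, hy n, ?_, ?_, ?_, fun s h z hz => ?_, ?_, fun a ha => ?_, fun a ha b hb => ?_,
    fun k hk a ha b hb m hm => ?_⟩
  · rw [resc_zero]; exact (hg n).smul (by positivity)
  · rw [resc_zero, ← a1 c]; exact (cpt_smul k0).2 (hp n)
  · rw [resc_zero, Sc_smul _ _ (by positivity), inv_pow, inv_inv, e n]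
  · have := parB_resc (hP n) k0
    rwa [a1, a2, show C / σ n ^ 2 / (σ n)⁻¹ ^ 2 = C by field_simp] at this
  · rw [resc_zero, b1] at hz
    rw [← a2 c] at h
    refine (SecGe_smul _ _ (by positivity) _).2 ?_
    convert hS n _ (resc_mem k0 h) z hz using 1
    field_simp
  · rw [resc_zero, ← a1 (c / 2)]
    exact (vl_smul (hg n) ((hp n).mono (by nlinarith)) k0).2 (hV n)
  · rw [resc_zero, b1] at ha
    rw [abs_mul, abs_of_pos k0, ← a1 B]
    exact mul_le_mul_of_nonneg_left (hB n a ha) k0.le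
  · rw [resc_zero, b1] at ha hb
    rw [resc_zero, dd_smul k0, ← mul_sub, abs_mul, abs_of_pos k0]
    exact mul_le_mul_of_nonneg_left (hL n a ha b hb) k0.le
  · rw [resc_zero, b1] at ha hb hm
    have := mid_smul k0 (hM n k hk a ha b hb m hm)
    rwa [a1, a2, ← dd_smul k0, ← dd_smul k0, ← dd_smul k0, ← resc_zero] at this

end Vale.Agent.P216U
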