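import Vale.Agent.P216U.Stab
import Vale.Agent.P216FA.Plan
import Vale.Agent.P216FL.OriC
import Vale.Agent.P216BG.Seg

/-! Transfer between a limit and the approximating manifolds. -/

open Set Filter Topology
open scoped ContDiff Manifold ENNReal

set_option maxSynthPendingDepth 3

noncomputable section

namespace Vale.Agent.P216U

open P216R P216DC P216FA P216BF
open P216SG hiding Emb

section static

variable {M : Type} [TopologicalSpace M] [ChartedSpace E3 M] {g : Ten E3 M} {U : Set M} {x : M}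
  {a e A : ℝ}

lemma al_triv (hx : x ∈ U) (ha : a ≤ 0) (he : 0 ≤ e) : AL g U x a e :=
  ⟨x, hx, x, hx, by rwa [dd_self], by rwa [dd_self], by simpa [dd_self] using he⟩

lemma sg_nonneg : 0 ≤ sg g x := inv_nonneg.2 (Real.sqrt_nonneg _)

/-- on a compact ball with positive scalar curvature the estimates hold with some constant -/
lemma exists_dt [IsManifold 𝓘(ℝ, E3) ∞ M] (hg : Met g U) (hx : x ∈ U) (h1 : Sc g x = 1)
    (hK : IsCompact (cbl g U x A)) (h0 : ∀ y ∈ cbl g U x A, 0 < Sc g y) :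
    ∃ C > 0, DT C A g U x := by
  have hs : {x} ⊆ U := singleton_subset_iff.2 hx
  obtain ⟨K0, a0, b0⟩ := P216BG.exists_rmB hg isCompact_singleton hs 0
  obtain ⟨K1, a1, b1⟩ := P216BG.exists_rmB hg isCompact_singleton hs 1
  obtain ⟨K2, a2, b2⟩ := P216BG.exists_rmB hg isCompact_singleton hs 2
  have hc := hg.continuousOn_Sc.mono (cbl_subset (g := g) (x := x) (r := A))
  obtain ⟨p, hp, p1⟩ := hK.exists_isMinOn ⟨x, mem_cbl_self hx⟩ hc
  obtain ⟨q, hq, q1⟩ := hK.exists_isMaxOn ⟨x, mem_cbl_self hx⟩ hc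
  have p0 := h0 p hp
  have q0 := h0 q hq
  have i0 := inv_pos.2 p0
  refine ⟨K0 + K1 + K2 + (Sc g p)⁻¹ + Sc g q, by positivity, rmB_mono (b0 x rfl) ?_,
    rmB_mono (b1 x rfl) ?_, rmB_mono (b2 x rfl) ?_, fun y hy => ?_⟩
  · rw [h1]; linarith
  · rw [h1, Real.sqrt_one]; linarith
  · rw [h1]; linarith
  · rw [sg_one h1, mul_one] at hy
    have y1 : Sc g p ≤ Sc g y := p1 (bl_subset_cbl hy)
    have y2 : Sc g y ≤ Sc g q := q1 (bl_subset_cbl hy)
    have y3 : 1 ≤ (Sc g p)⁻¹ * Sc g y := by rwa [← div_eq_inv_mul, one_le_div p0]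
    rw [h1]
    exact ⟨by nlinarith, by linarith⟩

end static

variable {ι : Type} {l : Ultrafilter ι} {X : Type} [TopologicalSpace X] [ChartedSpace E3 X]
  [IsManifold 𝓘(ℝ, E3) ∞ X] {h : Ten E3 X} {W : Set X} {M : ι → Type}
  [∀ n, TopologicalSpace (M n)] [∀ n, ChartedSpace E3 (M n)] [∀ n, IsManifold 𝓘(ℝ, E3) ∞ (M n)]
  {U : ∀ n, Set (M n)} {g : ∀ n, Ten E3 (M n)} {F : ∀ n, X → M n} {p : X} {y : ∀ n, M n}
  {R : ℝ≥0∞} {s ε A C w : ℝ}

/-- the absence of tripods passes to the limit -/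
theorem Conv.tri_lim (hc : Conv l U g F h W) (hU : ∀ᶠ n in l, Hs (U n)) (H : Cpl h W) (hp : p ∈ W)
    (hy : Ap l F y p) {σ : ι → ℝ} (hσ : Tendsto σ l (𝓝 s)) (h0 : 0 < s)
    (hT : ∀ᶠ n in l, Tri 0 (g n) (U n) (y n) (σ n)) : Tri 1 h W p s := by
  intro ρ hρ a ha b hb c hc' k1 k2 k3
  have fin : ∀ {a}, |dd h W p a - ρ| ≤ s / (1 + 1) → ed h W p a ≠ ⊤ := fun k =>
    ne_top_of_dd (by linarith [(abs_le.1 k).1, hρ.1])
  have near : ∀ {a}, a ∈ W → |dd h W p a - ρ| ≤ s / (1 + 1) → ∀ᶠ n in l, F n a ∈ U n ∧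
      |dd (g n) (U n) (y n) (F n a) - ρ| ≤ σ n / (1 + 0) := fun ha k =>
    (hc.ap_mem ha (ap_const _)).and (((((hc.tendsto_dd hU (cb_of_cpl H hp) hy (ap_const _) le_top
      (fin k)).sub_const ρ).abs).eventually_lt (hσ.div_const (1 + 0))
        (by linarith)).mono fun _ k => k.le)
  have lim : ∀ {a b}, a ∈ W → |dd h W p a - ρ| ≤ s / (1 + 1) → |dd h W p b - ρ| ≤ s / (1 + 1) →
      (∀ᶠ n in l, dd (g n) (U n) (F n a) (F n b) ≤ (12 + 0) * σ n) → dd h W a b ≤ (12 + 1) * s :=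
    fun ha ka kb k => (le_of_tendsto_of_tendsto (hc.tendsto_dd hU (cb_of_cpl H ha) (ap_const _)
      (ap_const _) le_top (ed_ne_top_trans (ed_comm.trans_ne (fin ka)) (fin kb)))
      (hσ.const_mul _) k).trans (by linarith)
  have k : ∀ᶠ n in l, dd (g n) (U n) (F n a) (F n b) ≤ (12 + 0) * σ n ∨
      dd (g n) (U n) (F n b) (F n c) ≤ (12 + 0) * σ n ∨
      dd (g n) (U n) (F n a) (F n c) ≤ (12 + 0) * σ n := by
    filter_upwards [hT, near ha k1, near hb k2, near hc' k3,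
      (hσ.const_mul (20 + 0)).eventually (gt_mem_nhds (show (20 + 0) * s < ρ by linarith [hρ.1])),
      (hσ.const_mul (1000 - 0)).eventually
        (lt_mem_nhds (show ρ < (1000 - 0) * s by linarith [hρ.2]))] with n t a1 a2 a3 a4 a5
    exact t ρ ⟨a4.le, a5.le⟩ _ a1.1 _ a2.1 _ a3.1 a1.2 a2.2 a3.2
  rcases Ultrafilter.eventually_or.1 k with k | k
  · exact .inl (lim ha k1 k2 k)
  · exact .inr ((Ultrafilter.eventually_or.1 k).imp (lim hb k2 k3) (lim ha k1 k3))

theorem ltl : LTL := fun ι l X Y W g f h L A hc _ _ H hg L0 hT y hy h1 h2 => by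
  have hm := hg.mono fun _ k => k.1
  have hU := hg.mono fun _ k => k.2
  have s0 := sg_pos (L0.trans h1)
  have t := hc.sg_ap hm hy (ap_const y) (L0.trans h1)
  have k : ∀ᶠ n in l, AL (g n) (W n) (f n y) (A * sg (g n) (f n y)) (sg (g n) (f n y)) := by
    rcases le_or_gt A 0 with A0 | A0
    · exact (hc.ap_mem hy (ap_const y)).mono fun n k =>
        al_triv k (mul_nonpos_of_nonpos_of_nonneg A0 sg_nonneg) sg_nonneg
    · exact hc.al_ev hU (cb_of_cpl H hy) (ap_const y) (by positivity) le_top h2 (t.const_mul A) t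
        (by linarith) (half_lt_self s0)
  refine hc.tri_lim hU H hy (ap_const y) t s0 ?_
  filter_upwards [hT y, k, (conv_sc_pt hc hm hy).eventually (lt_mem_nhds h1)] with n a b c
  exact a c.le b

/-- `Conv.nt_ev` for fixed base points of curvature one -/
theorem Conv.nt_ev' [MeasurableSpace X] [BorelSpace X] [∀ n, MeasurableSpace (M n)]
    [∀ n, BorelSpace (M n)] (hc : Conv l U g F h W) (hg : ∀ᶠ n in l, Met (g n) (U n) ∧ Hs (U n))
    (H : CB h W p R) (hp : p ∈ W) (h1 : ∀ᶠ n in l, Sc (g n) (F n p) = 1) (hN : NTp ε A w h W p)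
    (ε0 : 0 < ε) (hw : 0 ≤ w) (hR : ENNReal.ofReal (3 * A) ≤ R) :
    ∀ᶠ n in l, NT ε A w (g n) (U n) (F n p) := by
  obtain ⟨ρ, ⟨r1, r2⟩, r3⟩ := hN.thin
  have k1 : ∀ᶠ n in l, AL (g n) (U n) (F n p) A 1 → Cen (g n) (U n) (F n p) 1 ε := by
    rcases l.em fun n => AL (g n) (U n) (F n p) A 1 with k | k
    · exact (hc.cen_ev (hN.neck (hc.al_lim (hg.mono fun _ k => k.2) H hp (ap_const p)
        tendsto_const_nhds (by linarith) hR one_lt_two k)) (half_lt_self ε0)).mono fun _ k _ => k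
    · exact k.mono fun _ k k' => (k k').elim
  filter_upwards [k1, h1, conv_vol_le hc hg hp (s := 6 / 5) (r := ρ)
    (H.cpt (s := 3 * A) hR (by linarith)) (by norm_num) (by linarith)] with n a1 a2 a3
  refine ⟨?_, ρ, ?_, a3.trans ?_⟩
  · rwa [sg_one a2, mul_one]
  · rw [sg_one a2, mul_one]; exact ⟨r1, r2⟩
  refine (mul_le_mul_right ((MeasureTheory.measure_mono (bl_mono (by linarith))).trans r3) _).trans ?_
  rw [← ENNReal.ofReal_mul (by norm_num)]
  refine ENNReal.ofReal_le_ofReal ?_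
  have b3 : 0 ≤ w * ρ ^ 3 := mul_nonneg hw (pow_nonneg (by linarith) 3)
  nlinarith

theorem tr : TR := fun ι l X U g x L H => by
  have hg : ∀ᶠ n in (l : Filter ι), Met (g n) (U n) ∧ Hs (U n) :=
    .of_forall fun n => ⟨(H n).1.met, (H n).1.hs⟩
  have hm := hg.mono fun _ k => k.1
  have t := L.conv.sc_ap hm (mem_univ _) L.ap
  have h1 : Sc L.h L.o = 1 := tendsto_nhds_unique t
    (tendsto_const_nhds.congr fun n => (H n).2.2.symm)
  refine ⟨fun C A C0 hD => ?_, fun ε A w ε0 w0 hN => ?_, fun h0 A => exists_dt L.conv.met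
    (mem_univ _) h1 (L.cpt _ ENNReal.ofReal_lt_top) fun y _ => h0 y, fun ho =>
    P216C.ori_of_emb L.conv.emb (.of_forall fun n => ⟨(H n).1.met.isOpen, ho n⟩)⟩
  · rcases le_or_gt A 0 with A0 | A0
    · filter_upwards [L.conv.rmB_ap hm (mem_univ _) L.ap hD.r0 (t.const_mul (2 * C))
          (by rw [h1]; linarith),
        L.conv.rmB_ap hm (mem_univ _) L.ap hD.r1 ((t.const_mul (2 * C)).mul t.sqrt)
          (by rw [h1, Real.sqrt_one]; linarith),
        L.conv.rmB_ap hm (mem_univ _) L.ap hD.r2 ((t.pow 2).const_mul (2 * C))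
          (by rw [h1]; linarith)] with n a b c
      exact ⟨a, b, c, fun z hz => absurd (pos_of_mem_bl hz)
        (not_lt.2 (mul_nonpos_of_nonpos_of_nonneg A0 sg_nonneg))⟩
    · exact L.conv.dt_ev hg L.cb (mem_univ _) L.ap (h1 ▸ one_pos) hD (by linarith) (lt_add_one A)
        (by linarith) le_top
  · filter_upwards [L.conv.nt_ev' hg L.cb (mem_univ _)
      (L.base.mono fun n e => by rw [e, (H n).2.2]) hN ε0 w0.le le_top, L.base] with n a e
    exact e ▸ a

end Vale.Agent.P216U
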