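import Vale.Agent.P216U.Cv
import Vale.Agent.P216G.Bd
import Mathlib.Analysis.Calculus.FDeriv.Symmetric
import Mathlib.Analysis.Normed.Operator.Banach

/-! Isometries between metrics with bounded jets have bounded jets. -/

open Set Filter Topology Metric
open scoped ContDiff

set_option linter.unusedSectionVars false

namespace Vale.Agent.P216U

open P216G

variable {ι E F : Type} [NormedAddCommGroup E] [NormedSpace ℝ E] [NormedAddCommGroup F]
  [NormedSpace ℝ F] {l : Filter ι}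

/-- from `BJ` to `BdAt` -/
lemma bdAt_of_bj {S : Set E} {f : ι → E → F} {x : E} {k : ℕ} (hS : S ∈ 𝓝 x)
    (h : BJ (l ×ˢ 𝓝 x) Prod.snd k fun q => f q.1) : BdAt l S k f x := by
  refine BdAt.congr_set (S := univ) ?_ (by filter_upwards [hS] with y hy using (eq_true hy).symm)
  choose C hC using fun j : Fin (k + 1) => h.bd j (Nat.lt_succ_iff.1 j.2)
  obtain ⟨D, hD⟩ := (finite_range C).bddAbove
  refine ⟨D, ?_⟩
  rw [nhdsWithin_univ]
  filter_upwards [h.sm, eventually_all.2 hC] with q h1 h2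
  refine ⟨(h1.of_le (le_inf k)).contDiffWithinAt, fun j hj => ?_⟩
  rw [iteratedFDerivWithin_univ]
  exact (h2 ⟨j, by omega⟩).trans (hD ⟨_, rfl⟩)

lemma bj_of_apply [FiniteDimensional ℝ E] {H : Type} [NormedAddCommGroup H] [NormedSpace ℝ H]
    {x : ι → H} {k : ℕ} {A : ι → H → E →L[ℝ] F} (h : ∀ v, BJ l x k fun n y => A n y v) :
    BJ l x k A := by
  let b := Module.finBasis ℝ E
  refine (BJ.sum Finset.univ fun i _ => (h (b i)).clm
    (ContinuousLinearMap.smulRightL ℝ E F (b.coord i).toContinuousLinearMap)).congr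
    (.of_forall fun n => .of_forall fun y => ?_)
  ext v
  conv_lhs => rw [← b.sum_repr v, map_sum]
  simp

lemma koszul {τ : E → E} {G G' : E → E →L[ℝ] E →L[ℝ] ℝ} {x : E} (hτ : ContDiffAt ℝ 2 τ x)
    (hG : DifferentiableAt ℝ G x) (hG' : DifferentiableAt ℝ G' (τ x))
    (hs : ∀ u v, G' (τ x) u v = G' (τ x) v u)
    (e : ∀ᶠ y in 𝓝 x, ∀ u v, G y u v = G' (τ y) (fderiv ℝ τ y u) (fderiv ℝ τ y v)) (w u v : E) :
    G' (τ x) (fderiv ℝ (fderiv ℝ τ) x w u) (fderiv ℝ τ x v) = (2 : ℝ)⁻¹ *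
      (fderiv ℝ G x w u v + fderiv ℝ G x u w v - fderiv ℝ G x v w u -
      (fderiv ℝ G' (τ x) (fderiv ℝ τ x w) (fderiv ℝ τ x u) (fderiv ℝ τ x v) +
      fderiv ℝ G' (τ x) (fderiv ℝ τ x u) (fderiv ℝ τ x w) (fderiv ℝ τ x v) -
      fderiv ℝ G' (τ x) (fderiv ℝ τ x v) (fderiv ℝ τ x w) (fderiv ℝ τ x u))) := by
  have h1 := (hτ.differentiableAt (by simp)).hasFDerivAt
  have h2 := ((hτ.fderiv_right (m := 1) (by norm_num)).differentiableAt (by simp)).hasFDerivAt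
  have sy := hτ.isSymmSndFDerivAt (by simp)
  have k : ∀ w u v, fderiv ℝ G x w u v =
      fderiv ℝ G' (τ x) (fderiv ℝ τ x w) (fderiv ℝ τ x u) (fderiv ℝ τ x v) +
      G' (τ x) (fderiv ℝ (fderiv ℝ τ) x w u) (fderiv ℝ τ x v) +
      G' (τ x) (fderiv ℝ τ x u) (fderiv ℝ (fderiv ℝ τ) x w v) := fun w u v => by
    have a := (hG.hasFDerivAt.clm_apply (hasFDerivAt_const u x)).clm_apply (hasFDerivAt_const v x)
    have b0 : HasFDerivAt (fun y => G' (τ y)) _ x :=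
      HasFDerivAt.comp (G := E →L[ℝ] E →L[ℝ] ℝ) (g := G') x hG'.hasFDerivAt h1
    have b := (b0.clm_apply (h2.clm_apply (hasFDerivAt_const u x))).clm_apply
      (h2.clm_apply (hasFDerivAt_const v x))
    have c := DFunLike.congr_fun (a.unique (b.congr_of_eventuallyEq (e.mono fun y hy => hy u v))) w
    simp at c
    linarith
  rw [k w u v, k u w v, k v w u, sy.eq u w, sy.eq v w, sy.eq v u, hs (fderiv ℝ τ x u)]
  ring

variable [FiniteDimensional ℝ E]

lemma solve {A : E →L[ℝ] E} {G G' : E →L[ℝ] E →L[ℝ] ℝ} (J : (E →L[ℝ] ℝ) →L[ℝ] E)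
    (hu : IsUnit (J.comp G)) (e : ∀ u v, G u v = G' (A u) (A v)) (b : E) :
    b = A (Ring.inverse (J.comp G) (J ((G' b).comp A))) := by
  have k : ∀ a, Ring.inverse (J.comp G) (J (G a)) = a := fun a =>
    DFunLike.congr_fun (Ring.inverse_mul_cancel _ hu) a
  have hi : Function.Injective A := (injective_iff_map_eq_zero A).2 fun a ha => by
    have : G a = 0 := by ext v; simp [e, ha]
    rw [← k a, this]; simp
  obtain ⟨a, rfl⟩ := (LinearMap.injective_iff_surjective (f := (A : E →ₗ[ℝ] E))).1 hi b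
  have : (G' ((A : E →ₗ[ℝ] E) a)).comp A = G a := by ext v; simp [e]
  rw [this, k]; rfl

lemma unit_of_pos {G : E →L[ℝ] E →L[ℝ] ℝ} (J : (E →L[ℝ] ℝ) ≃L[ℝ] E) {c : ℝ} (hc : 0 < c)
    (h : ∀ v, c * ‖v‖ ^ 2 ≤ G v v) : IsUnit ((J : (E →L[ℝ] ℝ) →L[ℝ] E).comp G) ∧
    ‖Ring.inverse ((J : (E →L[ℝ] ℝ) →L[ℝ] E).comp G)‖ ≤
      ‖(J.symm : E →L[ℝ] E →L[ℝ] ℝ)‖ / c := by
  have k : ∀ v, ‖v‖ ≤ ‖(J.symm : E →L[ℝ] E →L[ℝ] ℝ)‖ / c * ‖J (G v)‖ := fun v => by
    rcases (norm_nonneg v).eq_or_lt with h0 | h0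
    · rw [← h0]; positivity
    have h1 : c * ‖v‖ ≤ ‖G v‖ := by
      have := (h v).trans ((le_abs_self _).trans ((G v).le_opNorm v))
      nlinarith
    have h2 : ‖G v‖ ≤ ‖(J.symm : E →L[ℝ] E →L[ℝ] ℝ)‖ * ‖J (G v)‖ := by
      simpa using (J.symm : E →L[ℝ] E →L[ℝ] ℝ).le_opNorm (J (G v))
    rw [div_mul_eq_mul_div, le_div_iff₀ hc]
    linarith
  have hi : Function.Injective ((J : (E →L[ℝ] ℝ) →L[ℝ] E).comp G) :=
    (injective_iff_map_eq_zero _).2 fun a ha => by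
      have := k a
      rw [show J (G a) = 0 from ha] at this
      simpa using this
  have hu : IsUnit ((J : (E →L[ℝ] ℝ) →L[ℝ] E).comp G) :=
    ContinuousLinearMap.isUnit_iff_bijective.2 ⟨hi, (LinearMap.injective_iff_surjective
      (f := (((J : (E →L[ℝ] ℝ) →L[ℝ] E).comp G : E →L[ℝ] E) : E →ₗ[ℝ] E))).1 hi⟩
  refine ⟨hu, ContinuousLinearMap.opNorm_le_bound _ (by positivity) fun w => ?_⟩
  have := k (Ring.inverse ((J : (E →L[ℝ] ℝ) →L[ℝ] E).comp G) w)
  rwa [show J (G (Ring.inverse ((J : (E →L[ℝ] ℝ) →L[ℝ] E).comp G) w)) = w from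
    DFunLike.congr_fun (Ring.mul_inverse_cancel _ hu) w] at this

/-- uniformly positive along a filter -/
def UPos (l : Filter ι) (G : ι → E →L[ℝ] E →L[ℝ] ℝ) : Prop :=
  ∃ c > 0, ∀ᶠ n in l, ∀ v, c * ‖v‖ ^ 2 ≤ G n v v

/-- the bootstrap for isometries -/
theorem bj_iso {x : ι → E} {τ : ι → E → E} {G G' : ι → E → E →L[ℝ] E →L[ℝ] ℝ}
    (hτ : ∀ᶠ n in l, ContDiffAt ℝ ∞ (τ n) (x n)) (hG : ∀ k, BJ l x k G)
    (hG' : ∀ k, BJ l (fun n => τ n (x n)) k G') (p : UPos l fun n => G n (x n))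
    (p' : UPos l fun n => G' n (τ n (x n)))
    (e : ∀ᶠ n in l, ∀ᶠ y in 𝓝 (x n), (∀ u v, G' n (τ n y) u v = G' n (τ n y) v u) ∧
      ∀ u v, G n y u v = G' n (τ n y) (fderiv ℝ (τ n) y u) (fderiv ℝ (τ n) y v)) (k : ℕ) :
    BJ l x k fun n => fderiv ℝ (τ n) := by
  have h0 : BJ l x 0 fun n => fderiv ℝ (τ n) := by
    refine .zero_of (hτ.mono fun n hn => hn.fderiv_right (m := ∞) (by simp)) ?_
    obtain ⟨c, c0, hc⟩ := p'
    obtain ⟨C, C0, hC⟩ := (hG 0).val.nonneg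
    refine ⟨√(C / c), ?_⟩
    filter_upwards [hc, hC, e] with n h1 h2 h3
    refine ContinuousLinearMap.opNorm_le_bound _ (by positivity) fun v => ?_
    have h4 := (h1 (fderiv ℝ (τ n) (x n) v)).trans_eq (h3.self_of_nhds.2 v v).symm
    have h5 := h4.trans ((le_abs_self _).trans ((G n (x n)).le_opNorm₂ v v))
    refine (sq_le_sq₀ (by positivity) (by positivity)).1 ?_
    rw [mul_pow, Real.sq_sqrt (by positivity), div_mul_eq_mul_div, le_div_iff₀ c0]
    nlinarith [mul_le_mul_of_nonneg_right h2 (sq_nonneg ‖v‖)]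
  obtain ⟨J⟩ : Nonempty ((E →L[ℝ] ℝ) ≃L[ℝ] E) :=
    ⟨.ofFinrankEq (by
      rw [← LinearMap.toContinuousLinearMap.finrank_eq]; exact Subspace.dual_finrank_eq)⟩
  obtain ⟨c, c0, hc⟩ := p
  induction k with
  | zero => exact h0
  | succ k ih =>
    have hJ : BJ l x k fun n y => (J : (E →L[ℝ] ℝ) →L[ℝ] E).comp (G n y) :=
      (BJ.cst _).clm_comp (hG k)
    have hI := hJ.inverse (hc.mono fun n hn => (unit_of_pos J c0 hn).1)
      ⟨_, hc.mono fun n hn => (unit_of_pos J c0 hn).2⟩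
    have hD := (hG' (k + 1)).fderiv.comp hτ (ih.mono (by omega))
    have a := fun u => ih.clm_apply (BJ.cst u)
    have g := fun w u v => (((hG (k + 1)).fderiv.clm_apply (BJ.cst w)).clm_apply
      (BJ.cst u)).clm_apply (BJ.cst v)
    have g' := fun w u v => ((hD.clm_apply (a w)).clm_apply (a u)).clm_apply (a v)
    refine h0.succ (bj_of_apply fun w => bj_of_apply fun u => ?_)
    have hT : BJ l x k fun n y => (G' n (τ n y) (fderiv ℝ (fderiv ℝ (τ n)) y w u)).comp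
        (fderiv ℝ (τ n) y) := bj_of_apply fun v => by
      refine ((BJ.cst (2 : ℝ)⁻¹).mul ((((g w u v).add (g u w v)).sub (g v w u)).sub
        (((g' w u v).add (g' u w v)).sub (g' v w u)))).congr ?_
      filter_upwards [hτ, e, (hG 0).diff, (hG' 0).diff] with n h1 h2 h3 h4
      filter_upwards [(h1.of_le (le_inf 2)).eventually (by simp), h2.eventually_nhds, h3,
        h1.continuousAt.eventually h4] with y h5 h6 h7 h8
      exact koszul h5 h7 h8 h6.self_of_nhds.1 (h6.mono fun _ h => h.2) w u v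
    refine (ih.clm_apply (hI.clm_apply (hT.clm (J : (E →L[ℝ] ℝ) →L[ℝ] E)))).congr ?_
    filter_upwards [e, hJ.sm, hc] with n h1 h2 h3
    filter_upwards [h1, h2.continuousAt.eventually
      (Units.isOpen.mem_nhds (unit_of_pos J c0 h3).1)] with y h4 h5
    exact solve _ h5 h4.2 _

end Vale.Agent.P216U
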