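import Vale.Agent.P216U.Trans

/-! Admissible families of maps are local diffeomorphisms and pull the metrics back to a
converging family. -/

open Set Filter Topology Metric Function
open scoped ContDiff Manifold ENNReal NNReal

set_option linter.unusedSectionVars false
set_option maxSynthPendingDepth 3

noncomputable section

namespace Vale.Agent.P216U

open P216R P216G

variable {ι E : Type} [NormedAddCommGroup E] [NormedSpace ℝ E] [FiniteDimensional ℝ E]
  {M : ι → Type} [∀ n, TopologicalSpace (M n)] [∀ n, ChartedSpace E (M n)]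
  [∀ n, IsManifold 𝓘(ℝ, E) ∞ (M n)] {l : Filter ι} {V : Ultrafilter ι}
  {X : Type} [TopologicalSpace X] [ChartedSpace E X] [IsManifold 𝓘(ℝ, E) ∞ X]

lemma contDiff_bc : ContDiff ℝ ∞ fun q : Bil E × (E →L[ℝ] E) => q.1.bilinearComp q.2 q.2 :=
  contDiff_clm_apply_iff.2 fun _ => contDiff_clm_apply_iff.2 fun _ =>
    (contDiff_fst.clm_apply (contDiff_snd.clm_apply contDiff_const)).clm_apply
      (contDiff_snd.clm_apply contDiff_const)

lemma tendsto_bc {B : ι → Bil E} {b : Bil E} (h : Tendsto B l (𝓝 b)) (L : E →L[ℝ] E) :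
    Tendsto (fun n => (B n).bilinearComp L L) l (𝓝 (b.bilinearComp L L)) :=
  by
  have h1 := (contDiff_bc (E := E)).continuous.comp (Continuous.prodMk_left L)
  have h2 := (h1.tendsto b).comp h
  exact h2

lemma ev_pt {X : Type} [TopologicalSpace X] {x : X} {P : ι × X → Prop} (h : ∀ᶠ q in l ×ˢ 𝓝 x, P q) :
    ∀ᶠ n in l, P (n, x) := (tendsto_id.prodMk tendsto_const_nhds).eventually h

lemma exists_tcv [NeBot l] {g : ι → Ten E X} {W : Set X}
    (H : ∀ a, ∃ G, Cv l (dom E a W) (fun n => co (g n) a) G) : ∃ h, TCv l g h W := by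
  choose G H using H
  refine ⟨fun p => G p (pt E p), fun a => (H a).congr (fun _ _ => .of_forall fun _ => rfl)
    fun b hb => tendsto_nhds_unique ?_ ((H a).lim b hb)⟩
  have h1 := (H _).lim _ (pt_mem_dom hb.2)
  simp only [co_pt] at h1
  exact tendsto_bc h1 _

lemma TCv.met {g : ι → Ten E X} {h : Ten E X} {W : Set X} (hc : TCv V g h W) (hW : IsOpen W)
    (hs : ∀ y ∈ W, ∀ᶠ n in V, ∀ v w, g n y v w = g n y w v)
    (hp : ∀ y ∈ W, ∀ v, v ≠ 0 → 0 < h y v v) : Met h W :=
  have k : ∀ y ∈ W, ∀ v w, Tendsto (fun n => g n y v w) V (𝓝 (h y v w)) := fun y hy v w =>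
    ((show Continuous fun B : Bil E => B v w by fun_prop).tendsto _).comp (hc.lim hy)
  ⟨hW, fun y hy v w => tendsto_nhds_unique (k y hy v w)
    ((k y hy w v).congr' ((hs y hy).mono fun _ h => h w v)), hp,
    fun a => (hc a).contDiffOn (.of_isOpen (isOpen_dom a hW))⟩

lemma near_id {S : Set E} {β : ι → E → E} (hS : IsOpen S) (h : Cv V S β id) {a : E} (ha : a ∈ S) :
    ∀ᶠ w in (V : Filter ι) ×ˢ 𝓝 a, DifferentiableAt ℝ (β w.1) w.2 ∧
      ‖fderiv ℝ (β w.1) w.2 - ContinuousLinearMap.id ℝ E‖ ≤ 1 / 2 := by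
  have h1 := ((h.fderiv hS).loc (hS.mem_nhds ha)).tendsto
  rw [fderiv_id] at h1
  obtain ⟨_, h2⟩ := (h.loc (hS.mem_nhds ha)).bd 1
  rw [nhdsWithin_univ] at h2
  filter_upwards [h1.eventually (closedBall_mem_nhds _ one_half_pos), h2] with w h3 h4
  exact ⟨(contDiffWithinAt_univ.1 h4.1).differentiableAt (by simp), mem_closedBall_iff_norm.1 h3⟩

lemma inj_of_near {A : E →L[ℝ] E} (h : ‖A - ContinuousLinearMap.id ℝ E‖ ≤ 1 / 2) : Injective A :=
  (injective_iff_map_eq_zero A).2 fun v hv => by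
    have := (A - ContinuousLinearMap.id ℝ E).le_of_opNorm_le h v
    simp only [sub_apply, hv, ContinuousLinearMap.id_apply, zero_sub,
      norm_neg] at this
    exact norm_le_zero_iff.1 (by linarith)

lemma injOn_near {S : Set E} {β : ι → E → E} (hS : IsOpen S) (h : Cv V S β id) {a : E}
    (ha : a ∈ S) : ∃ r > 0, ∀ᶠ n in V, InjOn (β n) (ball a r) := by
  obtain ⟨p, hp, q, hq, h⟩ := eventually_prod_iff.1 (near_id hS h ha)
  obtain ⟨r, r0, hr⟩ := Metric.eventually_nhds_iff_ball.1 hq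
  refine ⟨r, r0, hp.mono fun n hn b hb b' hb' e => ?_⟩
  have := (convex_ball a r).norm_image_sub_le_of_norm_fderiv_le' (f := β n) (C := 1 / 2)
    (φ := ContinuousLinearMap.id ℝ E) (fun y hy => (h hn (hr y hy)).1)
    (fun y hy => (h hn (hr y hy)).2) hb hb'
  simp only [e, sub_self, ContinuousLinearMap.id_apply, zero_sub, norm_neg] at this
  exact (eq_of_norm_sub_le_zero (by linarith)).symm

variable {U : ∀ n, Set (M n)} {g : ∀ n, Ten E (M n)} {A : Apx V M E X} {F : ∀ n, X → M n}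

/-- the maps `F n` read in the approximate chart `q` -/
def Apx.rd (A : Apx V M E X) (F : ∀ n, X → M n) (q : X) (n : ι) (b : E) : E :=
  A.inv q n (F n ((chartAt E q).symm b))

section
variable (hF : ∀ q y, y ∈ (chartAt E q).source → A.Adm F q y)
include hF

lemma rd_spec {q : X} {a : E} (ha : a ∈ (chartAt E q).target) : SLoc V (A.rd F q) a a ∧
    ∀ᶠ w in (V : Filter ι) ×ˢ 𝓝 a, F w.1 ((chartAt E q).symm w.2) = A.φ q w.1 (A.rd F q w.1 w.2) := by
  have h0 := (chartAt E q).map_target ha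
  obtain ⟨h1, h2⟩ := (hF q _ h0).spec h0
  have h3 := (P216U.tendsto_symm _ h0).eventually h2
  rw [(chartAt E q).right_inv ha] at h1 h3
  exact ⟨h1, h3⟩

lemma rd_cv (q : X) : Cv V (chartAt E q).target (A.rd F q) id :=
  .of_loc (chartAt E q).open_target fun _ ha => (rd_spec hF ha).1.toLoc

lemma injOn_loc (y : X) : ∃ N ∈ 𝓝 y, ∀ᶠ n in V, InjOn (F n) N := by
  obtain ⟨r, r0, h⟩ := injOn_near (chartAt E y).open_target (rd_cv hF y) (pt_mem y)
  refine ⟨_, inter_mem ((chartAt E y).open_source.mem_nhds (mem_chart_source E y))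
    ((chartAt E y).continuousAt (mem_chart_source E y) (ball_mem_nhds _ r0)),
    h.mono fun n hn z hz z' hz' e => (chartAt E y).injOn hz.1 hz'.1 (hn hz.2 hz'.2 ?_)⟩
  simp only [Apx.rd, (chartAt E y).left_inv hz.1, (chartAt E y).left_inv hz'.1, e]

variable (hA : ∀ p, ∃ δ c C, 0 < c ∧ (chartAt E p).target = ball 0 δ ∧ GCh V U g δ c C (A.φ p))
include hA

lemma ld_loc (y : X) : ∀ᶠ w in (V : Filter ι) ×ˢ 𝓝 y,
    SM E (F w.1) w.2 ∧ Injective (md E (F w.1) w.2) ∧ F w.1 w.2 ∈ U w.1 := by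
  obtain ⟨δ, c, C, -, h1, h2⟩ := hA y
  obtain ⟨h3, h4⟩ := rd_spec hF (pt_mem (E := E) y)
  have t := tendsto_chart (V : Filter ι) (mem_chart_source E y)
  filter_upwards [t.eventually h3.sm, t.eventually (ev_ev' h4), tendsto_fst.eventually h2.ev,
    t.eventually (near_id (chartAt E y).open_target (rd_cv hF y) (pt_mem y)),
    t.eventually (h3.tendsto.eventually ((chartAt E y).open_target.mem_nhds (pt_mem y))),
    tendsto_snd.eventually ((chartAt E y).open_source.mem_nhds (mem_chart_source E y))]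
    with w h5 h6 h7 h8 h9 h10
  rw [h1] at h9
  have e : F w.1 =ᶠ[𝓝 w.2] A.φ y w.1 ∘ A.rd F y w.1 ∘ chartAt E y := by
    filter_upwards [((chartAt E y).continuousAt h10).eventually h6,
      (chartAt E y).open_source.mem_nhds h10] with z h11 h12
    rwa [(chartAt E y).left_inv h12] at h11
  have s1 : SM E (A.rd F y w.1 ∘ chartAt E y) w.2 := h5.contMDiffAt.comp _ (sm_chart h10)
  refine ⟨(ContMDiffAt.comp w.2 (h7.1.sm h9) s1).congr_of_eventuallyEq e, ?_, e.self_of_nhds ▸ h7.2.2.1 h9⟩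
  rw [md_congr e, md_comp (k := A.rd F y w.1 ∘ chartAt E y) (x := w.2) (h7.1.md h9) s1.md,
    md_comp (SM.md h5.contMDiffAt) (sm_chart h10).md,
    md_model]
  exact (h7.1.inj _ h9).comp ((inj_of_near h8.2).comp ((ld_chart y).inj _ h10))

lemma adm_cv (q : X) : ∃ G, Cv V (dom E q univ) (fun n => co (comap (F n) (g n)) q) G ∧
    ∀ b ∈ dom E q univ, ∀ v, v ≠ 0 → 0 < G b v v := by
  obtain ⟨δ, c, C, c0, h1, h2⟩ := hA q
  obtain ⟨G, hG⟩ := h2.loc
  have o := (chartAt E q).open_target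
  rw [show dom E q univ = (chartAt E q).target from inter_univ _]
  have k := ((h1 ▸ hG).comp (.of_isOpen o) o (rd_cv hF q) (mapsTo_id _)).map₂ (.of_isOpen o)
    (Φ := fun B L => ContinuousLinearMap.bilinearComp B L L) contDiff_bc ((rd_cv hF q).fderiv o)
  refine ⟨G, k.congr (fun a ha => ?_) fun a _ => by ext; simp,
    fun b hb v hv => lt_of_lt_of_le (mul_pos c0 (pow_pos (norm_pos_iff.2 hv) 2)) ?_⟩
  · obtain ⟨h3, h4⟩ := rd_spec hF ha
    have t := P216U.tendsto_symm (V : Filter ι) ((chartAt E q).map_target ha)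
    rw [(chartAt E q).right_inv ha] at t
    rw [o.nhdsWithin_eq ha]
    filter_upwards [h3.sm, ev_ev' h4, tendsto_fst.eventually h2.ev, t.eventually (ld_loc hF hA _),
      h3.tendsto.eventually (o.mem_nhds ha), tendsto_snd.eventually (o.mem_nhds ha)]
      with w h5 h6 h7 h8 h9 h10
    rw [co_comap _ h10 h8.1.md]
    exact comap_of_eq _ (h5.differentiableAt (by simp)) (h7.1.md (h1 ▸ h9)) h6
  · rw [h1] at hb
    exact ge_of_tendsto (((show Continuous fun B : Bil E => B v v by fun_prop).tendsto _).comp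
      (hG.lim b hb)) (h2.ev.mono fun n hn => (hn.2.2.2 b hb v).1)

lemma adm_met (hg : ∀ n, Met (g n) (U n)) :
    ∃ h, Met h univ ∧ TCv V (fun n => comap (F n) (g n)) h univ := by
  obtain ⟨h, H⟩ := exists_tcv (g := fun n => comap (F n) (g n))
    fun q => (adm_cv hF hA q).imp fun _ h => h.1
  refine ⟨h, H.met isOpen_univ (fun y _ => ?_) fun y _ v hv => ?_, H⟩
  · exact (ev_pt (ld_loc hF hA y)).mono fun n hn v w => (hg n).symm _ hn.2.2 _ _
  · obtain ⟨G, h1, h2⟩ := adm_cv hF hA y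
    rw [← co_pt h y, (H y).unique h1 (pt_mem_dom trivial)]
    exact h2 _ (pt_mem_dom trivial) v hv

lemma adm_emb (sep : ∀ (p q : ι → X) (a b : X), Tendsto p V (𝓝 a) → Tendsto q V (𝓝 b) →
    (∀ᶠ n in V, F n (p n) = F n (q n)) → a = b) : Emb E V U F univ := fun K hK _ => by
  obtain ⟨W, K', h1, h2, h3, h4, -⟩ := exists_between_compact E hK isOpen_univ (subset_univ K)
  have h5 : ∀ᶠ n in V, InjOn (F n) K' := by
    by_contra h5
    have h6 : ∀ n, ∃ p q, ¬InjOn (F n) K' → p ∈ K' ∧ q ∈ K' ∧ F n p = F n q ∧ p ≠ q := fun n => by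
      by_cases h : InjOn (F n) K'
      · obtain ⟨n, hn⟩ := (Ultrafilter.eventually_not.2 h5).exists
        simp only [InjOn, not_forall] at hn
        exact ⟨hn.choose, hn.choose, fun h' => (h' h).elim⟩
      · simp only [InjOn, not_forall] at h
        obtain ⟨p, hp, q, hq, e, e'⟩ := h
        exact ⟨p, q, fun _ => ⟨hp, hq, e, e'⟩⟩
    choose p q h6 using h6
    have h7 := (Ultrafilter.eventually_not.2 h5).mono h6
    obtain ⟨a, -, ha⟩ := h2.ultrafilter_le_nhds (V.map p) (le_principal_iff.2 (h7.mono fun _ h => h.1))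
    obtain ⟨b, -, hb⟩ := h2.ultrafilter_le_nhds (V.map q)
      (le_principal_iff.2 (h7.mono fun _ h => h.2.1))
    obtain rfl := sep p q a b ha hb (h7.mono fun _ h => h.2.2.1)
    obtain ⟨N, h8, h9⟩ := injOn_loc hF a
    obtain ⟨n, h10, h11, h12, h13⟩ := (h7.and (h9.and ((Tendsto.eventually ha h8).and
      (Tendsto.eventually hb h8)))).exists
    exact h10.2.2.2 (h11 h12 h13 h10.2.2.1)
  refine ⟨W, h3, subset_univ _, ?_⟩
  filter_upwards [h5, ev_compact (S := univ) h2 (subset_univ _) fun y _ =>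
    nhdsWithin_univ y ▸ ld_loc hF hA y] with n h6 h7
  exact ⟨⟨h1, fun y hy => (h7 y (h4 hy)).1.contMDiffWithinAt, fun y hy => (h7 y (h4 hy)).2.1⟩,
    h6.mono h4, fun y hy => (h7 y (h4 hy)).2.2⟩

end

end Vale.Agent.P216U
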