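import Mathlib.Analysis.Calculus.ContDiff.Bounds
import Mathlib.Analysis.Calculus.MeanValue
import Mathlib.Analysis.Normed.Module.FiniteDimension
import Mathlib.Analysis.Calculus.TangentCone.Prod

/-! Smooth limits of families with locally bounded derivatives. -/

open Set Filter Topology Metric
open scoped ContDiff Nat

set_option linter.unusedSectionVars false

namespace Vale.Agent.P216U

variable {ι E F G : Type} [NormedAddCommGroup E] [NormedSpace ℝ E] [NormedAddCommGroup F]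
  [NormedSpace ℝ F] [NormedAddCommGroup G] [NormedSpace ℝ G]

/-- locally convex sets with unique derivatives -/
structure Nice (S : Set E) : Prop where
  ud : UniqueDiffOn ℝ S
  cv : ∀ x ∈ S, ∃ r > 0, Convex ℝ (S ∩ ball x r)

lemma Nice.of_isOpen {S : Set E} (h : IsOpen S) : Nice S :=
  ⟨h.uniqueDiffOn, fun x hx => by
    obtain ⟨r, r0, hr⟩ := Metric.isOpen_iff.1 h x hx
    exact ⟨r, r0, by rw [inter_eq_self_of_subset_right hr]; exact convex_ball x r⟩⟩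

lemma Nice.of_convex {S : Set E} (h : Convex ℝ S) (h' : (interior S).Nonempty) : Nice S :=
  ⟨uniqueDiffOn_convex h h', fun x _ => ⟨1, one_pos, h.inter (convex_ball x 1)⟩⟩

lemma Nice.small {S : Set E} (h : Nice S) {x : E} (hx : x ∈ S) {V : Set E} (hV : V ∈ 𝓝[S] x) :
    ∃ r > 0, Convex ℝ (S ∩ ball x r) ∧ S ∩ ball x r ⊆ V := by
  obtain ⟨r, r0, hr⟩ := h.cv x hx
  obtain ⟨s, s0, hs⟩ := Metric.mem_nhdsWithin_iff.1 hV
  refine ⟨min r s, lt_min r0 s0, ?_, fun y hy => hs ⟨ball_subset_ball (min_le_right _ _) hy.2, hy.1⟩⟩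
  have e : S ∩ ball x (min r s) = S ∩ ball x r ∩ ball x s := by
    ext y; simp [and_assoc]
  exact e ▸ hr.inter (convex_ball x s)

lemma Nice.prod {S : Set E} {T : Set F} (h : Nice S) (h' : Nice T) : Nice (S ×ˢ T) :=
  ⟨UniqueDiffOn.prod h.ud h'.ud, fun x hx => by
    obtain ⟨r, r0, hr⟩ := h.cv _ hx.1
    obtain ⟨s, s0, hs⟩ := h'.cv _ hx.2
    refine ⟨min r s, lt_min r0 s0, ?_⟩
    have e : S ×ˢ T ∩ ball x (min r s) =
        (S ∩ ball x.1 r) ×ˢ (T ∩ ball x.2 s) ∩ ball x (min r s) := by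
      ext y
      simp only [mem_inter_iff, mem_prod, mem_ball, Prod.dist_eq, max_lt_iff, lt_min_iff]
      tauto
    exact e ▸ (hr.prod hs).inter (convex_ball _ _)⟩

lemma Nice.inter {S V : Set E} (h : Nice S) (hV : IsOpen V) : Nice (S ∩ V) :=
  ⟨h.ud.inter hV, fun x hx => by
    obtain ⟨r, r0, h1, h2⟩ := h.small hx.1 (mem_nhdsWithin_of_mem_nhds (hV.mem_nhds hx.2))
    refine ⟨r, r0, ?_⟩
    rwa [inter_right_comm, inter_eq_self_of_subset_left h2]⟩

/-- the derivatives of order at most `k` at `x` are bounded by `C` -/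
def JB (S : Set E) (k : ℕ) (f : E → F) (x : E) (C : ℝ) : Prop :=
  ContDiffWithinAt ℝ k f S x ∧ ∀ j ≤ k, ‖iteratedFDerivWithin ℝ j f S x‖ ≤ C

section jb
variable {S : Set E} {T : Set F} {k : ℕ} {f : E → F} {x : E} {C D : ℝ}

lemma JB.norm_le (h : JB S k f x C) : ‖f x‖ ≤ C := by simpa using h.2 0 k.zero_le

lemma JB.nonneg (h : JB S k f x C) : 0 ≤ C := (norm_nonneg _).trans h.norm_le

lemma JB.mono (h : JB S k f x C) {j : ℕ} (hj : j ≤ k) (hC : C ≤ D) : JB S j f x D :=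
  ⟨h.1.of_le (by exact_mod_cast hj), fun i hi => (h.2 i (hi.trans hj)).trans hC⟩

lemma JB.congr (h : JB S k f x C) {f' : E → F} (hx : x ∈ S) (e : f' =ᶠ[𝓝[S] x] f) :
    JB S k f' x C :=
  have e0 := e.self_of_nhdsWithin hx
  ⟨h.1.congr_of_eventuallyEq e e0, fun j hj => by
    rw [e.iteratedFDerivWithin_eq e0 j]; exact h.2 j hj⟩

lemma JB.congr_set (h : JB S k f x C) {S' : Set E} (e : S =ᶠ[𝓝 x] S') : JB S' k f x C :=
  ⟨h.1.congr_set e, fun j hj => by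
    rw [← iteratedFDerivWithin_congr_set e j]; exact h.2 j hj⟩

lemma JB.prodMk (hS : UniqueDiffOn ℝ S) (hx : x ∈ S) (h : JB S k f x C) {g : E → G}
    (h' : JB S k g x D) : JB S k (fun y => (f y, g y)) x (max C D) :=
  ⟨h.1.prodMk h'.1, fun j hj => by
    rw [iteratedFDerivWithin_prodMk h.1 h'.1 hS hx (by exact_mod_cast hj),
      ContinuousMultilinearMap.opNorm_prod]
    exact max_le_max (h.2 j hj) (h'.2 j hj)⟩

lemma JB.comp (hS : UniqueDiffOn ℝ S) (hT : UniqueDiffOn ℝ T) (hx : x ∈ S) {g : F → G}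
    (hg : JB T k g (f x) C) (hf : JB S k f x D) (hm : ∀ᶠ y in 𝓝[S] x, f y ∈ T) :
    JB S k (fun y => g (f y)) x (k ! * C * max D 1 ^ k) := by
  have hT0 : f x ∈ T := hm.self_of_nhdsWithin hx
  refine ⟨hg.1.comp_of_preimage_mem_nhdsWithin x hf.1 hm, fun j hj => ?_⟩
  obtain ⟨v, vo, vx, hv⟩ := hg.1.contDiffOn' le_rfl (by simp)
  obtain ⟨u, uo, ux, hu⟩ := hf.1.contDiffOn' le_rfl (by simp)
  rw [insert_eq_of_mem hT0] at hv
  rw [insert_eq_of_mem hx] at hu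
  obtain ⟨w, wo, wx, hw⟩ := _root_.mem_nhdsWithin.1
    (hm.and (hf.1.continuousWithinAt.eventually (vo.mem_nhds vx)))
  have m : x ∈ u ∩ w := ⟨ux, wx⟩
  have o := uo.inter wo
  have h1 := norm_iteratedFDerivWithin_comp_le (n := j) (s := S ∩ (u ∩ w)) (x := x) hv
    (hu.mono fun y hy => ⟨hy.1, hy.2.1⟩) (by exact_mod_cast hj) (hT.inter vo) (hS.inter o)
    (fun y hy => hw ⟨hy.2.2, hy.1⟩) ⟨hx, m⟩ (C := C) (D := max D 1)
    (fun i hi => by rw [iteratedFDerivWithin_inter_open vo vx]; exact hg.2 i (hi.trans hj))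
    fun i h1 hi => by
      rw [iteratedFDerivWithin_inter_open o m]
      exact (hf.2 i (hi.trans hj)).trans ((le_max_left _ _).trans
        (le_self_pow₀ (le_max_right _ _) (by omega)))
  rw [iteratedFDerivWithin_inter_open o m] at h1
  refine h1.trans ?_
  have := hg.nonneg
  gcongr
  exact le_max_right _ _

lemma JB.fderivWithin (hS : UniqueDiffOn ℝ S) (hx : x ∈ S) (h : JB S (k + 1) f x C) :
    JB S k (fderivWithin ℝ f S) x C :=
  ⟨h.1.fderivWithin_right hS (by simp) hx, fun j hj => by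
    rw [norm_iteratedFDerivWithin_fderivWithin hS hx]; exact h.2 _ (by omega)⟩

lemma JB.of_fderiv (hS : UniqueDiffOn ℝ S) (hx : x ∈ S)
    (hf : ContDiffWithinAt ℝ (k + 1 : ℕ) f S x) (h0 : ‖f x‖ ≤ C)
    (h : JB S k (_root_.fderivWithin ℝ f S) x D) : JB S (k + 1) f x (max C D) :=
  ⟨hf, fun j hj => by
    rcases j with _ | j
    · simpa using Or.inl h0
    · rw [← norm_iteratedFDerivWithin_fderivWithin hS hx]
      exact le_max_of_le_right (h.2 j (by omega))⟩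

end jb

/-- near `x` and along `l`, the derivatives of order at most `k` are bounded -/
def BdAt (l : Filter ι) (S : Set E) (k : ℕ) (f : ι → E → F) (x : E) : Prop :=
  ∃ C, ∀ᶠ q in l ×ˢ 𝓝[S] x, JB S k (f q.1) q.2 C

/-- smooth convergence, locally on `S` -/
structure Cv (l : Filter ι) (S : Set E) (f : ι → E → F) (g : E → F) : Prop where
  bd : ∀ x ∈ S, ∀ k, BdAt l S k f x
  lim : ∀ x ∈ S, Tendsto (fun n => f n x) l (𝓝 (g x))

variable {l : Filter ι} {S : Set E} {T : Set F} {k : ℕ} {f : ι → E → F} {x : E}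

lemma ev_mem (l : Filter ι) (S : Set E) (x : E) : ∀ᶠ q in l ×ˢ 𝓝[S] x, q.2 ∈ S :=
  tendsto_snd.eventually self_mem_nhdsWithin

lemma ev_ev {P : ι × E → Prop} (h : ∀ᶠ q in l ×ˢ 𝓝[S] x, P q) :
    ∀ᶠ q in l ×ˢ 𝓝[S] x, ∀ᶠ y in 𝓝[S] q.2, P (q.1, y) := by
  obtain ⟨a, ha, b, hb, h⟩ := eventually_prod_iff.1 h
  filter_upwards [tendsto_fst.eventually ha,
    tendsto_snd.eventually (eventually_eventually_nhdsWithin.2 hb)] with q h1 h2
  exact h2.mono fun y hy => h h1 hy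

lemma ev_at {P : ι × E → Prop} (h : ∀ᶠ q in l ×ˢ 𝓝[S] x, P q) (hx : x ∈ S) :
    ∀ᶠ n in l, P (n, x) :=
  (tendsto_id.prodMk (tendsto_const_pure.mono_right (pure_le_nhdsWithin hx))).eventually h

lemma Nice.ev_ball (hS : Nice S) (hx : x ∈ S) {P : ι × E → Prop}
    (h : ∀ᶠ q in l ×ˢ 𝓝[S] x, P q) :
    ∃ r > 0, Convex ℝ (S ∩ ball x r) ∧ ∀ᶠ n in l, ∀ y ∈ S ∩ ball x r, P (n, y) := by
  obtain ⟨a, ha, b, hb, h⟩ := eventually_prod_iff.1 h
  obtain ⟨r, r0, h1, h2⟩ := hS.small hx hb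
  exact ⟨r, r0, h1, ha.mono fun n hn y hy => h hn (h2 hy)⟩

namespace BdAt

lemma mono (h : BdAt l S k f x) {j : ℕ} (hj : j ≤ k) : BdAt l S j f x :=
  h.imp fun _ h => h.mono fun _ h => h.mono hj le_rfl

lemma congr (h : BdAt l S k f x) {f' : ι → E → F}
    (e : ∀ᶠ q in l ×ˢ 𝓝[S] x, f' q.1 q.2 = f q.1 q.2) : BdAt l S k f' x :=
  h.imp fun _ h => by
    filter_upwards [h, ev_ev e, ev_mem l S x] with q h1 h2 h3
    exact h1.congr h3 h2

lemma congr_set (h : BdAt l S k f x) {S' : Set E} (e : S =ᶠ[𝓝 x] S') : BdAt l S' k f x :=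
  h.imp fun _ h => by
    rw [← nhdsWithin_eq_iff_eventuallyEq.2 e]
    filter_upwards [h, tendsto_snd.eventually (e.eventually_nhds.filter_mono nhdsWithin_le_nhds)]
      with q h1 h2
    exact h1.congr_set h2

lemma prodMk (hS : UniqueDiffOn ℝ S) (h : BdAt l S k f x) {g : ι → E → G}
    (h' : BdAt l S k g x) : BdAt l S k (fun n y => (f n y, g n y)) x := by
  obtain ⟨C, h⟩ := h
  obtain ⟨D, h'⟩ := h'
  refine ⟨max C D, ?_⟩
  filter_upwards [h, h', ev_mem l S x] with q h1 h2 h3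
  exact h1.prodMk hS h3 h2

lemma comp (hS : UniqueDiffOn ℝ S) (hT : UniqueDiffOn ℝ T) {g : ι → F → G} {z : F}
    (hg : BdAt l T k g z) (hf : BdAt l S k f x)
    (hm : Tendsto (fun q : ι × E => f q.1 q.2) (l ×ˢ 𝓝[S] x) (𝓝[T] z)) :
    BdAt l S k (fun n y => g n (f n y)) x := by
  obtain ⟨C, hg⟩ := hg
  obtain ⟨D, hf⟩ := hf
  refine ⟨k ! * C * max D 1 ^ k, ?_⟩
  filter_upwards [(tendsto_fst.prodMk hm).eventually hg, hf, ev_mem l S x,
    ev_ev (hm.eventually self_mem_nhdsWithin)] with q h1 h2 h3 h4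
  exact h1.comp hS hT h3 h2 h4

lemma const (hS : UniqueDiffOn ℝ S) (hx : x ∈ S) {g : E → F} (hg : ContDiffWithinAt ℝ k g S x) :
    BdAt l S k (fun _ => g) x := by
  obtain ⟨u, uo, ux, hu⟩ := hg.contDiffOn' le_rfl (by simp)
  rw [insert_eq_of_mem hx] at hu
  have e : 𝓝[S ∩ u] x = 𝓝[S] x := nhdsWithin_inter_of_mem' (nhdsWithin_le_nhds (uo.mem_nhds ux))
  have h1 : ∀ j : Fin (k + 1), ∃ C, ∀ᶠ y in 𝓝[S] x, ‖iteratedFDerivWithin ℝ j g (S ∩ u) y‖ ≤ C :=
    fun j => by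
    have := (hu.continuousOn_iteratedFDerivWithin (m := j)
      (by exact_mod_cast Nat.lt_succ_iff.1 j.2) (hS.inter uo) x ⟨hx, ux⟩).norm
    rw [ContinuousWithinAt, e] at this
    exact ⟨_, this.eventually (eventually_le_nhds (lt_add_one _))⟩
  choose C hC using h1
  obtain ⟨D, hD⟩ := (finite_range C).bddAbove
  refine ⟨D, tendsto_snd.eventually (p := fun y => JB S k g y D) ?_⟩
  filter_upwards [eventually_all.2 hC, self_mem_nhdsWithin,
    nhdsWithin_le_nhds (uo.mem_nhds ux)] with y h1 h2 h3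
  refine ⟨(contDiffWithinAt_inter (uo.mem_nhds h3)).1 (hu y ⟨h2, h3⟩), fun j hj => ?_⟩
  rw [← iteratedFDerivWithin_inter_open uo h3]
  exact (h1 ⟨j, by omega⟩).trans (hD ⟨_, rfl⟩)

lemma fderivWithin (hS : UniqueDiffOn ℝ S) (h : BdAt l S (k + 1) f x) :
    BdAt l S k (fun n => fderivWithin ℝ (f n) S) x :=
  h.imp fun _ h => by
    filter_upwards [h, ev_mem l S x] with q h1 h2
    exact h1.fderivWithin hS h2

lemma of_fderiv (hS : UniqueDiffOn ℝ S)
    (hf : ∀ᶠ q in l ×ˢ 𝓝[S] x, ContDiffWithinAt ℝ (k + 1 : ℕ) (f q.1) S q.2) (h0 : BdAt l S 0 f x)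
    (h : BdAt l S k (fun n => _root_.fderivWithin ℝ (f n) S) x) : BdAt l S (k + 1) f x := by
  obtain ⟨C, h0⟩ := h0
  obtain ⟨D, h⟩ := h
  refine ⟨max C D, ?_⟩
  filter_upwards [hf, h0, h, ev_mem l S x] with q h1 h2 h3 h4
  exact JB.of_fderiv hS h4 h1 h2.norm_le h3

lemma lip (hS : Nice S) (hx : x ∈ S) (h : BdAt l S 1 f x) : ∃ C r, 0 < r ∧ ∀ᶠ n in l,
    ∀ y ∈ S ∩ ball x r, ∀ z ∈ S ∩ ball x r, ‖f n z - f n y‖ ≤ C * ‖z - y‖ := by
  obtain ⟨C, h⟩ := h
  obtain ⟨r, r0, h1, h2⟩ := hS.ev_ball hx h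
  refine ⟨C, r, r0, h2.mono fun n hn y hy z hz => ?_⟩
  exact h1.norm_image_sub_le_of_norm_hasFDerivWithin_le (𝕜 := ℝ)
    (fun u hu => ((hn u hu).1.differentiableWithinAt (by simp)).hasFDerivWithinAt.mono
      inter_subset_left) (fun u hu => ((hn u hu).fderivWithin hS.ud hu.1).norm_le) hy hz

/-- continuous convergence -/
lemma tendsto (hS : Nice S) (hx : x ∈ S) (h : BdAt l S 1 f x) {z : F}
    (hz : Tendsto (fun n => f n x) l (𝓝 z)) :
    Tendsto (fun q : ι × E => f q.1 q.2) (l ×ˢ 𝓝[S] x) (𝓝 z) := by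
  obtain ⟨C, r, r0, h⟩ := h.lip hS hx
  have h1 : Tendsto (fun q : ι × E => C * ‖q.2 - x‖) (l ×ˢ 𝓝[S] x) (𝓝 0) := by
    simpa using (((tendsto_snd (f := l) (g := 𝓝[S] x)).mono_right
      nhdsWithin_le_nhds).sub_const x).norm.const_mul C
  have h2 : Tendsto (fun q : ι × E => f q.1 q.2 - f q.1 x) (l ×ˢ 𝓝[S] x) (𝓝 0) := by
    refine squeeze_zero_norm' ?_ h1
    filter_upwards [tendsto_fst.eventually h, tendsto_snd.eventually
      (inter_mem_nhdsWithin S (ball_mem_nhds x r0))] with q h1 h2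
    exact h1 x ⟨hx, mem_ball_self r0⟩ _ h2
  simpa using h2.add (hz.comp tendsto_fst)

lemma exists_lim [FiniteDimensional ℝ F] {U : Ultrafilter ι} (hx : x ∈ S) (h : BdAt U S k f x) :
    ∃ z, Tendsto (fun n => f n x) U (𝓝 z) := by
  obtain ⟨C, h⟩ := h
  obtain ⟨z, -, hz⟩ := (isCompact_closedBall (0 : F) C).ultrafilter_le_nhds (U.map fun n => f n x)
    (le_principal_iff.2 ((ev_at h hx).mono fun n hn => mem_closedBall_zero_iff.2 hn.norm_le))
  exact ⟨z, hz⟩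

end BdAt

end Vale.Agent.P216U
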