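import Vale.Agent.P216U.Space
import Mathlib.Analysis.Normed.Module.Convex
import Mathlib.Geometry.Manifold.ChartedSpace

/-! Limits of charts are charts of the ultralimit. -/

open Set Filter Topology Metric Function
open scoped ENNReal NNReal

noncomputable section

namespace Vale.Agent.P216U

variable {ι : Type} {M : ι → Type} {E : Type} [NormedAddCommGroup E]

/-- a family of uniformly bi-Lipschitz charts -/
structure Ch (s : Sys ι M) (E : Type) [NormedAddCommGroup E] where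
  S : Set E
  op : IsOpen S
  φ : ∀ n, E → M n
  L : ℝ≥0
  inj : ∀ᶠ n in s.U, InjOn (φ n) S
  lip : ∀ᶠ n in s.U, ∀ a ∈ S, ∀ b ∈ S, s.d n (φ n a) (φ n b) ≤ L * edist a b
  opn : ∀ᶠ n in s.U, ∀ a ε, closedBall a ε ⊆ S → ∀ z, L * s.d n (φ n a) z < ENNReal.ofReal ε →
    z ∈ φ n '' closedBall a ε
  ins : ∀ a ∈ S, s.D s.x (fun n => φ n a) < s.ρ

namespace Ch

variable {s : Sys ι M} (c : Ch s E) {a b : E}

/-- the limit parametrisation -/
def ψ (a : E) : s.X := s.pt fun n => c.φ n a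

/-- the inverse of the approximating parametrisation -/
def inv (n : ι) : M n → E := invFunOn (c.φ n) c.S

lemma rep (ha : a ∈ c.S) : s.Rep (fun n => c.φ n a) (c.ψ a) := ⟨c.ins a ha, rfl⟩

lemma inv_φ : ∀ᶠ n in s.U, ∀ a ∈ c.S, c.inv n (c.φ n a) = a :=
  c.inj.mono fun _ h _ ha => h.leftInvOn_invFunOn ha

lemma edist_le (ha : a ∈ c.S) (hb : b ∈ c.S) : edist (c.ψ a) (c.ψ b) ≤ c.L * edist a b := by
  rw [(c.rep ha).edist (c.rep hb)]
  exact s.D_le (c.lip.mono fun n h => h a ha b hb)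

lemma continuousOn : ContinuousOn c.ψ c.S :=
  LipschitzOnWith.continuousOn (K := c.L) fun _ ha _ hb => c.edist_le ha hb

/-- points close to the image of `a` have coordinates close to `a` -/
lemma near {κ : Type} {l : Filter κ} {N : κ → ι} (hN : Tendsto N l s.U) {y : ∀ k, M (N k)}
    (ha : a ∈ c.S) (h : Tendsto (fun k => s.d (N k) (c.φ (N k) a) (y k)) l (𝓝 0)) :
    (∀ᶠ k in l, y k ∈ c.φ (N k) '' c.S) ∧ Tendsto (fun k => c.inv (N k) (y k)) l (𝓝 a) := by
  have key : ∀ ε > 0, closedBall a ε ⊆ c.S → ∀ᶠ k in l, y k ∈ c.φ (N k) '' closedBall a ε :=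
    fun ε hε hs => by
    have h1 := ENNReal.Tendsto.const_mul (a := c.L) h (Or.inr ENNReal.coe_ne_top)
    rw [mul_zero] at h1
    filter_upwards [hN.eventually c.opn, h1.eventually (gt_mem_nhds (ENNReal.ofReal_pos.2 hε))]
      with k h2 h3 using h2 a ε hs _ h3
  obtain ⟨ε, ε0, hε⟩ := nhds_basis_closedBall.mem_iff.1 (c.op.mem_nhds ha)
  refine ⟨(key ε ε0 hε).mono fun k hk => image_mono hε hk,
    nhds_basis_closedBall.tendsto_right_iff.2 fun δ hδ => ?_⟩
  have hs := (closedBall_subset_closedBall (min_le_right δ ε)).trans hε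
  filter_upwards [key _ (lt_min hδ ε0) hs, hN.eventually c.inv_φ] with k ⟨b, h1, h2⟩ h3
  rw [← h2, h3 b (hs h1)]
  exact closedBall_subset_closedBall (min_le_left _ _) h1

lemma injOn : InjOn c.ψ c.S := fun _ ha b hb e =>
  tendsto_nhds_unique (c.near tendsto_id ha ((c.rep ha).zero (e ▸ c.rep hb))).2
    (tendsto_const_nhds.congr' (c.inv_φ.mono fun _ h => (h b hb).symm))

/-- approximate transition maps converge continuously -/
lemma trans (c' : Ch s E) (ha : a ∈ c.S) (hb : b ∈ c'.S) (e : c.ψ a = c'.ψ b) :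
    (∀ᶠ q in (s.U : Filter ι) ×ˢ 𝓝 a, c.φ q.1 q.2 ∈ c'.φ q.1 '' c'.S) ∧
      Tendsto (fun q : ι × E => c'.inv q.1 (c.φ q.1 q.2)) ((s.U : Filter ι) ×ˢ 𝓝 a) (𝓝 b) := by
  refine c'.near tendsto_fst (y := fun q : ι × E => c.φ q.1 q.2) hb ?_
  have h1 := (((c'.rep hb).zero (e ▸ c.rep ha)).comp (tendsto_fst (g := 𝓝 a))).add
    (ENNReal.Tendsto.const_mul (a := c.L) ((tendsto_const_nhds (x := a)).edist
      (tendsto_snd (f := (s.U : Filter ι)) (g := 𝓝 a))) (Or.inr ENNReal.coe_ne_top))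
  rw [edist_self, mul_zero, add_zero] at h1
  refine tendsto_of_tendsto_of_tendsto_of_le_of_le' tendsto_const_nhds h1
    (.of_forall fun _ => zero_le) ?_
  filter_upwards [tendsto_fst.eventually c.lip, tendsto_snd.eventually (c.op.mem_nhds ha)]
    with q h2 h3
  exact (s.tri _ _ (c.φ q.1 a) _).trans (add_le_add le_rfl (h2 a ha _ h3))

variable [ProperSpace E]

lemma onto {ε : ℝ} (hs : closedBall a ε ⊆ c.S) {p : s.X}
    (hp : c.L * edist (c.ψ a) p < ENNReal.ofReal ε) : p ∈ c.ψ '' closedBall a ε := by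
  have ε0 : 0 < ε := ENNReal.ofReal_pos.1 (pos_of_gt hp)
  have ha := hs (mem_closedBall_self ε0.le)
  have h1 := (ENNReal.Tendsto.const_mul (a := c.L) ((c.rep ha).tendsto (Sys.rep_rep p))
    (Or.inr ENNReal.coe_ne_top)).eventually (gt_mem_nhds hp)
  have h2 : ∀ᶠ n in s.U, c.inv n (s.rep p n) ∈ closedBall a ε ∧
      c.φ n (c.inv n (s.rep p n)) = s.rep p n := by
    filter_upwards [h1, c.opn, c.inv_φ] with n h1 h2 h3
    obtain ⟨b, h4, h5⟩ := h2 a ε hs _ h1
    rw [← h5, h3 b (hs h4)]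
    exact ⟨h4, rfl⟩
  obtain ⟨b, hb, h3⟩ := (isCompact_closedBall a ε).ultrafilter_le_nhds
    (s.U.map fun n => c.inv n (s.rep p n)) (le_principal_iff.2 (h2.mono fun _ h => h.1))
  refine ⟨b, hb, ?_⟩
  rw [← edist_eq_zero, (c.rep (hs hb)).edist (Sys.rep_rep p)]
  have h4 := ENNReal.Tendsto.const_mul (a := c.L) ((tendsto_const_nhds (x := b)).edist
    (show Tendsto (fun n => c.inv n (s.rep p n)) s.U (𝓝 b) from h3)) (Or.inr ENNReal.coe_ne_top)
  rw [edist_self, mul_zero] at h4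
  refine s.D_eq (tendsto_of_tendsto_of_tendsto_of_le_of_le' tendsto_const_nhds h4
    (.of_forall fun _ => zero_le) ?_)
  filter_upwards [h2, c.lip] with n h5 h6
  simpa only [h5.2] using h6 b (hs hb) _ (hs h5.1)

lemma image_mem (ha : a ∈ c.S) {V : Set E} (hV : V ∈ 𝓝 a) : c.ψ '' V ∈ 𝓝 (c.ψ a) := by
  obtain ⟨ε, ε0, hε⟩ := nhds_basis_closedBall.mem_iff.1 (inter_mem (c.op.mem_nhds ha) hV)
  have h1 := ENNReal.Tendsto.const_mul (a := c.L) ((tendsto_const_nhds (x := c.ψ a)).edist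
    (tendsto_id (x := 𝓝 (c.ψ a)))) (Or.inr ENNReal.coe_ne_top)
  rw [edist_self, mul_zero] at h1
  filter_upwards [h1.eventually (gt_mem_nhds (ENNReal.ofReal_pos.2 ε0))] with p hp
  exact image_mono (fun _ h => (hε h).2) (c.onto (fun _ h => (hε h).1) hp)

/-- the chart of the limit -/
def chart : OpenPartialHomeomorph s.X E where
  toFun := invFunOn c.ψ c.S
  invFun := c.ψ
  source := c.ψ '' c.S
  target := c.S
  map_source' _ h := invFunOn_mem h
  map_target' _ h := mem_image_of_mem _ h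
  left_inv' _ h := invFunOn_eq h
  right_inv' _ h := c.injOn.leftInvOn_invFunOn h
  open_source := isOpen_iff_mem_nhds.2 (by
    rintro _ ⟨a, ha, rfl⟩
    exact c.image_mem ha (c.op.mem_nhds ha))
  open_target := c.op
  continuousOn_invFun := c.continuousOn
  continuousOn_toFun := by
    rintro _ ⟨a, ha, rfl⟩
    refine ContinuousAt.continuousWithinAt fun V hV => ?_
    rw [c.injOn.leftInvOn_invFunOn ha] at hV
    refine mem_map.2 (mem_of_superset (c.image_mem ha (inter_mem (c.op.mem_nhds ha) hV)) ?_)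
    rintro _ ⟨b, hb, rfl⟩
    rw [mem_preimage, c.injOn.leftInvOn_invFunOn hb.1]
    exact hb.2

lemma exists_K [NormedSpace ℝ E] {ε : ℝ} (hs : closedBall a ε ⊆ c.S) {δ : ℝ≥0∞}
    (h : c.L * δ < ENNReal.ofReal ε) :
    ∃ K, IsCompact K ∧ IsPreconnected K ∧ closedEBall (c.ψ a) δ ⊆ K :=
  ⟨_, (isCompact_closedBall a ε).image_of_continuousOn (c.continuousOn.mono hs),
    (convex_closedBall a ε).isPreconnected.image _ (c.continuousOn.mono hs), fun _ hp =>
    c.onto hs ((mul_le_mul_right (mem_closedEBall'.1 hp) _).trans_lt h)⟩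

end Ch

end Vale.Agent.P216U
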