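import Vale.Agent.P216DC.LimF
import Vale.Agent.P216DC.Resc
import Vale.Agent.P216U.Back
import Vale.Agent.P216G.Good
import Vale.Agent.P216D.ShiL

/-! The compactness theorems without hypotheses; rescaling of parabolic neighbourhoods. -/

open Set Filter Topology
open scoped ContDiff Manifold ENNReal

set_option maxSynthPendingDepth 3

noncomputable section

namespace Vale.Agent.P216U

open P216R P216DC

theorem good_all : GOOD := fun _ _ _ _ _ _ _ _ _ _ _ _ hg hU hx h ⟨_, v0, _, s0, h1, h2⟩ =>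
  P216G.good (.of_forall fun n => ⟨hg n, hU n, hx n⟩) (fun r r0 hr => (h r r0 hr).1)
    (fun r r0 hr => (h r r0 hr).2) s0 h1 (ENNReal.ofReal_pos.2 (by positivity)).ne' h2

theorem lim0_all : LIM0 := lim0 P216D.shi good_all

theorem lim1_all : LIM1 := lim1 P216D.shi

variable {M : Type} [TopologicalSpace M] [ChartedSpace E3 M] [IsManifold 𝓘(ℝ, E3) ∞ M]
  {g : ℝ → Ten E3 M} {U : Set M} {x : M} {Q t s k r τ K : ℝ}

lemma resc_mem (hk : 0 < k) (hs : s ∈ Icc (0 - k ^ 2 * τ) 0) : t + s / k ^ 2 ∈ Icc (t - τ) t := by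
  have h : 0 < k ^ 2 := by positivity
  have h1 : -τ ≤ s / k ^ 2 := (le_div_iff₀ h).2 (by linarith [hs.1])
  have h2 : s / k ^ 2 ≤ 0 := div_nonpos_of_nonpos_of_nonneg hs.2 h.le
  constructor <;> linarith

lemma par_resc (h : Par g U x t r τ) (hk : 0 < k) :
    Par (resc g (k ^ 2) t) U x 0 (k * r) (k ^ 2 * τ) := by
  rw [Par, resc_zero, bl_smul hk]
  exact RF.resc h (by positivity) t fun s hs => resc_mem hk hs

lemma parB_resc (h : ParB g U x t r τ K) (hk : 0 < k) :
    ParB (resc g (k ^ 2) t) U x 0 (k * r) (k ^ 2 * τ) (K / k ^ 2) :=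
  ⟨par_resc h.1 hk, fun s hs y hy => by
    rw [resc_zero, bl_smul hk] at hy
    refine (((RF.met h.1 (resc_mem hk hs)).RmB_smul hy hk 0 _).2 ?_)
    rw [zero_add, mul_div_cancel₀ _ (by positivity)]
    exact h.2 _ (resc_mem hk hs) y hy⟩

end Vale.Agent.P216U
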