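import Mathlib.Topology.MetricSpace.ProperSpace
import Mathlib.Topology.Instances.ENNReal.Lemmas
import Mathlib.Topology.Connected.Basic
import Mathlib.Topology.Compactness.SigmaCompact

/-! The ultralimit of pointed length spaces. -/

open Set Filter Topology Metric
open scoped ENNReal NNReal

noncomputable section

namespace Vale.Agent.P216U

/-- pointed pseudo-distances, an ultrafilter and a radius -/
structure Sys (ι : Type) (M : ι → Type) where
  U : Ultrafilter ι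
  d : ∀ n, M n → M n → ℝ≥0∞
  refl : ∀ n a b, d n a b ≠ ⊤ → d n b b = 0
  symm : ∀ n a b, d n a b = d n b a
  tri : ∀ n a b c, d n a c ≤ d n a b + d n b c
  mid : ∀ n a b s t, d n a b < s + t → ∃ c, d n a c ≤ s ∧ d n c b ≤ t
  x : ∀ n, M n
  x0 : ∀ n, d n (x n) (x n) = 0
  ρ : ℝ≥0∞
  pos : 0 < ρ

namespace Sys

variable {ι : Type} {M : ι → Type} (s : Sys ι M) {y z w : ∀ n, M n}

/-- the limit distance -/
def D (y z : ∀ n, M n) : ℝ≥0∞ := (s.U.map fun n => s.d n (y n) (z n)).lim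

lemma tendsto_D (y z : ∀ n, M n) : Tendsto (fun n => s.d n (y n) (z n)) s.U (𝓝 (s.D y z)) :=
  (s.U.map fun n => s.d n (y n) (z n)).le_nhds_lim

lemma D_eq {r : ℝ≥0∞} (h : Tendsto (fun n => s.d n (y n) (z n)) s.U (𝓝 r)) : s.D y z = r :=
  tendsto_nhds_unique (s.tendsto_D y z) h

lemma D_le {r : ℝ≥0∞} (h : ∀ᶠ n in s.U, s.d n (y n) (z n) ≤ r) : s.D y z ≤ r :=
  le_of_tendsto (s.tendsto_D y z) h

lemma ev_lt {r : ℝ≥0∞} (h : s.D y z < r) : ∀ᶠ n in s.U, s.d n (y n) (z n) < r :=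
  (s.tendsto_D y z).eventually (gt_mem_nhds h)

lemma D_x : s.D s.x s.x = 0 := s.D_eq (by simp [s.x0])

lemma D_self (h : s.D s.x y < s.ρ) : s.D y y = 0 :=
  le_zero_iff.1 (s.D_le ((s.ev_lt h).mono fun n hn => (s.refl n _ _ hn.ne_top).le))

lemma D_comm (y z : ∀ n, M n) : s.D y z = s.D z y := by simp only [D, s.symm _ (y _)]

lemma D_tri (y z w : ∀ n, M n) : s.D y w ≤ s.D y z + s.D z w :=
  le_of_tendsto_of_tendsto' (s.tendsto_D y w) ((s.tendsto_D y z).add (s.tendsto_D z w))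
    fun _ => s.tri _ _ _ _

lemma D_congr (h : s.D y z = 0) (w : ∀ n, M n) : s.D y w = s.D z w :=
  le_antisymm (by simpa [h] using s.D_tri y z w) (by simpa [s.D_comm z y, h] using s.D_tri z y w)

lemma D_mid {a b : ℝ≥0∞} (h : s.D y z < a + b) : ∃ w, s.D y w ≤ a ∧ s.D w z ≤ b := by
  have : ∀ n, ∃ c, s.d n (y n) (z n) < a + b → s.d n (y n) c ≤ a ∧ s.d n c (z n) ≤ b := fun n => by
    by_cases h : s.d n (y n) (z n) < a + b
    · exact (s.mid n _ _ a b h).imp fun _ h _ => h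
    · exact ⟨y n, fun h' => (h h').elim⟩
  choose w hw using this
  exact ⟨w, s.D_le ((s.ev_lt h).mono fun n hn => (hw n hn).1),
    s.D_le ((s.ev_lt h).mono fun n hn => (hw n hn).2)⟩

/-- sequences in the ball -/
def Pt : Type := {y : ∀ n, M n // s.D s.x y < s.ρ}

instance : PseudoEMetricSpace s.Pt where
  edist y z := s.D y.1 z.1
  edist_self y := s.D_self y.2
  edist_comm y z := s.D_comm y.1 z.1
  edist_triangle y z w := s.D_tri y.1 z.1 w.1

/-- the limit space -/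
def X : Type := SeparationQuotient s.Pt

instance : EMetricSpace s.X := inferInstanceAs (EMetricSpace (SeparationQuotient s.Pt))

/-- the base point -/
def o : s.X := SeparationQuotient.mk (X := s.Pt) ⟨s.x, by rw [s.D_x]; exact s.pos⟩

open Classical in
/-- the point represented by a sequence -/
def pt (y : ∀ n, M n) : s.X :=
  if h : s.D s.x y < s.ρ then SeparationQuotient.mk (X := s.Pt) ⟨y, h⟩ else s.o

lemma pt_eq (h : s.D s.x y < s.ρ) : s.pt y = SeparationQuotient.mk (X := s.Pt) ⟨y, h⟩ := dif_pos h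

lemma edist_pt (hy : s.D s.x y < s.ρ) (hz : s.D s.x z < s.ρ) : edist (s.pt y) (s.pt z) = s.D y z := by
  rw [s.pt_eq hy, s.pt_eq hz]; rfl

lemma x_in : s.D s.x s.x < s.ρ := by rw [s.D_x]; exact s.pos

lemma pt_x : s.pt s.x = s.o := s.pt_eq s.x_in

lemma exists_rep (p : s.X) : ∃ y, s.D s.x y < s.ρ ∧ s.pt y = p ∧ (p = s.o → y = s.x) := by
  by_cases h : p = s.o
  · exact ⟨s.x, s.x_in, h ▸ s.pt_x, fun _ => rfl⟩
  obtain ⟨y, rfl⟩ := SeparationQuotient.surjective_mk (X := s.Pt) p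
  exact ⟨y.1, y.2, s.pt_eq y.2, fun h' => (h h').elim⟩

/-- a chosen representative -/
def rep (p : s.X) : ∀ n, M n := (s.exists_rep p).choose

lemma rep_in (p : s.X) : s.D s.x (s.rep p) < s.ρ := (s.exists_rep p).choose_spec.1

lemma pt_rep (p : s.X) : s.pt (s.rep p) = p := (s.exists_rep p).choose_spec.2.1

lemma rep_o : s.rep s.o = s.x := (s.exists_rep s.o).choose_spec.2.2 rfl

/-- `y` represents `p` -/
def Rep (y : ∀ n, M n) (p : s.X) : Prop := s.D s.x y < s.ρ ∧ s.pt y = p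

variable {s} {p q : s.X}

lemma Rep.edist (h : s.Rep y p) (h' : s.Rep z q) : edist p q = s.D y z := by
  rw [← h.2, ← h'.2, s.edist_pt h.1 h'.1]

lemma rep_rep (p : s.X) : s.Rep (s.rep p) p := ⟨s.rep_in p, s.pt_rep p⟩

lemma rep_x : s.Rep s.x s.o := ⟨s.x_in, s.pt_x⟩

lemma Rep.of_zero (h : s.Rep y p) (e : s.D y z = 0) : s.Rep z p := by
  have k : s.D s.x z < s.ρ := by rw [s.D_comm, ← s.D_congr e, s.D_comm]; exact h.1
  exact ⟨k, by rw [← h.2, ← edist_eq_zero, s.edist_pt k h.1, s.D_comm, e]⟩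

lemma Rep.zero (h : s.Rep y p) (h' : s.Rep z p) : Tendsto (fun n => s.d n (y n) (z n)) s.U (𝓝 0) := by
  have := s.tendsto_D y z
  rwa [← h.edist h', edist_self] at this

lemma Rep.tendsto (h : s.Rep y p) (h' : s.Rep z q) :
    Tendsto (fun n => s.d n (y n) (z n)) s.U (𝓝 (EDist.edist p q)) :=
  h.edist h' ▸ s.tendsto_D y z

lemma edist_lt (p : s.X) : edist s.o p < s.ρ := by rw [rep_x.edist (rep_rep p)]; exact s.rep_in p

lemma mid_o {a b : ℝ≥0∞} (ha : a < s.ρ) (h : edist s.o p < a + b) :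
    ∃ q, edist s.o q ≤ a ∧ edist q p ≤ b := by
  rw [rep_x.edist (rep_rep p)] at h
  obtain ⟨w, h1, h2⟩ := s.D_mid h
  have k : s.Rep w (s.pt w) := ⟨h1.trans_lt ha, rfl⟩
  exact ⟨_, rep_x.edist k ▸ h1, k.edist (rep_rep p) ▸ h2⟩

end Sys

lemma step_ind {P : ℝ≥0∞ → Prop} (mono : ∀ a b, a ≤ b → P b → P a) (h0 : P 0) {r η : ℝ≥0∞}
    (hr : r ≠ ⊤) (hη : η ≠ 0) (h : ∀ a ≤ r, P a → P (a + η)) : P r := by
  have k : ∀ m : ℕ, P (min r (m * η)) := fun m => by
    induction m with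
    | zero => simpa using h0
    | succ m ih =>
      refine mono _ _ ?_ (h _ (min_le_left _ _) ih)
      rw [min_add, Nat.cast_succ, add_one_mul]
      exact min_le_min le_self_add le_rfl
  obtain ⟨m, hm⟩ := ENNReal.exists_nat_mul_gt hη hr
  simpa [hm.le] using k m

namespace Sys

variable {ι : Type} {M : ι → Type} {s : Sys ι M}

/-- uniform local compactness and connectedness -/
def Unif (s : Sys ι M) : Prop := ∀ r < s.ρ, ∃ δ > 0, ∀ p, edist s.o p ≤ r →
  ∃ K, IsCompact K ∧ IsPreconnected K ∧ closedEBall p δ ⊆ K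

lemma third {δ : ℝ≥0∞} (h : 0 < δ) : ∃ η : ℝ≥0∞, η ≠ 0 ∧ η ≠ ⊤ ∧ η + (η + η) ≤ δ := by
  obtain ⟨e, e0, he⟩ := ENNReal.lt_iff_exists_nnreal_btwn.1 h
  refine ⟨(e / 3 : ℝ≥0), by simpa using e0.ne', ENNReal.coe_ne_top, le_trans (le_of_eq ?_) he.le⟩
  norm_cast; ring

lemma step {a η : ℝ≥0∞} (ha : a < s.ρ) (h0 : η ≠ 0) (h1 : η ≠ ⊤) {p : s.X}
    (hp : p ∈ closedEBall s.o (a + η)) : ∃ q ∈ closedEBall s.o a, edist p q ≤ η + η := by
  obtain ⟨q, h2, h3⟩ := mid_o (p := p) (b := η + η) ha ((mem_closedEBall'.1 hp).trans_lt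
    (ENNReal.add_lt_add_left ha.ne_top (ENNReal.lt_add_right h1 h0)))
  exact ⟨q, mem_closedEBall'.2 h2, edist_comm q p ▸ h3⟩

theorem Unif.isCompact (h : s.Unif) {r : ℝ≥0∞} (hr : r < s.ρ) : IsCompact (closedEBall s.o r) := by
  obtain ⟨δ, δ0, h⟩ := h r hr
  obtain ⟨η, h0, h1, h2⟩ := third δ0
  refine step_ind (P := fun r => IsCompact (closedEBall s.o r))
    (fun a b hab hb => hb.of_isClosed_subset isClosed_closedEBall (closedEBall_subset_closedEBall hab))
    (by simp) hr.ne_top h0 fun a ha hc => ?_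
  obtain ⟨t, ht, hs⟩ := hc.elim_nhds_subcover (fun p => eball p η)
    fun p _ => eball_mem_nhds p (pos_iff_ne_zero.2 h0)
  choose! K hK using h
  refine (t.isCompact_biUnion (f := K) fun p hp => (hK p ((mem_closedEBall'.1 (ht p hp)).trans
    ha)).1).of_isClosed_subset isClosed_closedEBall fun p hp => ?_
  obtain ⟨q, h3, h4⟩ := step (ha.trans_lt hr) h0 h1 hp
  obtain ⟨z, hz, h5⟩ := mem_iUnion₂.1 (hs h3)
  refine mem_biUnion hz ((hK z ((mem_closedEBall'.1 (ht z hz)).trans ha)).2.2 ?_)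
  exact (edist_triangle p q z).trans ((add_le_add h4 (le_of_lt h5)).trans (add_comm η _ ▸ h2))

theorem Unif.connectedSpace (h : s.Unif) : ConnectedSpace s.X := by
  refine (connectedSpace_iff_connectedComponent (α := s.X)).2 ⟨s.o, eq_univ_of_forall fun p => ?_⟩
  obtain ⟨δ, δ0, h⟩ := h _ (edist_lt p)
  obtain ⟨η, h0, h1, h2⟩ := third δ0
  refine step_ind (P := fun r => closedEBall s.o r ⊆ connectedComponent s.o)
    (fun a b hab hb => (closedEBall_subset_closedEBall hab).trans hb)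
    (by simp [mem_connectedComponent]) (edist_lt p).ne_top h0 (fun a ha hc z hz => ?_)
    (mem_closedEBall'.2 le_rfl)
  obtain ⟨q, h3, h4⟩ := step (ha.trans_lt (edist_lt p)) h0 h1 hz
  obtain ⟨K, -, h5, h6⟩ := h q ((mem_closedEBall'.1 h3).trans ha)
  rw [connectedComponent_eq (hc h3)]
  exact h5.subset_connectedComponent (h6 mem_closedEBall_self) (h6 (h4.trans (le_add_self.trans h2)))

theorem Unif.sigmaCompactSpace (h : s.Unif) : SigmaCompactSpace s.X := by
  obtain ⟨u, -, h1, h2⟩ := exists_seq_strictMono_tendsto' s.pos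
  refine ⟨⟨fun n => closedEBall s.o (u n), fun n => h.isCompact (h1 n).2,
    eq_univ_of_forall fun p => ?_⟩⟩
  obtain ⟨n, hn⟩ := (h2.eventually (lt_mem_nhds (edist_lt p))).exists
  exact mem_iUnion.2 ⟨n, mem_closedEBall'.2 hn.le⟩

end Sys

end Vale.Agent.P216U
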