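import Vale.Agent.P216U.Cmp
import Vale.Agent.P216U.Chart

/-! Good charts give charts of the ultralimit with converging transition maps. -/

open Set Filter Topology Metric Function
open scoped ContDiff Manifold ENNReal NNReal

set_option linter.unusedSectionVars false
set_option maxSynthPendingDepth 3

noncomputable section

namespace Vale.Agent.P216U

open P216R P216G

variable {ι E : Type} [NormedAddCommGroup E] [NormedSpace ℝ E] [FiniteDimensional ℝ E]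
  {M : ι → Type} [∀ n, TopologicalSpace (M n)] [∀ n, ChartedSpace E (M n)]
  [∀ n, IsManifold 𝓘(ℝ, E) ∞ (M n)] {l : Filter ι} {U : ∀ n, Set (M n)} {g : ∀ n, Ten E (M n)}
  {δ c C δ' c' C' : ℝ} {φ φ' : ∀ n, E → M n}

lemma GCh.mono (h : GCh l U g δ c C φ) (hδ : δ' ≤ δ) : GCh l U g δ' c C φ :=
  have s := ball_subset_ball (x := (0 : E)) hδ
  ⟨h.ev.mono fun _ h => ⟨h.1.mono isOpen_ball s, h.2.1.mono s, h.2.2.1.mono_left s,
    fun a ha => h.2.2.2 a (s ha)⟩,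
  fun k => (h.bj k).comp_tendsto (φ := id) (Filter.prod_mono le_rfl (principal_mono.2 s))⟩

lemma GCh.bj' (h : GCh l U g δ c C φ) {κ : Type} {l' : Filter κ} {N : κ → ι} {y : κ → E}
    (hN : Tendsto N l' l) (hy : ∀ᶠ q in l', y q ∈ ball (0 : E) δ) (k : ℕ) :
    BJ l' y k fun q => comap (φ (N q)) (g (N q)) :=
  (h.bj k).comp_tendsto (φ := fun q => (N q, y q)) (hN.prodMk (tendsto_principal.2 hy))

lemma GCh.upos (h : GCh l U g δ c C φ) (hc : 0 < c) {κ : Type} {l' : Filter κ} {N : κ → ι}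
    {y : κ → E} (hN : Tendsto N l' l) (hy : ∀ᶠ q in l', y q ∈ ball (0 : E) δ) :
    UPos l' fun q => comap (φ (N q)) (g (N q)) (y q) :=
  ⟨c, hc, ((hN.eventually h.ev).and hy).mono fun _ h v => (h.1.2.2.2 _ h.2 v).1⟩

lemma comap_of_eq {N : Type} [TopologicalSpace N] [ChartedSpace E N] (g : Ten E N) {ψ φ : E → N}
    {β : E → E} {y : E} (hβ : DifferentiableAt ℝ β y) (hφ : MD E φ (β y))
    (e : ∀ᶠ z in 𝓝 y, ψ z = φ (β z)) :
    comap ψ g y = (comap φ g (β y)).bilinearComp (fderiv ℝ β y) (fderiv ℝ β y) := by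
  rw [comap_congr (f' := φ ∘ β) g e, ← comap_comp g hφ hβ.mdifferentiableAt, ← md_model]
  rfl

/-- approximate transition maps of good charts -/
theorem GCh.trans (h : GCh l U g δ c C φ) (h' : GCh l U g δ' c' C' φ') (hc : 0 < c) (hc' : 0 < c')
    (hg : ∀ n, Met (g n) (U n)) {a b : E} (ha : a ∈ ball (0 : E) δ) (hb : b ∈ ball (0 : E) δ')
    (h1 : ∀ᶠ q in l ×ˢ 𝓝 a, φ q.1 q.2 ∈ φ' q.1 '' ball 0 δ')
    (h2 : Tendsto (fun q : ι × E => invFunOn (φ' q.1) (ball 0 δ') (φ q.1 q.2)) (l ×ˢ 𝓝 a) (𝓝 b)) :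
    SLoc l (fun n y => invFunOn (φ' n) (ball 0 δ') (φ n y)) a b := by
  have m : ∀ᶠ q in l ×ˢ 𝓝 a, q.2 ∈ ball (0 : E) δ := tendsto_snd.eventually (isOpen_ball.mem_nhds ha)
  have m' := h2.eventually (isOpen_ball.mem_nhds hb)
  have sm : ∀ᶠ q in l ×ˢ 𝓝 a,
      ContDiffAt ℝ ∞ (fun y => invFunOn (φ' q.1) (ball 0 δ') (φ q.1 y)) q.2 := by
    filter_upwards [m, h1, tendsto_fst.eventually h.ev, tendsto_fst.eventually h'.ev]
      with q h3 h4 h5 h6
    exact (((h6.1.inverse h6.2.1).sm h4).comp _ (h5.1.sm h3)).contDiffAt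
  have key := bj_iso (l := l ×ˢ 𝓝 a) (x := Prod.snd)
    (τ := fun q y => invFunOn (φ' q.1) (ball 0 δ') (φ q.1 y)) sm (h.bj' tendsto_fst m)
    (h'.bj' tendsto_fst m') (h.upos hc tendsto_fst m) (h'.upos hc' tendsto_fst m') (by
      filter_upwards [ev_ev' (ev_ev' h1), ev_ev' sm, ev_ev' m', tendsto_fst.eventually h'.ev]
        with q h3 h4 h5 h6
      filter_upwards [h3, h4, h5] with y h7 h8 h9
      refine ⟨fun u v => (hg q.1).symm _ (h6.2.2.1 h9) _ _, fun u v => ?_⟩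
      rw [comap_of_eq _ (h8.differentiableAt (by simp)) (h6.1.md h9)
        (h7.mono fun z hz => (invFunOn_eq hz).symm)]
      rfl)
  have h0 : BJ (l ×ˢ 𝓝 a) Prod.snd 0
      fun q y => invFunOn (φ' q.1) (ball 0 δ') (φ q.1 y) :=
    .zero_of sm ⟨δ', m'.mono fun q hq => (mem_ball_zero_iff.1 hq).le⟩
  exact ⟨⟨fun k => bdAt_of_bj univ_mem ((h0.succ (key k)).mono k.le_succ),
    h2.comp (tendsto_id.prodMk tendsto_const_nhds)⟩, sm⟩

lemma GCh.loc {V : Ultrafilter ι} (h : GCh V U g δ c C φ) :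
    ∃ G, Cv V (ball 0 δ) (fun n => comap (φ n) (g n)) G :=
  exists_cv fun _ ha k => bdAt_of_bj (isOpen_ball.mem_nhds ha)
    (h.bj' tendsto_fst (tendsto_snd.eventually (isOpen_ball.mem_nhds ha)) k)

/-- the system of distances -/
def sys (V : Ultrafilter ι) (U : ∀ n, Set (M n)) (g : ∀ n, Ten E (M n)) (x : ∀ n, M n)
    (hx : ∀ n, x n ∈ U n) (ρ : ℝ≥0∞) (hρ : 0 < ρ) : Sys ι M where
  U := V
  d n := ed (g n) (U n)
  refl _ _ _ h := ed_self (mem_of_ed_ne h).2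
  symm _ _ _ := ed_comm
  tri _ := ed_triangle
  mid _ _ _ _ _ := mid
  x := x
  x0 n := ed_self (hx n)
  ρ := ρ
  pos := hρ

/-- the common Lipschitz constant -/
def lc (c C : ℝ) : ℝ≥0 := Real.toNNReal (max √C (√c)⁻¹)

lemma GCh.lip (h : GCh l U g δ c C φ) : ∀ᶠ n in l, ∀ a ∈ ball (0 : E) δ, ∀ b ∈ ball (0 : E) δ,
    ed (g n) (U n) (φ n a) (φ n b) ≤ lc c C * edist a b := h.ev.mono fun n h a ha b hb => by
  refine (h.1.ed_le h.2.2.1 a b).trans ((ed_le_norm (convex_ball 0 δ) ha hb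
    fun u hu v => (h.2.2.2 u hu v).2).trans ?_)
  rw [ENNReal.ofReal_mul (Real.sqrt_nonneg _), edist_dist, dist_eq_norm]
  exact mul_le_mul_left (ENNReal.ofReal_le_ofReal (le_max_left _ _)) _

lemma GCh.opn (h : GCh l U g δ c C φ) (hc : 0 < c) (hU : ∀ n, Hs (U n)) : ∀ᶠ n in l, ∀ a ε,
    closedBall a ε ⊆ ball (0 : E) δ → ∀ z, lc c C * ed (g n) (U n) (φ n a) z < ENNReal.ofReal ε →
    z ∈ φ n '' closedBall a ε := h.ev.mono fun n h a ε hs z hz => by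
  have := FiniteDimensional.proper_real E
  have ε0 : 0 < ε := ENNReal.ofReal_pos.1 (pos_of_gt hz)
  have c0 := Real.sqrt_pos.2 hc
  have k : ed (g n) (U n) (φ n a) z < ENNReal.ofReal (√c * ε) := by
    have h1 := (mul_le_mul_left (ENNReal.ofReal_le_ofReal (le_max_right √C (√c)⁻¹)) _).trans_lt hz
    rw [ENNReal.ofReal_inv_of_pos c0, ← ENNReal.div_eq_inv_mul, ENNReal.div_lt_iff
      (Or.inl (by simpa using hc)) (Or.inl ENNReal.ofReal_ne_top)] at h1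
    rwa [mul_comm, ENNReal.ofReal_mul ε0.le]
  obtain ⟨q, h1, h2, -⟩ := ed_pull (g := comap (φ n) (g n)) h.1 h.2.1 h.2.2.1 (hU n) one_pos
    (by simp) (isCompact_closedBall a ε) hs (hs (mem_closedBall_self ε0.le)) (fun q hq => by
      have := (norm_le_ed (fun u hu v => (h.2.2.2 u hu v).1) a q).trans_lt hq
      rw [ENNReal.ofReal_one, one_mul, ENNReal.ofReal_lt_ofReal_iff (by positivity)] at this
      exact mem_closedBall_iff_norm'.2 (lt_of_mul_lt_mul_left this c0.le).le) k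
  exact ⟨q, h1, h2⟩

variable {V : Ultrafilter ι} {x : ∀ n, M n} {hx : ∀ n, x n ∈ U n} {ρ : ℝ≥0∞} {hρ : 0 < ρ}

lemma exists_ch (hU : ∀ n, Hs (U n)) (H : Good V U g x ρ) {r : ℝ≥0∞} (hr : r < ρ) :
    ∃ δ > 0, ∃ c > 0, ∃ C, ∀ p, edist (sys V U g x hx ρ hρ).o p ≤ r →
      ∃ e : Ch (sys V U g x hx ρ hρ) E, e.S = ball 0 δ ∧ e.L = lc c C ∧ e.ψ 0 = p ∧
        (∀ᶠ n in V, e.φ n 0 = Sys.rep _ p n) ∧ GCh V U g δ c C e.φ := by
  obtain ⟨r', h1, h2⟩ := exists_between hr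
  obtain ⟨δ, δ0, c, c0, C, H⟩ := H r' h2
  have h3 : Tendsto (fun t => r' + lc c C * ENNReal.ofReal t) (𝓝[>] 0) (𝓝 r') := by
    simpa using (ENNReal.Tendsto.const_mul (a := lc c C) ((ENNReal.continuous_ofReal.tendsto
      0).mono_left (nhdsWithin_le_nhds (s := Ioi 0))) (Or.inr ENNReal.coe_ne_top)).const_add r'
  obtain ⟨ε, h4, ε0, h5⟩ := ((h3.eventually (gt_mem_nhds h2)).and (Ioo_mem_nhdsGT δ0)).exists
  refine ⟨ε, ε0, c, c0, C, fun p hp => ?_⟩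
  let s := sys V U g x hx ρ hρ
  rw [Sys.rep_x.edist (Sys.rep_rep p)] at hp
  obtain ⟨φ, h6, h7⟩ := H (s.rep p) ((s.ev_lt (hp.trans_lt h1)).mono fun _ h => h.le)
  replace h7 := h7.mono h5.le
  have h8 : s.D (s.rep p) (fun n => φ n 0) = 0 := le_zero_iff.1 (s.D_le (by
    filter_upwards [h6, s.ev_lt (s.rep_in p)] with n h9 h10
    rw [h9]; exact (s.refl n _ _ h10.ne_top).le))
  refine ⟨⟨ball 0 ε, isOpen_ball, φ, lc c C, h7.ev.mono fun _ h => h.2.1, h7.lip, h7.opn c0 hU,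
    fun a ha => ((s.D_tri _ (s.rep p) _).trans (add_le_add (hp.trans h1.le) ?_)).trans_lt h4⟩,
    rfl, rfl, ((Sys.rep_rep p).of_zero h8).2, h6, h7⟩
  rw [s.D_congr h8]
  refine s.D_le (h7.lip.mono fun n h => (h 0 (mem_ball_self ε0) a ha).trans
    (mul_le_mul_right ?_ _))
  rw [edist_dist]
  exact ENNReal.ofReal_le_ofReal (mem_ball'.1 ha).le

lemma unif (hU : ∀ n, Hs (U n)) (H : Good V U g x ρ) : (sys V U g x hx ρ hρ).Unif := fun r hr => by
  have := FiniteDimensional.proper_real E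
  obtain ⟨δ, δ0, c, -, C, H⟩ := exists_ch (hx := hx) (hρ := hρ) hU H hr
  obtain ⟨η, η0, hη⟩ := ENNReal.exists_nnreal_pos_mul_lt (a := lc c C) (b := ENNReal.ofReal (δ / 2))
    ENNReal.coe_ne_top (by simpa using δ0)
  refine ⟨η, by simpa using η0, fun p hp => ?_⟩
  obtain ⟨e, h1, h2, rfl, -⟩ := H p hp
  exact e.exists_K (h1 ▸ closedBall_subset_ball (half_lt_self δ0)) (by rwa [h2, mul_comm])

end Vale.Agent.P216U
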